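import Vale.Agent.Lib.P338.WLib

/-! The naive transposition program. -/

set_option linter.constructorNameAsVariable false

namespace Vale.Agent.P338

open Function

namespace Fallback

variable {Ω : (W → List G) → (W → List G) → ℕ → Prop}

/-- the rows of the matrix, the first `j` entries being removed -/
def rows (m : ℕ) (a : ℕ → ℕ → Bool) (j k : ℕ) : List Bool :=
  (List.range' j (m - j)).map (a k)

/-- a column -/
def col (m : ℕ) (a : ℕ → ℕ → Bool) (j : ℕ) : List Bool := (List.range m).map fun k => a k j

theorem rows_cons {m : ℕ} (a : ℕ → ℕ → Bool) {j : ℕ} (hj : j < m) (k : ℕ) :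
    rows m a j k = a k j :: rows m a (j + 1) k := by
  obtain ⟨l, hl⟩ : ∃ l, m - j = l + 1 := ⟨m - j - 1, by omega⟩
  have h1 : m - (j + 1) = l := by omega
  rw [rows, rows, hl, h1, List.range'_succ, List.map_cons]

theorem rows_length (m : ℕ) (a : ℕ → ℕ → Bool) (j k : ℕ) : (rows m a j k).length = m - j := by
  simp [rows]

theorem map_range_mul (f : ℕ → Bool) (n k : ℕ) :
    (List.range (k * n)).map f = seg (fun i => (List.range n).map fun c => f (i * n + c)) 0 k := by
  induction k with
  | zero => simp
  | succ k ih =>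
    rw [seg_succ', ← ih, Nat.succ_mul, List.range_add, List.map_append, List.map_map]
    simp [Function.comp_def]

theorem rowMajor_eq (m : ℕ) (a : ℕ → ℕ → Bool) :
    rowMajor m a = seg (fun i => (List.range m).map fun c => a i c) 0 m := by
  rw [rowMajor, map_range_mul]
  apply seg_congr
  intro k _ _
  apply List.map_congr_left
  intro c hc
  have hc' : c < m := List.mem_range.1 hc
  have h1 : (k * m + c) / m = k := by
    rw [Nat.add_comm, Nat.add_mul_div_right _ _ (by omega), Nat.div_eq_of_lt hc', Nat.zero_add]
  have h2 : (k * m + c) % m = c := by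
    rw [Nat.add_comm, Nat.add_mul_mod_self_right, Nat.mod_eq_of_lt hc']
  rw [h1, h2]

theorem rowMajor_rows (m : ℕ) (a : ℕ → ℕ → Bool) : rowMajor m a = seg (rows m a 0) 0 m := by
  rw [rowMajor_eq]
  apply seg_congr
  intro k _ _
  simp [rows, List.range_eq_range']

theorem rowMajor_cols (m : ℕ) (a : ℕ → ℕ → Bool) :
    rowMajor m (fun i j => a j i) = seg (col m a) 0 m := by
  rw [rowMajor_eq]
  rfl

/-- one pass: the first column is moved to the output -/
def pass : Cmd W G :=
  .seq (pop .x2) (.seq (.loop (ne .dat) (.seq (mv .dat .out) (takeN .dat .acc .x2 .u1)))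
    (moveAll .acc .dat))

theorem run_passW (s : St) (m j : ℕ) (a : ℕ → ℕ → Bool) (hj : j < m) (hd : s.dat = seg (rows m a j) 0 m)
    (ha : s.acc = []) (hx : s.x2 = m - j) (hu : s.u1 = 0) :
    Run Ω pass s.st (St.st {s with dat := seg (rows m a (j + 1)) 0 m, x2 := m - (j + 1),
                                   out := (col m a j).reverse ++ s.out})
      (m * (5 * m + 4) + 2 * (m * m) + 4) := by
  have hx' : m - j = (m - (j + 1)) + 1 := by omega
  have h := t_pop (Ω := Ω) .x2 (m - (j + 1)) (f := s.st) (by simp [hx, hx'])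
  simp only [upd_x2] at h
  have h2 := run_pass (Ω := Ω) (body := .seq (mv .dat .out) (takeN .dat .acc .x2 .u1))
    (fun k => {s with x2 := m - (j + 1), out := (col k a j).reverse ++ s.out})
    (rows m a j) (rows m a (j + 1)) m (5 * m + 3) []
    (fun k hk => by rw [rows_cons a hj]; simp)
    (fun k hk D A => by
      have g := w_mv (Ω := Ω) .dat .out (by decide) (a k j) (rows m a (j + 1) k ++ D)
        (f := St.st {s with x2 := m - (j + 1), out := (col k a j).reverse ++ s.out,
                            dat := rows m a j k ++ D, acc := A})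
        (by simp [rows_cons a hj]) rfl
      simp only [upd_dat, upd_out] at g
      have g := g.seq (w_take .dat .acc .x2 .u1 (by decide) (rows m a (j + 1) k) D
        (rows_length m a (j + 1) k) rfl rfl rfl (by simp [hu]))
      simp only [upd_dat, upd_acc] at g
      refine g.congr ?_ ?_
      · congr 1
        simp [col, List.range_succ]
      · omega)
  have h3 := h.seq (Run.seq (Run.cast h2 ?_ rfl le_rfl) (w_moveAll .acc .dat (by decide) rfl rfl))
  · simp only [upd_dat, upd_acc] at h3
    refine h3.congr ?_ ?_
    · congr 1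
      simp [ha]
    · have h4 : (seg (rows m a (j + 1)) 0 m).length = m * (m - (j + 1)) :=
        seg_length fun k _ _ => rows_length m a (j + 1) k
      have h5 : m * (m - (j + 1)) ≤ m * m := Nat.mul_le_mul_left _ (by omega)
      simp only [List.append_nil, List.length_reverse, h4]
      have h6 : m * (5 * m + 3 + 1) = m * (5 * m + 4) := by ring
      omega
  · congr 1
    cases s
    simp_all [col]

/-- the naive program -/
def prog : Cmd W G :=
  .seq (.seq (.seq (.seq (copy .m .x2 .u1) (forT .m .u3 pass)) (moveAll .out .t1))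
    (moveAll .t1 .t2)) (moveAll .t2 .out)

/-- the state after `j` passes -/
@[reducible] def S (m : ℕ) (a : ℕ → ℕ → Bool) (j : ℕ) : St :=
  {E with dat := seg (rows m a j) 0 m, x2 := m - j, out := (seg (col m a) 0 j).reverse, m := m}

theorem run_prog (m : ℕ) (a : ℕ → ℕ → Bool) : ∃ k,
    Run Ω prog (St.st {E with dat := rowMajor m a, m := m})
      (St.st {S m a m with out := seg (col m a) 0 m}) k := by
  have h := t_copy (Ω := Ω) .m .x2 .u1 (by decide) (f := St.st {E with dat := rowMajor m a, m := m})
    (a := m) (b := 0) rfl rfl rfl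
  simp only [upd_x2] at h
  have hf := w_for (Ω := Ω) .m .u3 (by decide) (body := pass) (S m a) m
    (m * (5 * m + 4) + 2 * (m * m) + 4) (fun j hj x y => by
      simp only [upd_m, upd_u3]
      refine (run_passW _ m j a hj rfl rfl rfl rfl).congr ?_ le_rfl
      congr 1
      simp [seg_succ'])
  simp only [upd_m, upd_u3] at hf
  have h2 := h.seq (Run.cast hf (by
    congr 1
    simp [rowMajor_rows]) rfl le_rfl)
  have h3 := h2.seq (w_moveAll .out .t1 (by decide) rfl rfl)
  simp only [upd_out, upd_t1] at h3
  have h4 := h3.seq (w_moveAll .t1 .t2 (by decide) rfl rfl)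
  simp only [upd_t2, upd_t1] at h4
  have h5 := h4.seq (w_moveAll .t2 .out (by decide) rfl rfl)
  simp only [upd_t2, upd_out] at h5
  exact ⟨_, h5.congr (by simp) le_rfl⟩

end Fallback

/-- The naive transposition program. -/
theorem exists_fallback : ∃ (fb : Cmd W G), ∀ (m : ℕ) (a : ℕ → ℕ → Bool), 1 ≤ m →
    ∃ (s' : St) (k : ℕ), s'.out = rowMajor m (fun i j => a j i) ∧
      Run noOracle fb (St.st {E with dat := rowMajor m a, m := m}) s'.st k := by
  refine ⟨Fallback.prog, fun m a _ => ?_⟩
  obtain ⟨k, hk⟩ := Fallback.run_prog (Ω := noOracle) m a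
  exact ⟨_, k, (Fallback.rowMajor_cols m a).symm, hk⟩

end Vale.Agent.P338
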