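import Vale.Agent.Lib.P338.Stack

/-!
# Module SIM of P338: simulation of a multiplication machine by a stack program
-/

namespace Vale.Agent.P338

namespace Sim

/-! ### Loops -/

section loops

variable {ι Γ : Type} {Ω : (ι → List Γ) → (ι → List Γ) → ℕ → Prop}

/-- A loop executed `m` times, with constant cost of the body. -/
lemma exec_loop (t : (ι → Option Γ) → Bool) (a : Cmd ι Γ) (c : ℕ) :
    ∀ (m : ℕ) (s : ℕ → ι → List Γ), (∀ j < m, t (tops (s j)) = true) →
      (∀ j < m, Exec Ω a (s j) (s (j + 1)) c) → t (tops (s m)) = false →
      Exec Ω (.loop t a) (s 0) (s m) (m * (c + 1) + 1) := by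
  intro m
  induction m with
  | zero =>
    intro s _ _ h
    simpa using Exec.loop_done t a (s 0) h
  | succ m ih =>
    intro s h1 h2 h3
    have h4 := ih (fun j => s (j + 1)) (fun j hj => h1 (j + 1) (by omega))
      (fun j hj => h2 (j + 1) (by omega)) h3
    have h5 := Exec.loop_step t a (s 0) (s 1) (s (m + 1)) c (m * (c + 1) + 1)
      (h1 0 (Nat.succ_pos m)) (h2 0 (Nat.succ_pos m)) h4
    have h6 : c + (m * (c + 1) + 1) + 1 = (m + 1) * (c + 1) + 1 := by ring
    rw [h6] at h5
    exact h5

lemma exec_loop' (t : (ι → Option Γ) → Bool) (a : Cmd ι Γ) (c m : ℕ) (s : ℕ → ι → List Γ)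
    (s₀ s₁ : ι → List Γ) (h₀ : s 0 = s₀) (h₁ : s m = s₁)
    (ht : ∀ j < m, t (tops (s j)) = true)
    (ha : ∀ j < m, Exec Ω a (s j) (s (j + 1)) c) (hf : t (tops (s m)) = false) :
    Exec Ω (.loop t a) s₀ s₁ (m * (c + 1) + 1) := by
  rw [← h₀, ← h₁]
  exact exec_loop t a c m s ht ha hf

lemma exec_seq {a b : Cmd ι Γ} {s s₁ s₂ : ι → List Γ} {n m : ℕ} (h₁ : Exec Ω a s s₁ n)
    (h₂ : Exec Ω b s₁ s₂ m) : Exec Ω (.seq a b) s s₂ (n + m) := Exec.seq _ _ _ _ _ _ _ h₁ h₂

lemma exec_act (f : (ι → Option Γ) → ι → Op Γ) (s s' : ι → List Γ)
    (h : ∀ i, (f (tops s) i).app (s i) = s' i) : Exec Ω (.act f) s s' 1 := by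
  have : s' = fun i => (f (tops s) i).app (s i) := by
    funext i
    exact (h i).symm
  rw [this]
  exact Exec.act f s

end loops

/-! ### Runs of machines -/

section machine

variable (M : Machine)

lemma run_add (a b : ℕ) (c : M.Config) : M.run (a + b) c = (M.run a c).bind (M.run b) := by
  induction a generalizing c with
  | zero => simp [Machine.run]
  | succ a ih =>
    rw [Nat.succ_add]
    change (M.next c).bind (M.run (a + b)) = ((M.next c).bind (M.run a)).bind (M.run b)
    cases h : M.next c with
    | none => rfl
    | some c' => exact ih c'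

lemma halts_unique {w : List M.Sym} {t t' : ℕ} {c c' : M.Config} (h : M.HaltsIn w t c)
    (h' : M.HaltsIn w t' c') : t = t' := by
  wlog hlt : t < t' generalizing t t' c c'
  · rcases Nat.lt_or_ge t' t with h1 | h1
    · exact (this h' h h1).symm
    · exact le_antisymm h1 (not_lt.1 hlt)
  obtain ⟨k, rfl⟩ : ∃ k, t' = t + (k + 1) := ⟨t' - t - 1, by omega⟩
  have h1 := h'.1
  rw [run_add, h.1] at h1
  change (M.next c).bind (M.run k) = some c' at h1
  rw [h.2] at h1
  cases h1

lemma finite_words (n : ℕ) : {x : List Bool | x.length = n}.Finite :=
  List.finite_length_eq Bool n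

lemma mulTime_bdd (n : ℕ) : BddAbove {t | ∃ x y : List Bool, x.length = n ∧ y.length = n ∧
    ∃ c, M.HaltsIn (M.mulInput x y) t c} := by
  classical
  apply Set.Finite.bddAbove
  have hfin : ({x : List Bool | x.length = n} ×ˢ {x : List Bool | x.length = n}).Finite :=
    (finite_words n).prod (finite_words n)
  refine (hfin.image (fun p => if h : ∃ t c, M.HaltsIn (M.mulInput p.1 p.2) t c then
    h.choose else 0)).subset ?_
  rintro t ⟨x, y, hx, hy, c, hc⟩
  refine ⟨(x, y), ⟨hx, hy⟩, ?_⟩
  have hex : ∃ t c, M.HaltsIn (M.mulInput x y) t c := ⟨t, c, hc⟩
  simp only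
  rw [dif_pos hex]
  obtain ⟨c', hc'⟩ := hex.choose_spec
  exact halts_unique M hc' hc

lemma le_mulTime {n t : ℕ} {x y : List Bool} {c : M.Config} (hx : x.length = n)
    (hy : y.length = n) (h : M.HaltsIn (M.mulInput x y) t c) : t ≤ M.mulTime n :=
  le_csSup (mulTime_bdd M n) ⟨x, y, hx, hy, c, h⟩

end machine

/-! ### Tapes as pairs of stacks -/

section tape

variable {Sym : Type} (blank : Sym)

/-- The pair of stacks `(l, r)` represents the tape `cell` with the head on cell `h`. -/
def RepT (h : ℕ) (cell : ℕ → Sym) (l r : List Sym) : Prop :=
  l = ((List.range h).map cell).reverse ∧ ∀ n, r.getD n blank = cell (h + n)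

/-- New left stack after writing `b` and moving. -/
def newL (b : Sym) : Move → List Sym → List Sym
  | .stay, l => l
  | .right, l => b :: l
  | .left, l => l.tail

/-- New right stack after writing `b` and moving. -/
def newR (b : Sym) : Move → List Sym → List Sym → List Sym
  | .stay, _, r => b :: r.tail
  | .right, _, r => r.tail
  | .left, [], r => b :: r.tail
  | .left, x :: _, r => x :: b :: r.tail

lemma getD_tail (r : List Sym) (n : ℕ) : r.tail.getD n blank = r.getD (n + 1) blank := by
  cases r with
  | nil => simp
  | cons a r => simp

lemma RepT.step {h : ℕ} {cell : ℕ → Sym} {l r : List Sym} (H : RepT blank h cell l r) (b : Sym)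
    (mv : Move) : RepT blank (mv.apply h) (Function.update cell h b) (newL b mv l)
      (newR b mv l r) := by
  obtain ⟨hl, hr⟩ := H
  have hlow : ∀ k ≤ h, (List.range k).map (Function.update cell h b) = (List.range k).map cell := by
    intro k hk
    apply List.map_congr_left
    intro i hi
    rw [List.mem_range] at hi
    rw [Function.update_of_ne (by omega)]
  have htail : ∀ n, r.tail.getD n blank = Function.update cell h b (h + 1 + n) := by
    intro n
    rw [getD_tail, hr, Function.update_of_ne (by omega)]
    congr 1
    ring
  cases mv with
  | stay =>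
    refine ⟨?_, ?_⟩
    · change l = _
      rw [show Move.stay.apply h = h from rfl, hlow h le_rfl, hl]
    · intro n
      change (b :: r.tail).getD n blank = _
      rw [show Move.stay.apply h = h from rfl]
      cases n with
      | zero => simp
      | succ n =>
        rw [List.getD_cons_succ, htail]
        congr 1
        ring
  | right =>
    refine ⟨?_, ?_⟩
    · change b :: l = _
      rw [show Move.right.apply h = h + 1 from rfl, List.range_succ, List.map_append,
        List.reverse_append, hlow h le_rfl, ← hl]
      simp
    · intro n
      change r.tail.getD n blank = _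
      rw [htail]
      rfl
  | left =>
    cases h with
    | zero =>
      have hl' : l = [] := by rw [hl]; rfl
      subst hl'
      refine ⟨rfl, ?_⟩
      intro n
      change (b :: r.tail).getD n blank = _
      cases n with
      | zero => simp [Move.apply]
      | succ n =>
        rw [List.getD_cons_succ, htail]
        congr 1
        simp [Move.apply]
        ring
    | succ k =>
      have hl' : l = cell k :: ((List.range k).map cell).reverse := by
        rw [hl, List.range_succ, List.map_append, List.reverse_append]
        rfl
      rw [hl']
      refine ⟨?_, ?_⟩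
      · change ((List.range k).map cell).reverse = _
        rw [show Move.left.apply (k + 1) = k from rfl, hlow k (by omega)]
      · intro n
        change (cell k :: b :: r.tail).getD n blank = _
        rw [show Move.left.apply (k + 1) = k from rfl]
        cases n with
        | zero =>
          rw [List.getD_cons_zero, add_zero, Function.update_of_ne (by omega)]
        | succ n =>
          cases n with
          | zero => simp
          | succ n =>
            rw [List.getD_cons_succ, List.getD_cons_succ, htail]
            congr 1
            ring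

lemma length_step (b : Sym) (mv : Move) (l r : List Sym) :
    (newL b mv l).length + (newR b mv l r).length ≤ l.length + r.length + 1 := by
  cases mv with
  | stay => simp [newL, newR]; omega
  | right => simp [newL, newR]; omega
  | left =>
    cases l with
    | nil => simp [newL, newR]
    | cons x l => simp [newL, newR]; omega

end tape

/-! ### The simulating program -/

section program

variable {ι : Type} (M : Machine)

/-- The new stacks: two for every tape and one for the state. -/
abbrev Kap : Type := (M.Tape × Bool) ⊕ Unit

/-- The new symbols. -/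
abbrev Del : Type := M.Sym ⊕ (M.State × (M.Tape → Move))

/-- The state of the simulation: `f` on the old stacks, left and right halves of the tapes, and
the stack of states. -/
def st (f : ι → List G) (L R : M.Tape → List M.Sym) (S : List (M.State × (M.Tape → Move))) :
    ι ⊕ Kap M → List (G ⊕ Del M)
  | .inl i => (f i).map Sum.inl
  | .inr (.inl (p, true)) => (R p).map (fun a => Sum.inr (Sum.inl a))
  | .inr (.inl (p, false)) => (L p).map (fun a => Sum.inr (Sum.inl a))
  | .inr (.inr _) => S.map (fun a => Sum.inr (Sum.inr a))

lemma st_lift (f : ι → List G) :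
    lift f = st M f (fun _ => []) (fun _ => []) [] := by
  funext i
  rcases i with i | ⟨p, b⟩ | u
  · rfl
  · cases b <;> rfl
  · rfl

/-- The machine symbol on top of a stack. -/
def symTop : Option (G ⊕ Del M) → M.Sym
  | some (.inr (.inl a)) => a
  | _ => M.blank

/-- The state on top of a stack. -/
def stTop : Option (G ⊕ Del M) → M.State × (M.Tape → Move)
  | some (.inr (.inr a)) => a
  | _ => (M.start, fun _ => .stay)

/-- The scanned symbols. -/
def scan (t : ι ⊕ Kap M → Option (G ⊕ Del M)) : M.Tape → M.Sym :=
  fun i => symTop M (t (.inr (.inl (i, true))))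

lemma scan_st (f : ι → List G) (L R : M.Tape → List M.Sym)
    (S : List (M.State × (M.Tape → Move))) (i : M.Tape) :
    scan M (tops (st M f L R S)) i = (R i).getD 0 M.blank := by
  simp only [scan, tops, st]
  cases R i <;> simp [symTop]

lemma stTop_st (f : ι → List G) (L R : M.Tape → List M.Sym)
    (a : M.State × (M.Tape → Move)) :
    stTop M (tops (st M f L R [a]) (.inr (.inr ()))) = a := by
  simp [tops, st, stTop]

/-- First half of a simulated step: write. -/
def act1 (t : ι ⊕ Kap M → Option (G ⊕ Del M)) : ι ⊕ Kap M → Op (G ⊕ Del M) :=
  match M.step (stTop M (t (.inr (.inr ())))).1 (scan M t) with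
  | none => fun _ => .nop
  | some (q, w) => fun
    | .inl _ => .nop
    | .inr (.inl (i, true)) => .rep (.inr (.inl (w i).1))
    | .inr (.inl (_, false)) => .nop
    | .inr (.inr _) => .rep (.inr (.inr (q, fun i => (w i).2)))

/-- Push the top, if there is one. -/
def pushO {Γ : Type} : Option Γ → Op Γ
  | none => .nop
  | some a => .push a

/-- Second half of a simulated step: move. -/
def act2 (t : ι ⊕ Kap M → Option (G ⊕ Del M)) : ι ⊕ Kap M → Op (G ⊕ Del M)
  | .inl _ => .nop
  | .inr (.inl (i, true)) =>
    match (stTop M (t (.inr (.inr ())))).2 i with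
    | .stay => .nop
    | .right => .pop
    | .left => pushO (t (.inr (.inl (i, false))))
  | .inr (.inl (i, false)) =>
    match (stTop M (t (.inr (.inr ())))).2 i with
    | .stay => .nop
    | .right => pushO (t (.inr (.inl (i, true))))
    | .left => .pop
  | .inr (.inr _) => .nop

variable {Ω : (ι ⊕ Kap M → List (G ⊕ Del M)) → (ι ⊕ Kap M → List (G ⊕ Del M)) → ℕ → Prop}

lemma exec_step (f : ι → List G) (L R : M.Tape → List M.Sym) (q : M.State)
    (mv : M.Tape → Move) (q' : M.State) (w : M.Tape → M.Sym × Move)
    (h : M.step q (fun i => (R i).getD 0 M.blank) = some (q', w)) :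
    Exec Ω (.seq (.act (act1 M)) (.act (act2 M))) (st M f L R [(q, mv)])
      (st M f (fun i => newL (w i).1 (w i).2 (L i)) (fun i => newR (w i).1 (w i).2 (L i) (R i))
        [(q', fun i => (w i).2)]) 2 := by
  have h1 : Exec Ω (.act (act1 M)) (st M f L R [(q, mv)])
      (st M f L (fun i => (w i).1 :: (R i).tail) [(q', fun i => (w i).2)]) 1 := by
    apply exec_act
    have hs : M.step (stTop M (tops (st M f L R [(q, mv)]) (.inr (.inr ())))).1
        (scan M (tops (st M f L R [(q, mv)]))) = some (q', w) := by
      rw [stTop_st, ← h]
      congr 1
      funext i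
      exact scan_st M f L R _ i
    intro i
    unfold act1
    rw [hs]
    rcases i with i | ⟨p, b⟩ | u
    · rfl
    · cases b
      · rfl
      · simp [st, Op.app, List.map_tail]
    · simp [st, Op.app]
  have h2 : Exec Ω (.act (act2 M)) (st M f L (fun i => (w i).1 :: (R i).tail)
      [(q', fun i => (w i).2)])
      (st M f (fun i => newL (w i).1 (w i).2 (L i)) (fun i => newR (w i).1 (w i).2 (L i) (R i))
        [(q', fun i => (w i).2)]) 1 := by
    apply exec_act
    have hs := stTop_st M f L (fun i => (w i).1 :: (R i).tail) (q', fun i => (w i).2)
    intro i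
    rcases i with i | ⟨p, b⟩ | u
    · rfl
    · cases b
      · unfold act2
        simp only
        rw [hs]
        simp only
        cases hmv : (w p).2 with
        | stay => simp [st, Op.app, newL, hmv]
        | right => simp [st, Op.app, newL, hmv, tops, pushO]
        | left => simp [st, Op.app, newL, hmv, List.map_tail]
      · unfold act2
        simp only
        rw [hs]
        simp only
        cases hmv : (w p).2 with
        | stay => simp [st, Op.app, newR, hmv, List.map_tail]
        | right => simp [st, Op.app, newR, hmv, List.map_tail]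
        | left =>
          cases hL : L p with
          | nil => simp [st, Op.app, newR, hmv, tops, pushO, hL, List.map_tail]
          | cons x l => simp [st, Op.app, newR, hmv, tops, pushO, hL, List.map_tail]
    · rfl
  exact exec_seq h1 h2

/-- The simulation loop. -/
def simLoop : Cmd (ι ⊕ Kap M) (G ⊕ Del M) :=
  .loop (fun t => (M.step (stTop M (t (.inr (.inr ())))).1 (scan M t)).isSome)
    (.seq (.act (act1 M)) (.act (act2 M)))

lemma exec_simLoop (f : ι → List G) : ∀ (t : ℕ) (c c' : M.Config) (L R : M.Tape → List M.Sym)
    (mv : M.Tape → Move), M.run t c = some c' → M.next c' = none →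
    (∀ i, RepT M.blank (c.head i) (c.cell i) (L i) (R i)) →
    ∃ L' R' mv', Exec Ω (simLoop M) (st M f L R [(c.state, mv)])
      (st M f L' R' [(c'.state, mv')]) (3 * t + 1) ∧
      (∀ i, RepT M.blank (c'.head i) (c'.cell i) (L' i) (R' i)) ∧
      ∀ i, (L' i).length + (R' i).length ≤ (L i).length + (R i).length + t := by
  intro t
  induction t with
  | zero =>
    intro c c' L R mv hrun hnext hrep
    have hcc : c = c' := by
      have : some c = some c' := hrun
      exact Option.some.inj this
    subst hcc
    refine ⟨L, R, mv, ?_, hrep, fun i => le_rfl⟩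
    apply Exec.loop_done
    rw [stTop_st]
    have h1 : scan M (tops (st M f L R [(c.state, mv)])) = fun i => c.cell i (c.head i) := by
      funext i
      rw [scan_st, (hrep i).2 0, add_zero]
    rw [h1]
    simp only [Machine.next, Option.map_eq_none_iff] at hnext
    simp [hnext]
  | succ t ih =>
    intro c c' L R mv hrun hnext hrep
    have h1 : (fun i => (R i).getD 0 M.blank) = fun i => c.cell i (c.head i) := by
      funext i
      rw [(hrep i).2 0, add_zero]
    have hrun' : (M.next c).bind (M.run t) = some c' := hrun
    cases hs : M.step c.state (fun i => c.cell i (c.head i)) with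
    | none =>
      simp [Machine.next, hs] at hrun'
    | some r =>
      obtain ⟨q', w⟩ := r
      have hn : M.next c = some
          { state := q'
            head := fun i => (w i).2.apply (c.head i)
            cell := fun i => Function.update (c.cell i) (c.head i) (w i).1 } := by
        simp [Machine.next, hs]
      rw [hn] at hrun'
      have hrun'' := hrun'
      simp only [Option.bind_some] at hrun''
      obtain ⟨L', R', mv', hE, hrep', hlen⟩ := ih _ c'
        (fun i => newL (w i).1 (w i).2 (L i)) (fun i => newR (w i).1 (w i).2 (L i) (R i))
        (fun i => (w i).2) hrun'' hnext (fun i => (hrep i).step M.blank (w i).1 (w i).2)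
      refine ⟨L', R', mv', ?_, hrep', ?_⟩
      · have hbody := exec_step (Ω := Ω) M f L R c.state mv q' w (by rw [h1]; exact hs)
        have htest : (M.step (stTop M (tops (st M f L R [(c.state, mv)]) (.inr (.inr ())))).1
            (scan M (tops (st M f L R [(c.state, mv)])))).isSome = true := by
          rw [stTop_st]
          have h2 : scan M (tops (st M f L R [(c.state, mv)])) =
              fun i => c.cell i (c.head i) := by
            funext i
            rw [scan_st, (hrep i).2 0, add_zero]
          rw [h2, hs]
          rfl
        have h3 := Exec.loop_step (Ω := Ω)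
          (fun t => (M.step (stTop M (t (.inr (.inr ())))).1 (scan M t)).isSome)
          (.seq (.act (act1 M)) (.act (act2 M))) _ _ _ _ _ htest hbody hE
        have h4 : 2 + (3 * t + 1) + 1 = 3 * (t + 1) + 1 := by ring
        rw [h4] at h3
        exact h3
      · intro i
        have := hlen i
        have h5 := length_step (w i).1 (w i).2 (L i) (R i)
        omega

end program

/-! ### Loading, unloading and cleaning -/

section phases

variable {ι : Type} (M : Machine)

variable {Ω : (ι ⊕ Kap M → List (G ⊕ Del M)) → (ι ⊕ Kap M → List (G ⊕ Del M)) → ℕ → Prop}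

open Classical in
/-- Move the left half of tape `p` to the right half (rewind). -/
noncomputable def rew (p : M.Tape) : Cmd (ι ⊕ Kap M) (G ⊕ Del M) :=
  .loop (fun t => (t (.inr (.inl (p, false)))).isSome)
    (.act (fun t => fun
      | .inl _ => .nop
      | .inr (.inl (i, true)) => if i = p then pushO (t (.inr (.inl (p, false)))) else .nop
      | .inr (.inl (i, false)) => if i = p then .pop else .nop
      | .inr (.inr _) => .nop))

lemma drop_eq_cons {α : Type} (l : List α) (j : ℕ) (h : j < l.length) :
    l.drop j = l[j] :: l.drop (j + 1) := List.drop_eq_getElem_cons h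

lemma take_succ_rev {α : Type} (l : List α) (j : ℕ) (h : j < l.length) :
    (l.take (j + 1)).reverse = l[j] :: (l.take j).reverse := by
  rw [List.take_succ_eq_append_getElem h, List.reverse_append]
  rfl

open Classical in
lemma exec_rew (f : ι → List G) (L R : M.Tape → List M.Sym)
    (S : List (M.State × (M.Tape → Move))) (p : M.Tape) :
    Exec Ω (rew M p) (st M f L R S)
      (st M f (Function.update L p []) (Function.update R p ((L p).reverse ++ R p)) S)
      ((L p).length * 2 + 1) := by
  refine exec_loop' (Ω := Ω) (fun t => (t (.inr (.inl (p, false)))).isSome)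
    (.act (fun t => fun
      | .inl _ => .nop
      | .inr (.inl (i, true)) => if i = p then pushO (t (.inr (.inl (p, false)))) else .nop
      | .inr (.inl (i, false)) => if i = p then .pop else .nop
      | .inr (.inr _) => .nop)) 1 (L p).length
    (fun j => st M f (Function.update L p ((L p).drop j))
      (Function.update R p (((L p).take j).reverse ++ R p)) S) _ _ ?_ ?_ ?_ ?_ ?_
  · simp
  · simp
  · intro j hj
    simp [tops, st, hj]
  · intro j hj
    apply exec_act
    intro i
    have hd := drop_eq_cons (L p) j hj
    have ht := take_succ_rev (L p) j hj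
    have htop : tops (st M f (Function.update L p ((L p).drop j))
        (Function.update R p (((L p).take j).reverse ++ R p)) S) (.inr (.inl (p, false))) =
        some (.inr (.inl (L p)[j])) := by
      simp only [tops, st, Function.update_self]
      rw [hd]
      rfl
    rcases i with i | ⟨q, b⟩ | u
    · rfl
    · cases b
      · by_cases hq : q = p
        · subst hq
          simp only [st, Function.update_self, if_true, Op.app]
          rw [← List.map_tail, List.tail_drop]
        · simp [st, hq, Op.app]
      · by_cases hq : q = p
        · subst hq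
          simp only [if_true]
          rw [htop]
          simp only [st, Function.update_self, Op.app, pushO]
          rw [ht]
          rfl
        · simp [st, hq, Op.app]
    · rfl
  · simp [tops, st]

/-- Conversion of symbols. -/
def gs : G → M.Sym
  | .bit b => M.bit b
  | .sep => M.sep
  | .tick => M.blank

/-- Conversion of the top of the argument stack. -/
def conv : Option (G ⊕ Del M) → Op (G ⊕ Del M)
  | some (.inl a) => .push (.inr (.inl (gs M a)))
  | _ => .nop

open Classical in
/-- Load the argument on the left half of the input tape. -/
noncomputable def load (arg : ι) : Cmd (ι ⊕ Kap M) (G ⊕ Del M) :=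
  .loop (fun t => (t (.inl arg)).isSome)
    (.act (fun t => fun
      | .inl i => if i = arg then .pop else .nop
      | .inr (.inl (_, true)) => .nop
      | .inr (.inl (i, false)) => if i = M.inp then conv M (t (.inl arg)) else .nop
      | .inr (.inr _) => .nop))

open Classical in
lemma exec_load (f : ι → List G) (arg : ι) :
    Exec Ω (load M arg) (st M f (fun _ => []) (fun _ => []) [])
      (st M (Function.update f arg [])
        (Function.update (fun _ => []) M.inp ((f arg).map (gs M)).reverse) (fun _ => []) [])
      ((f arg).length * 2 + 1) := by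
  refine exec_loop' (Ω := Ω) (fun t => (t (.inl arg)).isSome)
    (.act (fun t => fun
      | .inl i => if i = arg then .pop else .nop
      | .inr (.inl (_, true)) => .nop
      | .inr (.inl (i, false)) => if i = M.inp then conv M (t (.inl arg)) else .nop
      | .inr (.inr _) => .nop)) 1 (f arg).length
    (fun j => st M (Function.update f arg ((f arg).drop j))
      (Function.update (fun _ => []) M.inp (((f arg).take j).reverse.map (gs M)))
      (fun _ => []) []) _ _ ?_ ?_ ?_ ?_ ?_
  · simp only [List.take_zero, List.drop_zero, List.reverse_nil, List.map_nil,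
      Function.update_eq_self]
  · simp
  · intro j hj
    simp [tops, st, hj]
  · intro j hj
    apply exec_act
    intro i
    have hd := drop_eq_cons (f arg) j hj
    have ht := take_succ_rev (f arg) j hj
    have htop : tops (st M (Function.update f arg ((f arg).drop j))
        (Function.update (fun _ => []) M.inp (((f arg).take j).reverse.map (gs M)))
        (fun _ => []) []) (.inl arg) = some (.inl (f arg)[j]) := by
      simp only [tops, st, Function.update_self]
      rw [hd]
      rfl
    rcases i with i | ⟨q, b⟩ | u
    · by_cases hi : i = arg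
      · subst hi
        simp only [st, Function.update_self, if_true, Op.app]
        rw [← List.map_tail, List.tail_drop]
      · simp [st, hi, Op.app]
    · cases b
      · by_cases hq : q = M.inp
        · subst hq
          simp only [if_true]
          rw [htop]
          simp only [st, Function.update_self, Op.app, conv]
          rw [ht]
          rfl
        · simp [st, hq, Op.app]
      · rfl
    · rfl
  · simp [tops, st]

/-- Push the initial state. -/
def pushSt : Cmd (ι ⊕ Kap M) (G ⊕ Del M) :=
  .act (fun _ => fun
    | .inl _ => .nop
    | .inr (.inl _) => .nop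
    | .inr (.inr _) => .push (.inr (.inr (M.start, fun _ => .stay))))

lemma exec_pushSt (f : ι → List G) (L R : M.Tape → List M.Sym) :
    Exec Ω (pushSt M) (st M f L R []) (st M f L R [(M.start, fun _ => .stay)]) 1 := by
  apply exec_act
  intro i
  rcases i with i | ⟨q, b⟩ | u
  · rfl
  · cases b <;> rfl
  · rfl

open Classical in
/-- The bit on top of a stack. -/
noncomputable def bitTop : Option (G ⊕ Del M) → Option Bool
  | some (.inr (.inl a)) => if a = M.bit true then some true else
      if a = M.bit false then some false else none
  | _ => none

lemma bitTop_bit (b : Bool) : bitTop M (some (.inr (.inl (M.bit b)))) = some b := by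
  have hne : M.bit false ≠ M.bit true := fun h => by
    have := M.bit_injective h
    cases this
  cases b
  · simp [bitTop, hne]
  · simp [bitTop]

lemma bitTop_blank : bitTop M (some (.inr (.inl M.blank))) = none := by
  have h1 := M.bit_ne_blank true
  have h2 := M.bit_ne_blank false
  simp [bitTop, h1.symm, h2.symm]

/-- Push a bit. -/
def pushBit : Option Bool → Op (G ⊕ Del M)
  | none => .nop
  | some b => .push (.inl (.bit b))

open Classical in
/-- Unload the output tape on the stack `res`. -/
noncomputable def unload (res : ι) : Cmd (ι ⊕ Kap M) (G ⊕ Del M) :=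
  .loop (fun t => (bitTop M (t (.inr (.inl (M.out, true))))).isSome)
    (.act (fun t => fun
      | .inl i => if i = res then pushBit M (bitTop M (t (.inr (.inl (M.out, true))))) else .nop
      | .inr (.inl (i, true)) => if i = M.out then .pop else .nop
      | .inr (.inl (_, false)) => .nop
      | .inr (.inr _) => .nop))

open Classical in
lemma exec_unload (f : ι → List G) (L R : M.Tape → List M.Sym)
    (S : List (M.State × (M.Tape → Move))) (res : ι) (u : List Bool) (hres : f res = [])
    (hR : ∀ n, (R M.out).getD n M.blank = (u.map M.bit).getD n M.blank) :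
    Exec Ω (unload M res) (st M f L R S)
      (st M (Function.update f res (u.reverse.map G.bit)) L
        (Function.update R M.out ((R M.out).drop u.length)) S)
      (u.length * 2 + 1) := by
  have hlt : ∀ j < u.length, j < (R M.out).length := by
    intro j hj
    by_contra hge
    have h1 := hR j
    rw [List.getD_eq_default _ _ (not_lt.1 hge)] at h1
    rw [List.getD_eq_getElem _ _ (by simpa using hj)] at h1
    rw [List.getElem_map] at h1
    exact M.bit_ne_blank _ h1.symm
  have hval : ∀ j (hj : j < u.length), (R M.out)[j]'(hlt j hj) = M.bit u[j] := by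
    intro j hj
    have h1 := hR j
    rw [List.getD_eq_getElem _ _ (hlt j hj)] at h1
    rw [List.getD_eq_getElem _ _ (by simpa using hj)] at h1
    rw [List.getElem_map] at h1
    exact h1
  have htop : ∀ j (hj : j < u.length), bitTop M (tops (st M (Function.update f res
      ((u.take j).reverse.map G.bit)) L (Function.update R M.out ((R M.out).drop j)) S)
      (.inr (.inl (M.out, true)))) = some u[j] := by
    intro j hj
    have hd := drop_eq_cons (R M.out) j (hlt j hj)
    simp only [tops, st, Function.update_self, hd, List.map_cons, List.head?_cons]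
    rw [hval j hj]
    exact bitTop_bit M _
  refine exec_loop' (Ω := Ω) (fun t => (bitTop M (t (.inr (.inl (M.out, true))))).isSome)
    (.act (fun t => fun
      | .inl i => if i = res then pushBit M (bitTop M (t (.inr (.inl (M.out, true))))) else .nop
      | .inr (.inl (i, true)) => if i = M.out then .pop else .nop
      | .inr (.inl (_, false)) => .nop
      | .inr (.inr _) => .nop)) 1 u.length
    (fun j => st M (Function.update f res ((u.take j).reverse.map G.bit)) L
      (Function.update R M.out ((R M.out).drop j)) S) _ _ ?_ ?_ ?_ ?_ ?_
  · have : Function.update f res [] = f := by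
      rw [← hres, Function.update_eq_self]
    simp [this]
  · simp
  · intro j hj
    rw [htop j hj]
    rfl
  · intro j hj
    apply exec_act
    intro i
    have ht : ((u.take (j + 1)).reverse.map G.bit) =
        G.bit u[j] :: ((u.take j).reverse.map G.bit) := by
      rw [take_succ_rev u j hj]
      rfl
    rcases i with i | ⟨q, b⟩ | v
    · by_cases hi : i = res
      · subst hi
        simp only [if_true]
        rw [htop j hj]
        simp only [st, Function.update_self, Op.app, pushBit]
        rw [ht]
        rfl
      · simp [st, hi, Op.app]
    · cases b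
      · rfl
      · by_cases hq : q = M.out
        · subst hq
          simp only [st, Function.update_self, if_true, Op.app]
          rw [← List.map_tail, List.tail_drop]
        · simp [st, hq, Op.app]
    · rfl
  · have hend := hR u.length
    rw [List.getD_eq_default (u.map M.bit) _ (by simp)] at hend
    simp only [tops, st, Function.update_self]
    cases hdrop : (R M.out).drop u.length with
    | nil => simp [bitTop]
    | cons a l =>
      have hl : u.length < (R M.out).length := by
        by_contra hge
        rw [List.drop_eq_nil_of_le (not_lt.1 hge)] at hdrop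
        cases hdrop
      have ha : a = M.blank := by
        rw [List.getD_eq_getElem _ _ hl] at hend
        have := drop_eq_cons (R M.out) u.length hl
        rw [hdrop] at this
        rw [← hend]
        exact (List.cons.inj this).1
      subst ha
      simp only [List.map_cons, List.head?_cons]
      rw [bitTop_blank]
      rfl

open Classical in
/-- Empty the new stacks. -/
noncomputable def clean : Cmd (ι ⊕ Kap M) (G ⊕ Del M) :=
  .loop (fun t => decide (∃ k : Kap M, (t (.inr k)).isSome = true))
    (.act (fun _ => fun
      | .inl _ => .nop
      | .inr _ => .pop))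

open Classical in
lemma exec_clean (f : ι → List G) (L R : M.Tape → List M.Sym)
    (S : List (M.State × (M.Tape → Move))) (B : ℕ) (hL : ∀ i, (L i).length ≤ B)
    (hR : ∀ i, (R i).length ≤ B) (hS : S.length ≤ B) :
    ∃ m ≤ B, Exec Ω (clean M) (st M f L R S) (lift f) (m * 2 + 1) := by
  have hex : ∃ m, (∀ i, (L i).length ≤ m) ∧ (∀ i, (R i).length ≤ m) ∧ S.length ≤ m :=
    ⟨B, hL, hR, hS⟩
  obtain ⟨m, hm, hmin, hmB⟩ : ∃ m,
      ((∀ i, (L i).length ≤ m) ∧ (∀ i, (R i).length ≤ m) ∧ S.length ≤ m) ∧
      (∀ j < m, ¬ ((∀ i, (L i).length ≤ j) ∧ (∀ i, (R i).length ≤ j) ∧ S.length ≤ j)) ∧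
      m ≤ B := ⟨Nat.find hex, Nat.find_spec hex, fun j hj => Nat.find_min hex hj,
    Nat.find_min' hex ⟨hL, hR, hS⟩⟩
  refine ⟨m, hmB, ?_⟩
  refine exec_loop' (Ω := Ω) (fun t => decide (∃ k : Kap M, (t (.inr k)).isSome = true))
    (.act (fun _ => fun
      | .inl _ => .nop
      | .inr _ => .pop)) 1 m
    (fun j => st M f (fun i => (L i).drop j) (fun i => (R i).drop j) (S.drop j)) _ _ ?_ ?_ ?_
    ?_ ?_
  · simp
  · rw [st_lift M f]
    have a1 : (fun i => (L i).drop m) = fun _ => [] := by
      funext i
      exact List.drop_eq_nil_of_le (hm.1 i)
    have a2 : (fun i => (R i).drop m) = fun _ => [] := by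
      funext i
      exact List.drop_eq_nil_of_le (hm.2.1 i)
    have a3 : S.drop m = [] := List.drop_eq_nil_of_le hm.2.2
    simp only [a1, a2, a3]
  · intro j hj
    have h1 := hmin j hj
    simp only [decide_eq_true_eq]
    by_contra hno
    apply h1
    push Not at hno
    refine ⟨fun i => ?_, fun i => ?_, ?_⟩
    · by_contra hlt
      apply hno (.inl (i, false))
      simp [tops, st, not_le.1 hlt]
    · by_contra hlt
      apply hno (.inl (i, true))
      simp [tops, st, not_le.1 hlt]
    · by_contra hlt
      apply hno (.inr ())
      simp [tops, st, not_le.1 hlt]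
  · intro j hj
    apply exec_act
    intro i
    rcases i with i | ⟨q, b⟩ | v
    · rfl
    · cases b
      · simp only [st, Op.app]
        rw [← List.map_tail, List.tail_drop]
      · simp only [st, Op.app]
        rw [← List.map_tail, List.tail_drop]
    · simp only [st, Op.app]
      rw [← List.map_tail, List.tail_drop]
  · simp only [decide_eq_false_iff_not, not_exists]
    rintro (⟨i, b⟩ | v)
    · cases b
      · simp [tops, st, hm.1 i]
      · simp [tops, st, hm.2.1 i]
    · simp [tops, st, hm.2.2]

/-! ### The assembled program -/

lemma getD_append_range {α : Type} (d : α) (cell : ℕ → α) (h : ℕ) (r : List α)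
    (hr : ∀ n, r.getD n d = cell (h + n)) (n : ℕ) :
    ((List.range h).map cell ++ r).getD n d = cell n := by
  rcases Nat.lt_or_ge n h with hn | hn
  · rw [List.getD_append _ _ _ _ (by simpa using hn),
      List.getD_eq_getElem _ _ (by simpa using hn)]
    simp
  · rw [List.getD_append_right _ _ _ _ (by simpa using hn)]
    simp only [List.length_map, List.length_range]
    rw [hr]
    congr 1
    omega

/-- The multiplication program. -/
noncomputable def mulCmd (arg res : ι) : Cmd (ι ⊕ Kap M) (G ⊕ Del M) :=
  .seq (load M arg) (.seq (rew M M.inp) (.seq (pushSt M) (.seq (simLoop M)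
    (.seq (rew M M.out) (.seq (unload M res) (clean M))))))

open Classical in
lemma run_mulCmd (f : ι → List G) (arg res : ι) (hne : arg ≠ res) (n : ℕ) (hn : 1 ≤ n)
    (x y : List Bool) (hx : x.length = n) (hy : y.length = n)
    (harg : f arg = x.map G.bit ++ G.sep :: y.map G.bit) (hres : f res = [])
    (t : ℕ) (c : M.Config) (hhalt : M.HaltsIn (M.mulInput x y) t c) (u : List Bool)
    (hu : u.length = 2 * n) (hw : M.Writes c u) :
    Run Ω (mulCmd M arg res) (lift f)
      (lift (Function.update (Function.update f arg []) res (u.reverse.map G.bit)))
      (40 * (t + n)) := by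
  set w := M.mulInput x y with hwdef
  have hw1 : (f arg).map (gs M) = w := by
    rw [harg, hwdef]
    simp [Machine.mulInput, gs, Function.comp_def]
  have hlen : (f arg).length = 2 * n + 1 := by
    rw [harg]
    simp [hx, hy]
    ring
  have hwlen : w.length = 2 * n + 1 := by
    rw [← hw1, List.length_map, hlen]
  have hlift := st_lift M f
  -- loading
  have e1 := exec_load (Ω := Ω) M f arg
  rw [hw1, hlen] at e1
  set f₁ := Function.update f arg [] with hf₁
  -- rewinding
  have e2 := exec_rew (Ω := Ω) M f₁ (Function.update (fun _ => []) M.inp w.reverse)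
    (fun _ => []) [] M.inp
  rw [Function.update_idem, Function.update_self, List.reverse_reverse, List.append_nil,
    List.length_reverse, hwlen] at e2
  have hupd : Function.update (fun _ : M.Tape => ([] : List M.Sym)) M.inp [] = fun _ => [] := by
    funext i
    by_cases hi : i = M.inp <;> simp [Function.update_apply]
  rw [hupd] at e2
  -- the initial state
  have e3 := exec_pushSt (Ω := Ω) M f₁ (fun _ => [])
    (Function.update (fun _ => []) M.inp w)
  -- simulation
  have hrep : ∀ i, RepT M.blank ((M.init w).head i) ((M.init w).cell i)
      ((fun _ => []) i : List M.Sym) (Function.update (fun _ => []) M.inp w i) := by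
    intro i
    refine ⟨rfl, fun k => ?_⟩
    simp only [Machine.init, zero_add]
    by_cases hi : i = M.inp
    · subst hi
      simp
    · simp [hi]
  obtain ⟨L', R', mv', e4, hrep', hlen'⟩ := exec_simLoop (Ω := Ω) M f₁ t (M.init w) c _ _
    (fun _ => .stay) hhalt.1 hhalt.2 hrep
  -- rewinding the output tape
  have e5 := exec_rew (Ω := Ω) M f₁ L' R' [(c.state, mv')] M.out
  set L₂ := Function.update L' M.out [] with hL₂
  set R₂ := Function.update R' M.out ((L' M.out).reverse ++ R' M.out) with hR₂
  have hout : ∀ k, (R₂ M.out).getD k M.blank = (u.map M.bit).getD k M.blank := by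
    intro k
    rw [← hw k, hR₂, Function.update_self, (hrep' M.out).1, List.reverse_reverse]
    exact getD_append_range M.blank _ _ _ (hrep' M.out).2 k
  -- unloading
  have hres' : f₁ res = [] := by
    rw [hf₁, Function.update_of_ne hne.symm, hres]
  have e6 := exec_unload (Ω := Ω) M f₁ L₂ R₂ [(c.state, mv')] res u hres' hout
  -- bounds
  have hB0 : ∀ i,
      (Function.update (fun _ => ([] : List M.Sym)) M.inp w i).length ≤ 2 * n + 1 := by
    intro i
    by_cases hi : i = M.inp
    · subst hi
      simp [hwlen]
    · simp [hi]
  have hB : ∀ i, (L' i).length + (R' i).length ≤ 2 * n + 1 + t := by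
    intro i
    have h1 := hlen' i
    have h2 := hB0 i
    simp only [List.length_nil, zero_add] at h1
    exact h1.trans (by gcongr)
  have hBL : ∀ i, (L₂ i).length ≤ 2 * n + 1 + t := by
    intro i
    rw [hL₂]
    by_cases hi : i = M.out
    · subst hi
      simp
    · rw [Function.update_of_ne hi]
      have := hB i
      omega
  have hBR : ∀ i, (Function.update R₂ M.out ((R₂ M.out).drop u.length) i).length ≤
      2 * n + 1 + t := by
    intro i
    by_cases hi : i = M.out
    · subst hi
      have := hB M.out
      rw [Function.update_self, List.length_drop, hR₂, Function.update_self,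
        List.length_append, List.length_reverse]
      omega
    · rw [Function.update_of_ne hi, hR₂, Function.update_of_ne hi]
      have := hB i
      omega
  obtain ⟨m, hm, e7⟩ := exec_clean (Ω := Ω) M
    (Function.update f₁ res (u.reverse.map G.bit)) L₂
    (Function.update R₂ M.out ((R₂ M.out).drop u.length)) [(c.state, mv')] (2 * n + 1 + t)
    hBL hBR (by rw [List.length_singleton]; omega)
  rw [hlift]
  refine ⟨_, ?_, exec_seq e1 (exec_seq e2 (exec_seq e3 (exec_seq e4 (exec_seq e5
    (exec_seq e6 e7)))))⟩
  have := hB M.out
  rw [hu]
  omega

end phases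

end Sim

/-- Simulation of a multiplication machine by a stack program with constant overhead. -/
theorem exists_mulCmd {ι : Type} [DecidableEq ι] (M : Machine) (hM : M.Multiplies)
    (arg res : ι) (h : arg ≠ res) :
    ∃ (κ Δ : Type) (_ : Fintype κ) (_ : DecidableEq κ) (_ : Fintype Δ)
      (R : Cmd (ι ⊕ κ) (G ⊕ Δ)) (C : ℕ), ∀ f f' k, mulOracle M C arg res f f' k →
        Run noOracle R (lift f) (lift f') k := by
  classical
  have := M.tapeFintype
  have := M.symFintype
  have := M.stateFintype
  have : Fintype Move :=
    ⟨{Move.left, Move.stay, Move.right}, by intro x; cases x <;> simp⟩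
  refine ⟨Sim.Kap M, Sim.Del M, inferInstance, inferInstance, inferInstance,
    Sim.mulCmd M arg res, 40, ?_⟩
  rintro f f' k ⟨x, y, n, hn, hx, hy, harg, hres, rfl, rfl⟩
  obtain ⟨t, c, hhalt, hw⟩ := hM n hn x y hx hy
  have ht := Sim.le_mulTime M hx hy hhalt
  have hlen : (bin (2 * n) (val x * val y)).length = 2 * n := by simp [bin]
  obtain ⟨j, hj, hE⟩ := Sim.run_mulCmd (Ω := noOracle) M f arg res h n hn x y hx hy harg hres t c
    hhalt _ hlen hw
  refine ⟨j, hj.trans (by gcongr), ?_⟩
  rwa [show (fun a b => Classical.propDecidable (a = b) : DecidableEq ι) = ‹DecidableEq ι› from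
    Subsingleton.elim _ _] at hE

end Vale.Agent.P338
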