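import Vale.Agent.Lib.P338.Stack

/-!
# Module SUBST of P338: replacing the oracle by a program
-/

namespace Vale.Agent.P338

namespace Subst

variable {ι κ Γ Δ : Type}

/-- The tops of the old stacks. -/
def projTops (t : ι ⊕ κ → Option (Γ ⊕ Δ)) : ι → Option Γ := fun i =>
  (t (Sum.inl i)).bind (fun a => a.elim some (fun _ => none))

/-- Operations on the old alphabet as operations on the new alphabet. -/
def opMap : Op Γ → Op (Γ ⊕ Δ)
  | .nop => .nop
  | .pop => .pop
  | .push a => .push (Sum.inl a)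
  | .rep a => .rep (Sum.inl a)

lemma opMap_app (o : Op Γ) (l : List Γ) :
    (opMap (Δ := Δ) o).app (l.map Sum.inl) = (o.app l).map Sum.inl := by
  cases o <;> simp [opMap, Op.app, List.map_tail]

/-- Translation of programs. -/
def trans (R : Cmd (ι ⊕ κ) (Γ ⊕ Δ)) : Cmd ι Γ → Cmd (ι ⊕ κ) (Γ ⊕ Δ)
  | .skip => .skip
  | .call => R
  | .act f => .act (fun t => Sum.elim (fun i => opMap (f (projTops t) i)) (fun _ => .nop))
  | .seq a b => .seq (trans R a) (trans R b)
  | .ite t a b => .ite (fun u => t (projTops u)) (trans R a) (trans R b)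
  | .loop t a => .loop (fun u => t (projTops u)) (trans R a)

lemma projTops_lift (f : ι → List Γ) :
    projTops (tops (lift (κ := κ) (Δ := Δ) f)) = tops f := by
  funext i
  simp only [projTops, tops, lift, Sum.elim_inl]
  cases f i <;> simp

end Subst

open Subst in
/-- Replace the oracle by a program. -/
theorem exists_subst {ι κ Γ Δ : Type}
    (Ω : (ι → List Γ) → (ι → List Γ) → ℕ → Prop) (R : Cmd (ι ⊕ κ) (Γ ⊕ Δ))
    (hR : ∀ f f' n, Ω f f' n → Run noOracle R (lift f) (lift f') n) (P : Cmd ι Γ) :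
    ∃ P' : Cmd (ι ⊕ κ) (Γ ⊕ Δ), ∀ f f' n, Exec Ω P f f' n →
      Run noOracle P' (lift f) (lift f') n := by
  refine ⟨trans R P, ?_⟩
  intro f f' n h
  induction h with
  | skip s => exact ⟨0, le_rfl, Exec.skip _⟩
  | call s s' n h => exact hR s s' n h
  | act f s =>
    refine ⟨1, le_rfl, ?_⟩
    have h1 := Exec.act (Ω := noOracle (ι := ι ⊕ κ) (Γ := Γ ⊕ Δ))
      (fun t => Sum.elim (fun i => opMap (f (projTops t) i)) (fun _ => .nop)) (lift s)
    have h2 : (fun i => ((Sum.elim (fun i => opMap (f (projTops (tops (lift (κ := κ) (Δ := Δ) s))) i))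
        (fun _ => Op.nop) : ι ⊕ κ → Op (Γ ⊕ Δ)) i).app (lift (κ := κ) (Δ := Δ) s i)) =
        lift (fun i => (f (tops s) i).app (s i)) := by
      funext i
      rcases i with i | i
      · rw [projTops_lift]
        simp only [lift, Sum.elim_inl]
        exact opMap_app _ _
      · simp only [lift, Sum.elim_inr, Op.app]
    rw [h2] at h1
    exact h1
  | seq a b s s₁ s₂ n m _ _ iha ihb =>
    obtain ⟨k₁, hk₁, h₁⟩ := iha
    obtain ⟨k₂, hk₂, h₂⟩ := ihb
    exact ⟨k₁ + k₂, Nat.add_le_add hk₁ hk₂, Exec.seq _ _ _ _ _ _ _ h₁ h₂⟩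
  | ite_true t a b s s' n ht _ ih =>
    obtain ⟨k, hk, h⟩ := ih
    refine ⟨k + 1, Nat.add_le_add_right hk 1, Exec.ite_true _ _ _ _ _ _ ?_ h⟩
    rw [projTops_lift]
    exact ht
  | ite_false t a b s s' n ht _ ih =>
    obtain ⟨k, hk, h⟩ := ih
    refine ⟨k + 1, Nat.add_le_add_right hk 1, Exec.ite_false _ _ _ _ _ _ ?_ h⟩
    rw [projTops_lift]
    exact ht
  | loop_done t a s ht =>
    refine ⟨1, le_rfl, Exec.loop_done _ _ _ ?_⟩
    rw [projTops_lift]
    exact ht
  | loop_step t a s s₁ s₂ n m ht _ _ iha ihb =>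
    obtain ⟨k₁, hk₁, h₁⟩ := iha
    obtain ⟨k₂, hk₂, h₂⟩ := ihb
    refine ⟨k₁ + k₂ + 1, by omega, Exec.loop_step _ _ _ _ _ _ _ ?_ h₁ h₂⟩
    rw [projTops_lift]
    exact ht

end Vale.Agent.P338
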