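import Vale.Agent.Lib.P338.Compile
import Vale.Agent.Lib.P338.Subst
import Vale.Agent.Lib.P338.Sim
import Vale.Agent.Lib.P338.Fallback

/-! Module ASSEMBLY of P338: from the modules to the reduction of transposition to
multiplication. -/

namespace Vale.Agent.P338

theorem Exec.noOracle_mono {ι Γ : Type} {Ω : (ι → List Γ) → (ι → List Γ) → ℕ → Prop}
    {c : Cmd ι Γ} {s s' : ι → List Γ} {n : ℕ} (h : Exec noOracle c s s' n) : Exec Ω c s s' n := by
  induction h with
  | skip s => exact Exec.skip _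
  | call s s' n h => exact h.elim
  | act f s => exact Exec.act _ _
  | seq a b s s₁ s₂ n m _ _ iha ihb => exact Exec.seq _ _ _ _ _ _ _ iha ihb
  | ite_true t a b s s' n ht _ ih => exact Exec.ite_true _ _ _ _ _ _ ht ih
  | ite_false t a b s s' n ht _ ih => exact Exec.ite_false _ _ _ _ _ _ ht ih
  | loop_done t a s ht => exact Exec.loop_done _ _ _ ht
  | loop_step t a s s₁ s₂ n m ht _ _ iha ihb => exact Exec.loop_step _ _ _ _ _ _ _ ht iha ihb

theorem Run.noOracle_mono {ι Γ : Type} {Ω : (ι → List Γ) → (ι → List Γ) → ℕ → Prop}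
    {c : Cmd ι Γ} {s s' : ι → List Γ} {n : ℕ} (h : Run noOracle c s s' n) : Run Ω c s s' n := by
  obtain ⟨k, hk, h⟩ := h
  exact ⟨k, hk, h.noOracle_mono⟩

theorem rowMajor_length (n : ℕ) (a : ℕ → ℕ → Bool) : (rowMajor n a).length = n * n := by
  simp [rowMajor]

/-- The module ASSEMBLY, for an abstract description `fast` of the state after the set-up. -/
theorem reduction_of (F : ℕ → ℕ) (fast : List Bool → ℕ → ℕ → St)
    (hx4 : ∀ w m h, (fast w m h).x4 = 1)
    (hsetup : ∃ (setup : Cmd W G) (C : ℕ), ∀ (m : ℕ) (w : List Bool), 1 ≤ m →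
      w.length = m * m →
      (∀ h, 1 ≤ h → m = 4 ^ h →
        Run noOracle setup (St.st {E with dat := w.reverse}) (St.st (fast w m h))
          (C * (m * m))) ∧
      ((∀ h, 1 ≤ h → m ≠ 4 ^ h) → ∃ k,
        Run noOracle setup (St.st {E with dat := w.reverse})
          (St.st {E with dat := w, m := m}) k))
    (hmain : ∃ (main : Cmd W G) (C₁ : ℕ),
      ∀ (Mach : Machine) (C h T : ℕ) (a : ℕ → ℕ → Bool), 1 ≤ h →
        (∀ ν, 32 * 16 ^ h ≤ ν → ν ≤ 48 * 16 ^ h → Mach.mulTime ν ≤ T) →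
        ∃ (s' : St) (k : ℕ), s'.out = rowMajor (4 ^ h) (fun i j => a j i) ∧
          Run (mulOracle Mach C W.arg W.res) main
            (St.st (fast (rowMajor (4 ^ h) a) (4 ^ h) h)) s'.st k ∧
          k ≤ F (padicValNat 2 (2 * h)) * (C + 1) * (T + 16 ^ h) +
            C₁ * 16 ^ h * (2 * h / 2 ^ padicValNat 2 (2 * h)))
    (A : Machine) (hA : A.Multiplies) :
    ∃ (B : Machine) (C : ℕ), B.Transposes ∧ ∀ h T : ℕ, 1 ≤ h →
      (∀ ν, 32 * 16 ^ h ≤ ν → ν ≤ 48 * 16 ^ h → A.mulTime ν ≤ T) →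
      B.transTime (4 ^ h) ≤ C * ((F (padicValNat 2 (2 * h)) + 1) * (T + 16 ^ h) +
        16 ^ h * (2 * h / 2 ^ padicValNat 2 (2 * h))) := by
  obtain ⟨setup, Cs, hsetup⟩ := hsetup
  obtain ⟨main, C₁, hmain⟩ := hmain
  obtain ⟨fb, hfb⟩ := exists_fallback
  obtain ⟨κ, Δ, _, _, _, R, Cm, hR⟩ := exists_mulCmd (ι := W) A hA W.arg W.res (by decide)
  obtain ⟨P', hP'⟩ := exists_subst (mulOracle A Cm W.arg W.res) R hR
    (Cmd.seq setup (Cmd.ite (ne W.x4) main fb))
  obtain ⟨B, CB, hB⟩ := exists_machine P' (fun b => (Sum.inl (G.bit b) : G ⊕ Δ))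
    (by intro x y h; simpa using h) (Sum.inl W.dat) (Sum.inl W.out)
  -- the initial state
  have hinit : ∀ w : List Bool, (fun i : W ⊕ κ => if i = Sum.inl W.dat then
      (w.map (fun b => (Sum.inl (G.bit b) : G ⊕ Δ))).reverse else []) =
      lift (St.st {E with dat := w.reverse}) := by
    intro w
    funext i
    rcases i with i | i
    · cases i <;> simp [lift, St.st, Function.comp_def, ticks]
    · simp [lift]
  -- the run of the whole program
  have key : ∀ (m : ℕ) (a : ℕ → ℕ → Bool) (s' : St) (k : ℕ),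
      s'.out = rowMajor m (fun i j => a j i) →
      Run (mulOracle A Cm W.arg W.res) (Cmd.seq setup (Cmd.ite (ne W.x4) main fb))
        (St.st {E with dat := (rowMajor m a).reverse}) s'.st k →
      ∃ t c, B.HaltsIn ((rowMajor m a).map B.bit) t c ∧
        B.Writes c (rowMajor m fun i j => a j i) ∧
        t ≤ CB * (k + m * m + m * m + 1) := by
    rintro m a s' k hout ⟨j, hj, hE⟩
    obtain ⟨l, hl, hE'⟩ := hP' _ _ _ hE
    rw [← hinit] at hE'
    obtain ⟨t, c, h1, h2, h3⟩ := hB (rowMajor m a) (rowMajor m fun i j => a j i) _ l hE' (by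
      simp only [lift, Sum.elim_inl, St.st, hout]
      simp [Function.comp_def])
    refine ⟨t, c, h1, h2, h3.trans ?_⟩
    rw [rowMajor_length, rowMajor_length]
    gcongr
    exact hl.trans hj
  -- the fast case
  have hfast : ∀ (h T : ℕ) (a : ℕ → ℕ → Bool), 1 ≤ h →
      (∀ ν, 32 * 16 ^ h ≤ ν → ν ≤ 48 * 16 ^ h → A.mulTime ν ≤ T) →
      ∃ t c, B.HaltsIn ((rowMajor (4 ^ h) a).map B.bit) t c ∧
        B.Writes c (rowMajor (4 ^ h) fun i j => a j i) ∧
        t ≤ CB * (Cs * (4 ^ h * 4 ^ h) + (F (padicValNat 2 (2 * h)) * (Cm + 1) * (T + 16 ^ h) +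
            C₁ * 16 ^ h * (2 * h / 2 ^ padicValNat 2 (2 * h)) + 1) + 4 ^ h * 4 ^ h +
            4 ^ h * 4 ^ h + 1) := by
    intro h T a hh hT
    obtain ⟨s', k, h1, h2, h3⟩ := hmain A Cm h T a hh hT
    have h4 := (hsetup (4 ^ h) (rowMajor (4 ^ h) a) (Nat.one_le_pow _ _ (by norm_num))
      (rowMajor_length _ _)).1 h hh rfl
    refine key (4 ^ h) a s' _ h1 (Run.seq h4.noOracle_mono (Run.ite_true ?_ (h2.mono h3)))
    simp [ne, tops, St.st, hx4, ticks]
  refine ⟨B, CB * (Cs + Cm + C₁ + 5), ?_, ?_⟩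
  · intro m hm a
    by_cases hc : ∃ h, 1 ≤ h ∧ m = 4 ^ h
    · obtain ⟨h, hh, rfl⟩ := hc
      -- a bound for the running times
      obtain ⟨T, hT⟩ : ∃ T : ℕ, ∀ ν, 32 * 16 ^ h ≤ ν → ν ≤ 48 * 16 ^ h → A.mulTime ν ≤ T :=
        ⟨(Finset.range (48 * 16 ^ h + 1)).sup A.mulTime, fun ν _ h2 =>
          Finset.le_sup (f := A.mulTime) (Finset.mem_range.2 (by omega))⟩
      obtain ⟨t, c, h1, h2, _⟩ := hfast h T a hh hT
      exact ⟨t, c, h1, h2⟩
    · have hc' : ∀ h, 1 ≤ h → m ≠ 4 ^ h := fun h hh he => hc ⟨h, hh, he⟩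
      obtain ⟨k, hk⟩ := (hsetup m (rowMajor m a) hm (rowMajor_length _ _)).2 hc'
      obtain ⟨s', k', h1, h2⟩ := hfb m a hm
      obtain ⟨t, c, h1, h2, _⟩ := key m a s' _ h1
        (Run.seq hk.noOracle_mono (Run.ite_false (by simp [ne, tops, St.st, ticks])
          h2.noOracle_mono))
      exact ⟨t, c, h1, h2⟩
  · intro h T hh hT
    apply csSup_le'
    rintro t ⟨a, c, hc⟩
    obtain ⟨t', c', h1, _, h3⟩ := hfast h T a hh hT
    obtain rfl : t = t' := Sim.halts_unique B hc h1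
    refine h3.trans ?_
    have h16 : 4 ^ h * 4 ^ h = 16 ^ h := by rw [← mul_pow]; norm_num
    rw [h16]
    have h17 : 1 ≤ 16 ^ h := Nat.one_le_pow _ _ (by norm_num)
    set X := 16 ^ h
    set f := F (padicValNat 2 (2 * h))
    set τ := 2 * h / 2 ^ padicValNat 2 (2 * h)
    have : Cs * X + (f * (Cm + 1) * (T + X) + C₁ * X * τ + 1) + X + X + 1 ≤
        (Cs + Cm + C₁ + 5) * ((f + 1) * (T + X) + X * τ) := by
      have e1 : f * (Cm + 1) * (T + X) ≤ (Cm + 1) * ((f + 1) * (T + X)) := by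
        calc f * (Cm + 1) * (T + X) = (Cm + 1) * (f * (T + X)) := by ring
          _ ≤ (Cm + 1) * ((f + 1) * (T + X)) :=
            Nat.mul_le_mul_left _ (Nat.mul_le_mul_right _ (Nat.le_succ f))
      have e2 : X ≤ (f + 1) * (T + X) := by
        calc X ≤ T + X := Nat.le_add_left _ _
          _ ≤ (f + 1) * (T + X) := Nat.le_mul_of_pos_left _ (Nat.succ_pos f)
      have e3 : Cs * X ≤ Cs * ((f + 1) * (T + X)) := Nat.mul_le_mul_left _ e2
      have e4 : 0 ≤ C₁ * ((f + 1) * (T + X)) := Nat.zero_le _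
      have e5 : 0 ≤ (Cs + Cm + 5) * (X * τ) := Nat.zero_le _
      have e6 : (Cs + Cm + C₁ + 5) * ((f + 1) * (T + X) + X * τ) =
          Cs * ((f + 1) * (T + X)) + (Cm + 1) * ((f + 1) * (T + X)) + 4 * ((f + 1) * (T + X)) +
            C₁ * ((f + 1) * (T + X)) + (Cs + Cm + 5) * (X * τ) + C₁ * X * τ := by ring
      rw [e6]
      generalize (f + 1) * (T + X) = a1 at *
      generalize f * (Cm + 1) * (T + X) = a2 at *
      generalize (Cm + 1) * a1 = a3 at *
      generalize Cs * a1 = a4 at *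
      generalize Cs * X = a5 at *
      generalize C₁ * X * τ = a6 at *
      omega
    calc CB * (Cs * X + (f * (Cm + 1) * (T + X) + C₁ * X * τ + 1) + X + X + 1) ≤
        CB * ((Cs + Cm + C₁ + 5) * ((f + 1) * (T + X) + X * τ)) := Nat.mul_le_mul_left _ this
      _ = CB * (Cs + Cm + C₁ + 5) * ((f + 1) * (T + X) + X * τ) := by ring

end Vale.Agent.P338
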