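import Vale.Agent.Lib.P338.WLib

/-! Chirp passes. -/

set_option linter.constructorNameAsVariable false

namespace Vale.Agent.P338

open Function

variable {Ω : (W → List G) → (W → List G) → ℕ → Prop}

/-- Rotate the first entry of `dat` and move it to `acc`. -/
def rot : Cmd W G :=
  Cmd.seq (Cmd.seq (Cmd.seq (takeN .dat .t1 .zb .u1) (takeN .dat .acc .z .u1)) (moveAll .t1 .t2))
    (moveAll .t2 .acc)

theorem run_rot (s : St) {n : ℕ} {x y : List Bool} (hx : x.length = n) (hd : s.dat = x ++ y)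
    (hz : s.z + s.zb = n) (ht1 : s.t1 = []) (ht2 : s.t2 = []) (hu : s.u1 = 0) :
    Run Ω rot s.st (St.st {s with dat := y, acc := (x.rotate s.zb).reverse ++ s.acc})
      (14 * n + 6) := by
  have h1 : (x.take s.zb).length = s.zb := by simp; omega
  have h2 : (x.drop s.zb).length = s.z := by simp; omega
  have h := w_take (Ω := Ω) .dat .t1 .zb .u1 (by decide) (f := s.st) (x.take s.zb) (x.drop s.zb ++ y) h1
    (by rw [← List.append_assoc, List.take_append_drop, st_dat, hd]) rfl rfl (by simp [hu])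
  simp only [
      upd_arg, upd_dat, upd_acc, upd_t1, upd_t2, upd_t3, upd_res, upd_out, upd_cc, upd_n, upd_s,
      upd_L, upd_q, upd_tau, upd_K, upd_w, upd_z, upd_zb, upd_d, upd_db, upd_e, upd_v, upd_p,
      upd_i, upd_j, upd_a, upd_b, upd_B, upd_N, upd_m, upd_h, upd_u1, upd_u2, upd_u3, upd_u4,
      upd_u5, upd_u6, upd_x1, upd_x2, upd_x3, upd_x4, st_arg, st_dat, st_acc, st_t1, st_t2, st_t3,
      st_res, st_out, st_cc, st_n, st_s, st_L, st_q, st_tau, st_K, st_w, st_z, st_zb, st_d, st_db,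
      st_e, st_v, st_p, st_i, st_j, st_a, st_b, st_B, st_N, st_m, st_h, st_u1, st_u2, st_u3,
      st_u4, st_u5, st_u6, st_x1, st_x2, st_x3, st_x4] at h
  have h := h.seq (w_take .dat .acc .z .u1 (by decide) (x.drop s.zb) y h2 rfl rfl rfl (by simp [hu]))
  simp only [
      upd_arg, upd_dat, upd_acc, upd_t1, upd_t2, upd_t3, upd_res, upd_out, upd_cc, upd_n, upd_s,
      upd_L, upd_q, upd_tau, upd_K, upd_w, upd_z, upd_zb, upd_d, upd_db, upd_e, upd_v, upd_p,
      upd_i, upd_j, upd_a, upd_b, upd_B, upd_N, upd_m, upd_h, upd_u1, upd_u2, upd_u3, upd_u4,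
      upd_u5, upd_u6, upd_x1, upd_x2, upd_x3, upd_x4, st_arg, st_dat, st_acc, st_t1, st_t2, st_t3,
      st_res, st_out, st_cc, st_n, st_s, st_L, st_q, st_tau, st_K, st_w, st_z, st_zb, st_d, st_db,
      st_e, st_v, st_p, st_i, st_j, st_a, st_b, st_B, st_N, st_m, st_h, st_u1, st_u2, st_u3,
      st_u4, st_u5, st_u6, st_x1, st_x2, st_x3, st_x4] at h
  have h := h.seq (w_moveAll .t1 .t2 (by decide) rfl rfl)
  simp only [
      upd_arg, upd_dat, upd_acc, upd_t1, upd_t2, upd_t3, upd_res, upd_out, upd_cc, upd_n, upd_s,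
      upd_L, upd_q, upd_tau, upd_K, upd_w, upd_z, upd_zb, upd_d, upd_db, upd_e, upd_v, upd_p,
      upd_i, upd_j, upd_a, upd_b, upd_B, upd_N, upd_m, upd_h, upd_u1, upd_u2, upd_u3, upd_u4,
      upd_u5, upd_u6, upd_x1, upd_x2, upd_x3, upd_x4, st_arg, st_dat, st_acc, st_t1, st_t2, st_t3,
      st_res, st_out, st_cc, st_n, st_s, st_L, st_q, st_tau, st_K, st_w, st_z, st_zb, st_d, st_db,
      st_e, st_v, st_p, st_i, st_j, st_a, st_b, st_B, st_N, st_m, st_h, st_u1, st_u2, st_u3,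
      st_u4, st_u5, st_u6, st_x1, st_x2, st_x3, st_x4] at h
  have h := h.seq (w_moveAll .t2 .acc (by decide) rfl rfl)
  simp only [
      upd_arg, upd_dat, upd_acc, upd_t1, upd_t2, upd_t3, upd_res, upd_out, upd_cc, upd_n, upd_s,
      upd_L, upd_q, upd_tau, upd_K, upd_w, upd_z, upd_zb, upd_d, upd_db, upd_e, upd_v, upd_p,
      upd_i, upd_j, upd_a, upd_b, upd_B, upd_N, upd_m, upd_h, upd_u1, upd_u2, upd_u3, upd_u4,
      upd_u5, upd_u6, upd_x1, upd_x2, upd_x3, upd_x4, st_arg, st_dat, st_acc, st_t1, st_t2, st_t3,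
      st_res, st_out, st_cc, st_n, st_s, st_L, st_q, st_tau, st_K, st_w, st_z, st_zb, st_d, st_db,
      st_e, st_v, st_p, st_i, st_j, st_a, st_b, st_B, st_N, st_m, st_h, st_u1, st_u2, st_u3,
      st_u4, st_u5, st_u6, st_x1, st_x2, st_x3, st_x4] at h
  refine h.congr ?_ ?_
  · congr 1
    simp [ht1, ht2, List.rotate_eq_drop_append_take (show s.zb ≤ x.length by omega)]
  · simp [ht2, ht1]; omega

/-- Update of the chirp registers. -/
def upd : Cmd W G := Cmd.seq (subMod .z .zb .d .x1) (subMod .d .db .w .x1)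

theorem sm_le {n a b : ℕ} (ha : a ≤ n) (hb : b ≤ n) : sm n a b ≤ n := by
  unfold sm; split_ifs <;> omega

theorem run_upd (s : St) {n : ℕ} (hz : s.z ≤ n) (hzb : s.zb = n - s.z) (hd : s.d ≤ n)
    (hdb : s.db = n - s.d) (hw : s.w ≤ n) (hx : s.x1 = 0) :
    Run Ω upd s.st (St.st {s with z := sm n s.z s.d, zb := n - sm n s.z s.d,
                                  d := sm n s.d s.w, db := n - sm n s.d s.w})
      (20 * n + 12) := by
  have h := w_subMod (Ω := Ω) .z .zb .d .x1 (by decide) (f := s.st) hz hd rfl (by simp [hzb]) rfl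
    (by simp [hx])
  simp only [
      upd_arg, upd_dat, upd_acc, upd_t1, upd_t2, upd_t3, upd_res, upd_out, upd_cc, upd_n, upd_s,
      upd_L, upd_q, upd_tau, upd_K, upd_w, upd_z, upd_zb, upd_d, upd_db, upd_e, upd_v, upd_p,
      upd_i, upd_j, upd_a, upd_b, upd_B, upd_N, upd_m, upd_h, upd_u1, upd_u2, upd_u3, upd_u4,
      upd_u5, upd_u6, upd_x1, upd_x2, upd_x3, upd_x4, st_arg, st_dat, st_acc, st_t1, st_t2, st_t3,
      st_res, st_out, st_cc, st_n, st_s, st_L, st_q, st_tau, st_K, st_w, st_z, st_zb, st_d, st_db,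
      st_e, st_v, st_p, st_i, st_j, st_a, st_b, st_B, st_N, st_m, st_h, st_u1, st_u2, st_u3,
      st_u4, st_u5, st_u6, st_x1, st_x2, st_x3, st_x4] at h
  have h := h.seq (w_subMod .d .db .w .x1 (by decide) (k := s.d) hd hw rfl (by simp [hdb]) rfl (by simp [hx]))
  simp only [
      upd_arg, upd_dat, upd_acc, upd_t1, upd_t2, upd_t3, upd_res, upd_out, upd_cc, upd_n, upd_s,
      upd_L, upd_q, upd_tau, upd_K, upd_w, upd_z, upd_zb, upd_d, upd_db, upd_e, upd_v, upd_p,
      upd_i, upd_j, upd_a, upd_b, upd_B, upd_N, upd_m, upd_h, upd_u1, upd_u2, upd_u3, upd_u4,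
      upd_u5, upd_u6, upd_x1, upd_x2, upd_x3, upd_x4, st_arg, st_dat, st_acc, st_t1, st_t2, st_t3,
      st_res, st_out, st_cc, st_n, st_s, st_L, st_q, st_tau, st_K, st_w, st_z, st_zb, st_d, st_db,
      st_e, st_v, st_p, st_i, st_j, st_a, st_b, st_B, st_N, st_m, st_h, st_u1, st_u2, st_u3,
      st_u4, st_u5, st_u6, st_x1, st_x2, st_x3, st_x4] at h
  exact h.congr rfl (by omega)

/-- The values of the chirp registers. -/
def zdq (n w z₀ d₀ : ℕ) : ℕ → ℕ × ℕ
  | 0 => (z₀, d₀)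
  | k + 1 => (sm n (zdq n w z₀ d₀ k).1 (zdq n w z₀ d₀ k).2, sm n (zdq n w z₀ d₀ k).2 w)

theorem zdq_le {n w z₀ d₀ : ℕ} (hw : w ≤ n) (hz : z₀ ≤ n) (hd : d₀ ≤ n) (k : ℕ) :
    (zdq n w z₀ d₀ k).1 ≤ n ∧ (zdq n w z₀ d₀ k).2 ≤ n := by
  induction k with
  | zero => exact ⟨hz, hd⟩
  | succ k ih => exact ⟨sm_le ih.1 ih.2, sm_le ih.2 hw⟩

/-- The chirp pass. -/
def csLoop : Cmd W G := .loop (ne .dat) (Cmd.seq rot upd)

theorem run_csLoop (s : St) (n m z₀ d₀ : ℕ) (x : ℕ → List Bool) (A : List Bool)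
    (hx : ∀ k < m, (x k).length = n) (hn : 0 < n) (hz : z₀ ≤ n) (hd : d₀ ≤ n) (hw : s.w ≤ n)
    (ht1 : s.t1 = []) (ht2 : s.t2 = []) (hu : s.u1 = 0) (hx1 : s.x1 = 0) :
    Run Ω csLoop (St.st {s with z := z₀, zb := n - z₀, d := d₀, db := n - d₀,
                                dat := seg x 0 m, acc := A})
      (St.st {s with
                z := (zdq n s.w z₀ d₀ m).1, zb := n - (zdq n s.w z₀ d₀ m).1,
                d := (zdq n s.w z₀ d₀ m).2, db := n - (zdq n s.w z₀ d₀ m).2,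
                dat := [],
                acc := (seg (fun k => (x k).rotate (n - (zdq n s.w z₀ d₀ k).1)) 0 m).reverse ++ A})
      (m * (34 * n + 19) + 1) := by
  refine (run_pass (Ω := Ω) (body := Cmd.seq rot upd) (fun k => {s with
      z := (zdq n s.w z₀ d₀ k).1, zb := n - (zdq n s.w z₀ d₀ k).1,
      d := (zdq n s.w z₀ d₀ k).2, db := n - (zdq n s.w z₀ d₀ k).2}) x
    (fun k => (x k).rotate (n - (zdq n s.w z₀ d₀ k).1)) m (34 * n + 18) A ?_ ?_).cast rfl rfl ?_
  · intro k hk h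
    have := hx k hk
    simp [h] at this
    omega
  · intro k hk D A
    obtain ⟨h1, h2⟩ := zdq_le (n := n) (w := s.w) (z₀ := z₀) (d₀ := d₀) hw hz hd k
    have h := run_rot (Ω := Ω) {s with
      z := (zdq n s.w z₀ d₀ k).1, zb := n - (zdq n s.w z₀ d₀ k).1,
      d := (zdq n s.w z₀ d₀ k).2, db := n - (zdq n s.w z₀ d₀ k).2, dat := x k ++ D, acc := A}
      (n := n) (x := x k) (y := D) (hx k hk) rfl (by simp; omega) ht1 ht2 hu
    simp only [
        upd_arg, upd_dat, upd_acc, upd_t1, upd_t2, upd_t3, upd_res, upd_out, upd_cc, upd_n, upd_s,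
        upd_L, upd_q, upd_tau, upd_K, upd_w, upd_z, upd_zb, upd_d, upd_db, upd_e, upd_v, upd_p,
        upd_i, upd_j, upd_a, upd_b, upd_B, upd_N, upd_m, upd_h, upd_u1, upd_u2, upd_u3, upd_u4,
        upd_u5, upd_u6, upd_x1, upd_x2, upd_x3, upd_x4, st_arg, st_dat, st_acc, st_t1, st_t2,
        st_t3, st_res, st_out, st_cc, st_n, st_s, st_L, st_q, st_tau, st_K, st_w, st_z, st_zb,
        st_d, st_db, st_e, st_v, st_p, st_i, st_j, st_a, st_b, st_B, st_N, st_m, st_h, st_u1,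
        st_u2, st_u3, st_u4, st_u5, st_u6, st_x1, st_x2, st_x3, st_x4] at h
    have h := h.seq (run_upd _ (n := n) (by simpa using h1) rfl (by simpa using h2) rfl
      (by simpa using hw) hx1)
    simp only [
        upd_arg, upd_dat, upd_acc, upd_t1, upd_t2, upd_t3, upd_res, upd_out, upd_cc, upd_n, upd_s,
        upd_L, upd_q, upd_tau, upd_K, upd_w, upd_z, upd_zb, upd_d, upd_db, upd_e, upd_v, upd_p,
        upd_i, upd_j, upd_a, upd_b, upd_B, upd_N, upd_m, upd_h, upd_u1, upd_u2, upd_u3, upd_u4,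
        upd_u5, upd_u6, upd_x1, upd_x2, upd_x3, upd_x4, st_arg, st_dat, st_acc, st_t1, st_t2,
        st_t3, st_res, st_out, st_cc, st_n, st_s, st_L, st_q, st_tau, st_K, st_w, st_z, st_zb,
        st_d, st_db, st_e, st_v, st_p, st_i, st_j, st_a, st_b, st_B, st_N, st_m, st_h, st_u1,
        st_u2, st_u3, st_u4, st_u5, st_u6, st_x1, st_x2, st_x3, st_x4] at h
    refine h.congr ?_ ?_
    · rfl
    · omega
  · exact le_rfl

end Vale.Agent.P338
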