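import Vale.Agent.Lib.P338.Stack

/-!
# Compilation of stack programs to multitape Turing machines
-/

namespace Vale.Agent.P338

namespace Compile

/-- A finite automaton acting on stacks; `none` is the exit. -/
structure Frag (ι Γ : Type) where
  Q : Type
  fin : Fintype Q
  entry : Option Q
  δ : Q → (ι → Option Γ) → (ι → Op Γ) × Option Q

variable {ι Γ : Type}

/-- apply operations to all stacks -/
def app (f : ι → Op Γ) (s : ι → List Γ) : ι → List Γ := fun i => (f i).app (s i)

/-- The automaton exits. -/
inductive Steps (F : Frag ι Γ) : Option F.Q → (ι → List Γ) → (ι → List Γ) → ℕ → Prop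
  | done (s) : Steps F none s s 0
  | step (q s s' n) : Steps F (F.δ q (tops s)).2 (app (F.δ q (tops s)).1 s) s' n →
      Steps F (some q) s s' (n + 1)

theorem Steps.embed {F F' : Frag ι Γ} (j : Option F.Q → Option F'.Q)
    (hj : ∀ q, ∃ q', j (some q) = some q' ∧
      ∀ t, F'.δ q' t = ((F.δ q t).1, j (F.δ q t).2))
    {o : Option F.Q} {s s₁ s₂ : ι → List Γ} {n m : ℕ} (h : Steps F o s s₁ n)
    (h' : Steps F' (j none) s₁ s₂ m) : Steps F' (j o) s s₂ (n + m) := by
  induction h with
  | done s => rw [Nat.zero_add]; exact h'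
  | step q s s' n _ ih =>
    obtain ⟨q', hq, hq'⟩ := hj q
    rw [hq, show n + 1 + m = (n + m) + 1 by omega]
    apply Steps.step
    rw [hq' (tops s)]
    exact ih h'

/-- do nothing -/
def fragSkip : Frag ι Γ := ⟨Empty, inferInstance, none, fun q => q.elim⟩

/-- one action -/
def fragAct (f : (ι → Option Γ) → ι → Op Γ) : Frag ι Γ :=
  ⟨Unit, inferInstance, some (), fun _ t => (f t, none)⟩

/-- first part of a sequence -/
def seqL (A B : Frag ι Γ) (o : Option A.Q) : Option (A.Q ⊕ B.Q) :=
  match o with
  | some q => some (Sum.inl q)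
  | none => B.entry.map Sum.inr

/-- sequence -/
def fragSeq (A B : Frag ι Γ) : Frag ι Γ where
  Q := A.Q ⊕ B.Q
  fin := @instFintypeSum _ _ A.fin B.fin
  entry := seqL A B A.entry
  δ q t := match q with
    | Sum.inl q => ((A.δ q t).1, seqL A B (A.δ q t).2)
    | Sum.inr q => ((B.δ q t).1, (B.δ q t).2.map Sum.inr)

/-- conditional -/
def fragIte (u : (ι → Option Γ) → Bool) (A B : Frag ι Γ) : Frag ι Γ where
  Q := Option (A.Q ⊕ B.Q)
  fin := @instFintypeOption _ (@instFintypeSum _ _ A.fin B.fin)
  entry := some none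
  δ q t := match q with
    | none => (fun _ => Op.nop,
        if u t then A.entry.map (fun x => some (Sum.inl x))
        else B.entry.map (fun x => some (Sum.inr x)))
    | some (Sum.inl q) => ((A.δ q t).1, (A.δ q t).2.map (fun x => some (Sum.inl x)))
    | some (Sum.inr q) => ((B.δ q t).1, (B.δ q t).2.map (fun x => some (Sum.inr x)))

/-- loop -/
def fragLoop (u : (ι → Option Γ) → Bool) (A : Frag ι Γ) : Frag ι Γ where
  Q := Option A.Q
  fin := @instFintypeOption _ A.fin
  entry := some none
  δ q t := match q with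
    | none => (fun _ => Op.nop, if u t then some A.entry else none)
    | some q => ((A.δ q t).1, some (A.δ q t).2)

/-- compilation of a program -/
def frag : Cmd ι Γ → Frag ι Γ
  | .skip => fragSkip
  | .call => fragSkip
  | .act f => fragAct f
  | .seq a b => fragSeq (frag a) (frag b)
  | .ite t a b => fragIte t (frag a) (frag b)
  | .loop t a => fragLoop t (frag a)

theorem app_nop (s : ι → List Γ) : app (fun _ => Op.nop) s = s := rfl

theorem frag_correct {c : Cmd ι Γ} {s s' : ι → List Γ} {n : ℕ}
    (h : Exec noOracle c s s' n) : Steps (frag c) (frag c).entry s s' n := by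
  induction h with
  | skip s => exact Steps.done s
  | call s s' n h => exact h.elim
  | act f s => exact Steps.step _ _ _ _ (Steps.done _)
  | seq a b s s₁ s₂ n m _ _ iha ihb =>
    have h2 : Steps (frag (.seq a b)) ((frag b).entry.map Sum.inr) s₁ s₂ (m + 0) := by
      refine Steps.embed (F := frag b) (F' := frag (.seq a b)) (fun o => o.map Sum.inr)
        (fun q => ⟨Sum.inr q, rfl, fun t => rfl⟩) ihb (Steps.done _)
    exact Steps.embed (F := frag a) (F' := frag (.seq a b)) (seqL (frag a) (frag b))
      (fun q => ⟨Sum.inl q, rfl, fun t => rfl⟩) iha h2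
  | ite_true t a b s s' n ht _ ih =>
    refine Steps.step _ _ _ _ ?_
    have h1 : ((frag (.ite t a b)).δ none (tops s)).2 =
        (frag a).entry.map (fun x => some (Sum.inl x)) := by
      simp [frag, fragIte, ht]
    rw [h1]
    exact Steps.embed (F := frag a) (F' := frag (.ite t a b))
      (fun o => o.map (fun x => some (Sum.inl x)))
      (fun q => ⟨some (Sum.inl q), rfl, fun t => rfl⟩) ih (Steps.done _)
  | ite_false t a b s s' n ht _ ih =>
    refine Steps.step _ _ _ _ ?_
    have h1 : ((frag (.ite t a b)).δ none (tops s)).2 =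
        (frag b).entry.map (fun x => some (Sum.inr x)) := by
      simp [frag, fragIte, ht]
    rw [h1]
    exact Steps.embed (F := frag b) (F' := frag (.ite t a b))
      (fun o => o.map (fun x => some (Sum.inr x)))
      (fun q => ⟨some (Sum.inr q), rfl, fun t => rfl⟩) ih (Steps.done _)
  | loop_done t a s ht =>
    refine Steps.step _ _ _ _ ?_
    have h1 : ((frag (.loop t a)).δ none (tops s)).2 = none := by
      simp [frag, fragLoop, ht]
    rw [h1]
    exact Steps.done _
  | loop_step t a s s₁ s₂ n m ht _ _ iha ihl =>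
    refine Steps.step _ _ _ _ ?_
    have h1 : ((frag (.loop t a)).δ none (tops s)).2 = some (frag a).entry := by
      simp [frag, fragLoop, ht]
    rw [h1]
    exact Steps.embed (F := frag a) (F' := frag (.loop t a)) (fun o => some o)
      (fun q => ⟨some q, rfl, fun t => rfl⟩) iha ihl

/-! ### The machine -/

/-- tape alphabet -/
abbrev Sy (Γ : Type) : Type := Option (Option (Bool ⊕ Γ))

/-- tapes -/
abbrev Tp (ι : Type) : Type := Option (Option ι)

/-- states -/
abbrev St (F : Frag ι Γ) : Type := Option Bool ⊕ (Option F.Q ⊕ ((ι → Option Γ) × Option F.Q))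

/-- letter on a stack tape -/
def sym (a : Γ) : Sy Γ := some (some (Sum.inr a))

/-- bit on the input and output tapes -/
def bt (β : Bool) : Sy Γ := some (some (Sum.inl β))

/-- the tape of a stack -/
def stk (i : ι) : Tp ι := some (some i)

/-- stack letter read -/
def topOf : Sy Γ → Option Γ
  | some (some (Sum.inr a)) => some a
  | _ => none

/-- first half of an operation -/
def act1 : Op Γ → Option Γ → Sy Γ → Sy Γ × Move
  | .nop, _, y => (y, .stay)
  | .pop, _, _ => (none, .left)
  | .push _, _, y => (y, .right)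
  | .rep _, none, y => (y, .right)
  | .rep _, some _, y => (y, .stay)

/-- second half of an operation: the letter to be written -/
def wsym : Op Γ → Option Γ
  | .nop => none
  | .pop => none
  | .push a => some a
  | .rep a => some a

/-- write or keep -/
def wr : Option Γ → Sy Γ → Sy Γ
  | some a, _ => sym a
  | none, y => y

/-- first half of the operations on all tapes -/
def out1 (ops : ι → Op Γ) (σ : Tp ι → Sy Γ) : Tp ι → Sy Γ × Move
  | some (some i) => act1 (ops i) (topOf (σ (stk i))) (σ (stk i))
  | some none => (σ (some none), .stay)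
  | none => (σ none, .stay)

/-- second half of the operations on all tapes -/
def out2 (g : ι → Option Γ) (σ : Tp ι → Sy Γ) : Tp ι → Sy Γ × Move
  | some (some i) => (wr (g i) (σ (stk i)), .stay)
  | some none => (σ (some none), .stay)
  | none => (σ none, .stay)

open Classical in
/-- reading a bit, first half -/
noncomputable def rdA (i₀ : ι) (σ : Tp ι → Sy Γ) : Tp ι → Sy Γ × Move := fun x =>
  (σ x, if x = stk i₀ then .right else .stay)

open Classical in
/-- reading a bit, second half -/
noncomputable def rdB (i₀ : ι) (a : Γ) (σ : Tp ι → Sy Γ) : Tp ι → Sy Γ × Move := fun x =>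
  (if x = stk i₀ then sym a else σ x, if x = none then .right else .stay)

open Classical in
/-- writing a bit -/
noncomputable def wrO (b : Bool → Γ) (o₀ : ι) (a : Γ) (σ : Tp ι → Sy Γ) :
    Tp ι → Sy Γ × Move := fun x =>
  if x = some none then (bt (decide (a = b true)), .right)
  else (σ x, if x = stk o₀ then .left else .stay)

/-- transition table -/
noncomputable def stp (F : Frag ι Γ) (b : Bool → Γ) (i₀ o₀ : ι) :
    St F → (Tp ι → Sy Γ) → Option (St F × (Tp ι → Sy Γ × Move))
  | Sum.inl none, σ =>
    match σ none with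
    | some (some (Sum.inl β)) => some (Sum.inl (some β), rdA i₀ σ)
    | _ => some (Sum.inr (Sum.inl F.entry), fun x => (σ x, .stay))
  | Sum.inl (some β), σ => some (Sum.inl none, rdB i₀ (b β) σ)
  | Sum.inr (Sum.inl (some q)), σ =>
    some (Sum.inr (Sum.inr (fun i => wsym ((F.δ q (fun i => topOf (σ (stk i)))).1 i),
        (F.δ q (fun i => topOf (σ (stk i)))).2)),
      out1 (F.δ q (fun i => topOf (σ (stk i)))).1 σ)
  | Sum.inr (Sum.inr (g, o)), σ => some (Sum.inr (Sum.inl o), out2 g σ)
  | Sum.inr (Sum.inl none), σ =>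
    match σ (stk o₀) with
    | some (some (Sum.inr a)) => some (Sum.inr (Sum.inl none), wrO b o₀ a σ)
    | _ => none

/-- the machine -/
noncomputable def mach [Fintype ι] [DecidableEq ι] [Fintype Γ] (F : Frag ι Γ) (b : Bool → Γ)
    (i₀ o₀ : ι) : Machine where
  Tape := Tp ι
  Sym := Sy Γ
  State := St F
  tapeFintype := inferInstance
  symFintype := inferInstance
  stateFintype := by
    haveI := F.fin
    infer_instance
  inp := none
  out := some none
  blank := none
  bit := bt
  sep := some none
  bit_injective := by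
    intro x y h
    simpa [bt] using h
  bit_ne_blank := by simp [bt]
  bit_ne_sep := by simp [bt]
  sep_ne_blank := by simp
  start := Sum.inl none
  step := stp F b i₀ o₀

/-- the cells of a tape below and at the head represent a stack -/
def RepL (cells : ℕ → Sy Γ) : List Γ → Prop
  | [] => cells 0 = none
  | a :: l => cells (l.length + 1) = sym a ∧ RepL cells l

theorem RepL.update {cells : ℕ → Sy Γ} {l : List Γ} {n : ℕ} {x : Sy Γ} (h : RepL cells l)
    (hn : l.length < n) : RepL (Function.update cells n x) l := by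
  induction l with
  | nil =>
    have : (0 : ℕ) ≠ n := by
      simp at hn
      omega
    simpa [RepL, Function.update_of_ne this] using h
  | cons a l ih =>
    simp only [List.length_cons] at hn
    refine ⟨?_, ih h.2 (by omega)⟩
    rw [Function.update_of_ne (by omega)]
    exact h.1

theorem RepL.topOf {cells : ℕ → Sy Γ} {l : List Γ} (h : RepL cells l) :
    topOf (cells l.length) = l.head? := by
  cases l with
  | nil =>
    have h' : cells 0 = none := h
    simp [h', Compile.topOf]
  | cons a l =>
    have h' : cells (l.length + 1) = sym a := h.1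
    simp [h', Compile.topOf, sym]

/-- effect of the two halves of an operation on a tape -/
theorem RepL.op {cells : ℕ → Sy Γ} {l : List Γ} (h : RepL cells l) (o : Op Γ) :
    let r := act1 o (Compile.topOf (cells l.length)) (cells l.length)
    let cells₁ := Function.update cells l.length r.1
    let h₁ := r.2.apply l.length
    h₁ = (o.app l).length ∧
      RepL (Function.update cells₁ h₁ (wr (wsym o) (cells₁ h₁))) (o.app l) := by
  rw [h.topOf]
  cases o with
  | nop =>
    simp only [act1, wsym, wr, Move.apply, Op.app, Function.update_eq_self, true_and]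
    exact h
  | pop =>
    cases l with
    | nil =>
      simp only [act1, wsym, wr, Move.apply, Op.app, List.length_nil, List.tail_nil,
        Function.update_eq_self]
      refine ⟨by simp, ?_⟩
      simp [RepL]
    | cons a l =>
      simp only [act1, wsym, wr, Move.apply, Op.app, List.length_cons, List.tail_cons,
        Function.update_eq_self]
      refine ⟨by simp, ?_⟩
      exact RepL.update h.2 (by omega)
  | push a =>
    simp only [act1, wsym, wr, Move.apply, Op.app, List.length_cons, Function.update_eq_self]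
    refine ⟨trivial, ?_, ?_⟩
    · simp
    · exact h.update (by omega)
  | rep a =>
    cases l with
    | nil =>
      simp only [act1, List.head?_nil, wsym, wr, Move.apply, Op.app, List.length_nil,
        List.tail_nil, List.length_cons, Function.update_eq_self]
      refine ⟨trivial, ?_, ?_⟩
      · simp
      · exact RepL.update (l := []) h (by simp)
    | cons x l =>
      simp only [act1, List.head?_cons, wsym, wr, Move.apply, Op.app, List.length_cons,
        List.tail_cons, Function.update_eq_self]
      refine ⟨trivial, ?_, ?_⟩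
      · simp
      · exact RepL.update h.2 (by omega)

/-! ### Runs -/

theorem run_add (M : Machine) (m n : ℕ) (c : M.Config) :
    M.run (m + n) c = (M.run m c).bind (M.run n) := by
  induction m generalizing c with
  | zero => simp [Machine.run]
  | succ m ih =>
    rw [show m + 1 + n = (m + n) + 1 by omega]
    simp only [Machine.run]
    cases h : M.next c with
    | none => simp
    | some c' => simp [ih]

theorem run_trans {M : Machine} {m n : ℕ} {c c' c'' : M.Config} (h : M.run m c = some c')
    (h' : M.run n c' = some c'') : M.run (m + n) c = some c'' := by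
  rw [run_add, h]
  exact h'

theorem run_one {M : Machine} {c c' : M.Config} (h : M.next c = some c') :
    M.run 1 c = some c' := by
  simp [Machine.run, h]

variable [Fintype ι] [DecidableEq ι] [Fintype Γ] {F : Frag ι Γ} {b : Bool → Γ} {i₀ o₀ : ι}

/-- state of a configuration -/
def stt (c : (mach F b i₀ o₀).Config) : St F := c.state

/-- heads of a configuration -/
def hd (c : (mach F b i₀ o₀).Config) : Tp ι → ℕ := c.head

/-- cells of a configuration -/
def ce (c : (mach F b i₀ o₀).Config) : Tp ι → ℕ → Sy Γ := c.cell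

/-- the configuration after a step -/
def aft (c : (mach F b i₀ o₀).Config) (q : St F) (r : Tp ι → Sy Γ × Move) :
    (mach F b i₀ o₀).Config where
  state := q
  head := fun x => (r x).2.apply (c.head x)
  cell := fun x => Function.update (c.cell x) (c.head x) (r x).1

theorem stt_aft (c : (mach F b i₀ o₀).Config) (q : St F) (r : Tp ι → Sy Γ × Move) :
    stt (aft c q r) = q := rfl

theorem hd_aft (c : (mach F b i₀ o₀).Config) (q : St F) (r : Tp ι → Sy Γ × Move) (x : Tp ι) :
    hd (aft c q r) x = (r x).2.apply (hd c x) := rfl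

theorem ce_aft (c : (mach F b i₀ o₀).Config) (q : St F) (r : Tp ι → Sy Γ × Move) (x : Tp ι) :
    ce (aft c q r) x = Function.update (ce c x) (hd c x) (r x).1 := rfl

theorem next_aft (c : (mach F b i₀ o₀).Config) (q : St F) (r : Tp ι → Sy Γ × Move)
    (h : stp F b i₀ o₀ (stt c) (fun x => ce c x (hd c x)) = some (q, r)) :
    (mach F b i₀ o₀).run 1 c = some (aft c q r) := by
  have h' : (mach F b i₀ o₀).step c.state (fun x => c.cell x (c.head x)) = some (q, r) := h
  apply run_one
  simp only [Machine.next]
  rw [h']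
  rfl

/-- the stacks are represented, the output tape is blank -/
structure Inv (c : (mach F b i₀ o₀).Config) (q : St F) (s : ι → List Γ) : Prop where
  state : stt c = q
  hd : ∀ i, hd c (stk i) = (s i).length
  rep : ∀ i, RepL (ce c (stk i)) (s i)
  oh : Compile.hd c (some none) = 0
  oc : ∀ n, ce c (some none) n = none

omit [Fintype ι] [DecidableEq ι] [Fintype Γ] in
theorem stp_run (q : F.Q) (σ : Tp ι → Sy Γ) (t : ι → Option Γ)
    (ht : (fun i => topOf (σ (stk i))) = t) :
    stp F b i₀ o₀ (Sum.inr (Sum.inl (some q))) σ =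
      some (Sum.inr (Sum.inr (fun i => wsym ((F.δ q t).1 i), (F.δ q t).2)),
        out1 (F.δ q t).1 σ) := by
  subst ht
  rfl

theorem macro_step (c : (mach F b i₀ o₀).Config) (q : F.Q) (s : ι → List Γ)
    (h : Inv c (Sum.inr (Sum.inl (some q))) s) :
    ∃ c', (mach F b i₀ o₀).run 2 c = some c' ∧
      Inv c' (Sum.inr (Sum.inl (F.δ q (tops s)).2)) (app (F.δ q (tops s)).1 s) := by
  have ht : (fun i => topOf (ce c (stk i) (hd c (stk i)))) = tops s := by
    funext i
    rw [h.hd i]
    exact (h.rep i).topOf
  have h1 := next_aft c _ _ (by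
    rw [h.state]
    exact stp_run q (fun x => ce c x (hd c x)) (tops s) ht)
  set c₁ := aft c (Sum.inr (Sum.inr (fun i => wsym ((F.δ q (tops s)).1 i), (F.δ q (tops s)).2)))
    (out1 (F.δ q (tops s)).1 (fun x => ce c x (hd c x))) with hc₁
  have h2 := next_aft c₁ (Sum.inr (Sum.inl (F.δ q (tops s)).2))
    (out2 (fun i => wsym ((F.δ q (tops s)).1 i)) (fun x => ce c₁ x (hd c₁ x))) rfl
  refine ⟨_, run_trans h1 h2, ⟨rfl, ?_, ?_, ?_, ?_⟩⟩
  · intro i
    have h3 := ((h.rep i).op ((F.δ q (tops s)).1 i)).1
    rw [← h.hd i] at h3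
    exact h3
  · intro i
    have h3 := ((h.rep i).op ((F.δ q (tops s)).1 i)).2
    rw [← h.hd i] at h3
    exact h3
  · exact h.oh
  · intro n
    rw [ce_aft]
    simp only [out2]
    rw [Function.update_eq_self, hc₁, ce_aft]
    simp only [out1]
    rw [Function.update_eq_self]
    exact h.oc n

theorem run_frag {o : Option F.Q} {s s' : ι → List Γ} {k : ℕ} (h : Steps F o s s' k) :
    ∀ c : (mach F b i₀ o₀).Config, Inv c (Sum.inr (Sum.inl o)) s →
      ∃ c', (mach F b i₀ o₀).run (2 * k) c = some c' ∧
        Inv c' (Sum.inr (Sum.inl none)) s' := by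
  induction h with
  | done s => exact fun c hc => ⟨c, rfl, hc⟩
  | step q s s' n _ ih =>
    intro c hc
    obtain ⟨c₁, h1, hc₁⟩ := macro_step c q s hc
    obtain ⟨c₂, h2, hc₂⟩ := ih c₁ hc₁
    refine ⟨c₂, ?_, hc₂⟩
    rw [show 2 * (n + 1) = 2 + 2 * n by ring]
    exact run_trans h1 h2

/-- invariant of the reading phase -/
structure InvR (w : List Bool) (c : (mach F b i₀ o₀).Config) (j : ℕ) (s : ι → List Γ) :
    Prop where
  inv : Inv c (Sum.inl none) s
  ih : hd c none = j
  ic : ∀ n, ce c none n = (w.map bt).getD n none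

omit [Fintype ι] [DecidableEq ι] [Fintype Γ] in
theorem stp_read (β : Bool) (σ : Tp ι → Sy Γ) (h : σ none = bt β) :
    stp F b i₀ o₀ (Sum.inl none) σ = some (Sum.inl (some β), rdA i₀ σ) := by
  simp only [stp, h, bt]

omit [Fintype ι] [DecidableEq ι] [Fintype Γ] in
theorem stp_read_end (σ : Tp ι → Sy Γ) (h : σ none = none) :
    stp F b i₀ o₀ (Sum.inl none) σ = some (Sum.inr (Sum.inl F.entry), fun x => (σ x, .stay)) := by
  simp only [stp, h]

omit [Fintype ι] [DecidableEq ι] in
theorem stk_ne_none (i : ι) : stk i ≠ none := by simp [stk]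

omit [Fintype ι] [DecidableEq ι] in
theorem stk_ne_out (i : ι) : stk i ≠ some none := by simp [stk]

omit [Fintype ι] [DecidableEq ι] in
theorem stk_inj {i j : ι} : stk i = stk j ↔ i = j := by simp [stk]

omit [Fintype ι] [DecidableEq ι] [Fintype Γ] in
theorem rdA_self (i₀ : ι) (σ : Tp ι → Sy Γ) : rdA i₀ σ (stk i₀) = (σ (stk i₀), .right) := by
  simp [rdA]

omit [Fintype ι] [DecidableEq ι] [Fintype Γ] in
theorem rdA_ne (i₀ : ι) (σ : Tp ι → Sy Γ) (x : Tp ι) (h : x ≠ stk i₀) :
    rdA i₀ σ x = (σ x, .stay) := by
  simp [rdA, h]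

omit [Fintype ι] [DecidableEq ι] [Fintype Γ] in
theorem rdB_self (i₀ : ι) (a : Γ) (σ : Tp ι → Sy Γ) :
    rdB i₀ a σ (stk i₀) = (sym a, .stay) := by
  simp [rdB, stk_ne_none]

omit [Fintype ι] [DecidableEq ι] [Fintype Γ] in
theorem rdB_none (i₀ : ι) (a : Γ) (σ : Tp ι → Sy Γ) :
    rdB i₀ a σ none = (σ none, .right) := by
  simp [rdB, (stk_ne_none i₀).symm]

omit [Fintype ι] [DecidableEq ι] [Fintype Γ] in
theorem rdB_ne (i₀ : ι) (a : Γ) (σ : Tp ι → Sy Γ) (x : Tp ι) (h : x ≠ stk i₀) (h' : x ≠ none) :
    rdB i₀ a σ x = (σ x, .stay) := by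
  simp [rdB, h, h']

theorem read_step {w : List Bool} {c : (mach F b i₀ o₀).Config} {j : ℕ} {s : ι → List Γ}
    (h : InvR w c j s) (β : Bool) (hβ : (w.map (bt (Γ := Γ))).getD j none = bt β) :
    ∃ c', (mach F b i₀ o₀).run 2 c = some c' ∧
      InvR w c' (j + 1) (Function.update s i₀ (b β :: s i₀)) := by
  have h0 : ce c none (hd c none) = bt β := by
    rw [h.ih, h.ic, hβ]
  have h1 := next_aft c (Sum.inl (some β)) (rdA i₀ fun x => ce c x (hd c x)) (by
    rw [h.inv.state]
    exact stp_read β (fun x => ce c x (hd c x)) h0)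
  set c₁ := aft c (Sum.inl (some β)) (rdA i₀ fun x => ce c x (hd c x)) with hc₁
  have h2 := next_aft c₁ (Sum.inl none) (rdB i₀ (b β) fun x => ce c₁ x (hd c₁ x)) rfl
  have hcell : ∀ x, ce c₁ x = ce c x := fun x => Function.update_eq_self _ _
  have hhead : ∀ x, x ≠ stk i₀ → hd c₁ x = hd c x := by
    intro x hx
    rw [hc₁, hd_aft, rdA_ne i₀ _ x hx]
    rfl
  have hhead' : hd c₁ (stk i₀) = (s i₀).length + 1 := by
    rw [hc₁, hd_aft, rdA_self, h.inv.hd]
    rfl
  refine ⟨_, run_trans h1 h2, ⟨⟨rfl, ?_, ?_, ?_, ?_⟩, ?_, ?_⟩⟩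
  · intro i
    rw [hd_aft]
    by_cases hi : i = i₀
    · subst hi
      rw [rdB_self, hhead']
      simp [Move.apply]
    · rw [rdB_ne i₀ _ _ _ (fun h => hi (stk_inj.1 h)) (stk_ne_none i),
        hhead _ (fun h => hi (stk_inj.1 h)), Function.update_of_ne hi]
      exact h.inv.hd i
  · intro i
    rw [ce_aft]
    by_cases hi : i = i₀
    · subst hi
      rw [rdB_self, hhead', hcell, Function.update_self]
      refine ⟨by simp, (h.inv.rep i).update (by omega)⟩
    · rw [rdB_ne i₀ _ _ _ (fun h => hi (stk_inj.1 h)) (stk_ne_none i),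
        Function.update_of_ne hi, Function.update_eq_self, hcell]
      exact h.inv.rep i
  · rw [hd_aft, rdB_ne i₀ _ _ _ (stk_ne_out i₀).symm (by simp), hhead _ (stk_ne_out i₀).symm]
    exact h.inv.oh
  · intro n
    rw [ce_aft, rdB_ne i₀ _ _ _ (stk_ne_out i₀).symm (by simp), Function.update_eq_self, hcell]
    exact h.inv.oc n
  · rw [hd_aft, rdB_none, hhead _ (stk_ne_none i₀).symm, h.ih]
    rfl
  · intro n
    rw [ce_aft, rdB_none, Function.update_eq_self, hcell]
    exact h.ic n

theorem read_all (w : List Bool) : ∀ (rest pre : List Bool) (c : (mach F b i₀ o₀).Config)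
    (s : ι → List Γ), w = pre ++ rest → InvR w c pre.length s →
    ∃ c', (mach F b i₀ o₀).run (2 * rest.length + 1) c = some c' ∧
      Inv c' (Sum.inr (Sum.inl F.entry))
        (Function.update s i₀ ((rest.map b).reverse ++ s i₀)) := by
  intro rest
  induction rest with
  | nil =>
    intro pre c s hw h
    have h0 : ce c none (hd c none) = none := by
      rw [h.ih, h.ic, hw, List.getD_eq_default]
      simp
    have h1 := next_aft c (Sum.inr (Sum.inl F.entry))
      (fun x => (ce c x (hd c x), .stay)) (by
        rw [h.inv.state]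
        exact stp_read_end (fun x => ce c x (hd c x)) h0)
    have hs : Function.update s i₀ ((([] : List Bool).map b).reverse ++ s i₀) = s := by
      simp
    rw [hs]
    refine ⟨_, h1, ⟨rfl, h.inv.hd, ?_, h.inv.oh, ?_⟩⟩
    · intro i
      rw [ce_aft, Function.update_eq_self]
      exact h.inv.rep i
    · intro n
      rw [ce_aft, Function.update_eq_self]
      exact h.inv.oc n
  | cons β rest ih =>
    intro pre c s hw h
    obtain ⟨c₁, h1, hc₁⟩ := read_step h β (by
      rw [hw]
      simp)
    obtain ⟨c₂, h2, hc₂⟩ := ih (pre ++ [β]) c₁ _ (by simp [hw]) (by simpa using hc₁)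
    refine ⟨c₂, ?_, ?_⟩
    · rw [show 2 * (β :: rest).length + 1 = 2 + (2 * rest.length + 1) by simp; ring]
      exact run_trans h1 h2
    · simpa using hc₂

omit [Fintype ι] [DecidableEq ι] [Fintype Γ] in
theorem stp_out (a : Γ) (σ : Tp ι → Sy Γ) (h : σ (stk o₀) = sym a) :
    stp F b i₀ o₀ (Sum.inr (Sum.inl none)) σ = some (Sum.inr (Sum.inl none), wrO b o₀ a σ) := by
  simp only [stp, h, sym]

omit [Fintype ι] [DecidableEq ι] [Fintype Γ] in
theorem stp_out_end (σ : Tp ι → Sy Γ) (h : σ (stk o₀) = none) :
    stp F b i₀ o₀ (Sum.inr (Sum.inl none)) σ = none := by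
  simp only [stp, h]

omit [Fintype ι] [DecidableEq ι] [Fintype Γ] in
theorem wrO_stk (a : Γ) (σ : Tp ι → Sy Γ) : wrO b o₀ a σ (stk o₀) = (σ (stk o₀), .left) := by
  simp [wrO, stk_ne_out]

omit [Fintype ι] [DecidableEq ι] [Fintype Γ] in
theorem wrO_out (hb : Function.Injective b) (β : Bool) (σ : Tp ι → Sy Γ) :
    wrO b o₀ (b β) σ (some none) = (bt β, .right) := by
  have : (b β = b true) ↔ β = true := hb.eq_iff
  cases β <;> simp [wrO, this]

theorem write_all (hb : Function.Injective b) : ∀ (u₂ u₁ : List Bool)
    (c : (mach F b i₀ o₀).Config), stt c = Sum.inr (Sum.inl none) →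
    hd c (stk o₀) = u₂.length → RepL (ce c (stk o₀)) (u₂.map b) →
    hd c (some none) = u₁.length →
    (∀ n, ce c (some none) n = (u₁.map bt).getD n none) →
    ∃ c', (mach F b i₀ o₀).run u₂.length c = some c' ∧ (mach F b i₀ o₀).next c' = none ∧
      ∀ n, ce c' (some none) n = ((u₁ ++ u₂).map bt).getD n none := by
  intro u₂
  induction u₂ with
  | nil =>
    intro u₁ c hs hh hr ho hc
    refine ⟨c, rfl, ?_, by rw [List.append_nil]; exact hc⟩
    have h0 : ce c (stk o₀) (hd c (stk o₀)) = none := by
      rw [hh]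
      exact hr
    have h1 : (mach F b i₀ o₀).step c.state (fun x => c.cell x (c.head x)) = none := by
      show stp F b i₀ o₀ (stt c) (fun x => ce c x (hd c x)) = none
      rw [hs]
      exact stp_out_end _ h0
    simp only [Machine.next]
    rw [h1]
    rfl
  | cons β u₂ ih =>
    intro u₁ c hs hh hr ho hc
    have hr1 : ce c (stk o₀) (u₂.length + 1) = sym (b β) := by
      have := hr.1
      rwa [List.length_map] at this
    have hr2 : RepL (ce c (stk o₀)) (u₂.map b) := hr.2
    have h0 : ce c (stk o₀) (hd c (stk o₀)) = sym (b β) := by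
      rw [hh]
      exact hr1
    have h1 := next_aft c (Sum.inr (Sum.inl none))
      (wrO b o₀ (b β) fun x => ce c x (hd c x)) (by
        rw [hs]
        exact stp_out (b β) (fun x => ce c x (hd c x)) h0)
    set c₁ := aft c (Sum.inr (Sum.inl none))
      (wrO b o₀ (b β) fun x => ce c x (hd c x)) with hc₁
    have g1 : hd c₁ (stk o₀) = u₂.length := by
      rw [hc₁, hd_aft, wrO_stk, hh]
      simp [Move.apply]
    have g2 : RepL (ce c₁ (stk o₀)) (u₂.map b) := by
      rw [hc₁, ce_aft, wrO_stk, Function.update_eq_self]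
      exact hr2
    have g3 : hd c₁ (some none) = (u₁ ++ [β]).length := by
      rw [hc₁, hd_aft, wrO_out hb, ho]
      simp [Move.apply]
    have g4 : ∀ n, ce c₁ (some none) n = ((u₁ ++ [β]).map bt).getD n none := by
      intro n
      rw [hc₁, ce_aft, wrO_out hb, ho]
      by_cases hn : n = u₁.length
      · subst hn
        rw [Function.update_self, List.getD_eq_getElem?_getD, List.map_append,
          List.getElem?_append_right (by simp)]
        simp
      · rw [Function.update_of_ne hn, hc]
        rcases lt_or_gt_of_ne hn with h | h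
        · rw [List.getD_eq_getElem?_getD, List.getD_eq_getElem?_getD, List.map_append,
            List.getElem?_append_left (by simpa using h)]
        · rw [List.getD_eq_default, List.getD_eq_default]
          · simp; omega
          · simp; omega
    obtain ⟨c₂, h2, h3, h4⟩ := ih (u₁ ++ [β]) c₁ rfl g1 g2 g3 g4
    refine ⟨c₂, ?_, h3, by simpa using h4⟩
    rw [List.length_cons, Nat.add_comm]
    exact run_trans h1 h2

theorem init_inv (w : List Bool) : InvR w ((mach F b i₀ o₀).init
    (w.map bt)) ([] : List Bool).length (fun _ => []) := by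
  refine ⟨⟨rfl, fun i => rfl, fun i => ?_, rfl, fun n => ?_⟩, rfl, fun n => ?_⟩
  · exact if_neg (stk_ne_none i)
  · exact if_neg (c := (some none : Tp ι) = none) (by simp)
  · exact if_pos rfl

end Compile

open Compile in
/-- A stack program can be run by a multitape Turing machine with constant overhead. -/
theorem exists_machine {ι Γ : Type} [Fintype ι] [DecidableEq ι] [Fintype Γ]
    (P : Cmd ι Γ) (b : Bool → Γ) (hb : Function.Injective b) (i₀ o₀ : ι) :
    ∃ (M : Machine) (C : ℕ), ∀ (w u : List Bool) (s : ι → List Γ) (k : ℕ),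
      Exec noOracle P (fun i => if i = i₀ then (w.map b).reverse else []) s k →
      s o₀ = u.map b →
      ∃ t c, M.HaltsIn (w.map M.bit) t c ∧ M.Writes c u ∧
        t ≤ C * (k + w.length + u.length + 1) := by
  refine ⟨mach (frag P) b i₀ o₀, 2, fun w u s k hP hs => ?_⟩
  obtain ⟨c₁, h1, hc₁⟩ := read_all w w [] _ _ rfl
    (init_inv (F := frag P) (b := b) (i₀ := i₀) (o₀ := o₀) w)
  have hinit : Function.update (fun _ : ι => ([] : List Γ)) i₀
      ((w.map b).reverse ++ []) = fun i => if i = i₀ then (w.map b).reverse else [] := by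
    funext i
    by_cases hi : i = i₀
    · subst hi
      simp
    · simp [hi]
  rw [hinit] at hc₁
  obtain ⟨c₂, h2, hc₂⟩ := run_frag (frag_correct hP) c₁ hc₁
  obtain ⟨c₃, h3, h4, h5⟩ := write_all hb u [] c₂ hc₂.state
    (by rw [hc₂.hd, hs, List.length_map]) (by rw [← hs]; exact hc₂.rep o₀) hc₂.oh
    (by intro n; rw [hc₂.oc]; rfl)
  refine ⟨2 * w.length + 1 + 2 * k + u.length, c₃,
    ⟨run_trans (run_trans h1 h2) h3, h4⟩, h5, by omega⟩

end Vale.Agent.P338
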