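import Vale.Agent.Lib.P338.Trans2

/-! Arithmetic of the product of the two factors. -/

namespace Vale.Agent.P338

open Finset

theorem val_rseg (x : ℕ → List Bool) (n m : ℕ) (h : ∀ k < m, (x k).length = n) :
    val (rseg x m) = ∑ i ∈ range m, val (x i) * (2 ^ n) ^ i := by
  induction m with
  | zero => simp [rseg]
  | succ m ih =>
    rw [rseg_succ, val_append, ih (fun k hk => h k (by omega)), sum_range_succ,
      rseg_length (fun k hk => h k (by omega)), mul_comm m n, pow_mul, add_comm]

theorem lv_drop (l : List Bool) (m : ℕ) : lv (l.drop m) = lv l / 2 ^ m := by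
  induction l generalizing m with
  | nil => simp [lv]
  | cons a l ih =>
    cases m with
    | zero => simp
    | succ m =>
      rw [List.drop_succ_cons, ih, lv, pow_succ, mul_comm (2 ^ m), ← Nat.div_div_eq_div_mul]
      congr 1
      have : a.toNat < 2 := Bool.toNat_lt a
      omega

theorem lv_take (l : List Bool) (m : ℕ) : lv (l.take m) = lv l % 2 ^ m := by
  induction l generalizing m with
  | nil => simp [lv]
  | cons a l ih =>
    cases m with
    | zero => simp [lv, Nat.mod_one]
    | succ m =>
      rw [List.take_succ_cons, lv, ih, lv, pow_succ, mul_comm (2 ^ m), Nat.mod_mul]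
      have : a.toNat < 2 := Bool.toNat_lt a
      have h2 : (a.toNat + 2 * lv l) / 2 = lv l := by omega
      rw [h2]
      omega

theorem lv_chunk (l : List Bool) (k i : ℕ) :
    lv (chunk l k i) = lv l / (2 ^ k) ^ i % 2 ^ k := by
  rw [chunk, lv_take, lv_drop, mul_comm i k, pow_mul]

/-- digits of a sum -/
theorem sum_digit (D : ℕ → ℕ) (B m j : ℕ) (hD : ∀ i, D i < B) (hj : j < m) :
    (∑ i ∈ range m, D i * B ^ i) / B ^ j % B = D j := by
  have hB : 0 < B := lt_of_le_of_lt (Nat.zero_le _) (hD 0)
  have h1 : ∀ j, ∑ i ∈ range j, D i * B ^ i < B ^ j := by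
    intro j
    induction j with
    | zero => simp
    | succ j ih =>
      rw [sum_range_succ, pow_succ]
      have : (D j + 1) * B ^ j ≤ B * B ^ j := Nat.mul_le_mul_right _ (hD j)
      nlinarith
  obtain ⟨k, rfl⟩ : ∃ k, m = j + 1 + k := ⟨m - (j + 1), by omega⟩
  have h2 : ∑ i ∈ range (j + 1 + k), D i * B ^ i =
      (∑ i ∈ range j, D i * B ^ i) + B ^ j * (D j + B * ∑ i ∈ range k, D (j + 1 + i) * B ^ i) := by
    rw [sum_range_add, sum_range_succ, mul_add, add_assoc]
    congr 1
    rw [mul_comm (D j), mul_sum, mul_sum]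
    congr 1
    refine sum_congr rfl fun i _ => ?_
    ring
  rw [h2, Nat.add_mul_div_left _ _ (pow_pos hB j), Nat.div_eq_of_lt (h1 j), zero_add,
    Nat.add_mul_mod_self_left, Nat.mod_eq_of_lt (hD j)]

/-- the product of two sums -/
theorem conv_eq (u y : ℕ → ℕ) (B Q P : ℕ) (hu : ∀ a, Q ≤ a → u a = 0) :
    (∑ a ∈ range Q, u a * B ^ a) * (∑ p ∈ range P, y p * B ^ p) =
      ∑ j ∈ range (Q + P), (∑ p ∈ range P, if p ≤ j then u (j - p) * y p else 0) * B ^ j := by
  rw [mul_comm, sum_mul]
  conv_rhs => simp only [sum_mul]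
  conv_rhs => rw [sum_comm]
  refine sum_congr rfl fun p hp => ?_
  rw [mem_range] at hp
  have h1 : ∑ j ∈ range (Q + P), (if p ≤ j then u (j - p) * y p else 0) * B ^ j =
      ∑ j ∈ range (p + (Q + P - p)), (if p ≤ j then u (j - p) * y p else 0) * B ^ j := by
    congr 2; omega
  rw [h1, sum_range_add]
  have h2 : ∑ j ∈ range p, (if p ≤ j then u (j - p) * y p else 0) * B ^ j = 0 := by
    refine sum_eq_zero fun j hj => ?_
    rw [mem_range] at hj
    rw [if_neg (by omega), zero_mul]
  rw [h2, zero_add]
  have h3 : Q + P - p = Q + (P - p) := by omega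
  rw [h3, sum_range_add]
  have h4 : ∑ i ∈ range (P - p), (if p ≤ p + (Q + i) then u (p + (Q + i) - p) * y p else 0) *
      B ^ (p + (Q + i)) = 0 := by
    refine sum_eq_zero fun j hj => ?_
    rw [if_pos (by omega), hu _ (by omega)]
    simp
  rw [h4, add_zero, mul_sum]
  refine sum_congr rfl fun i _ => ?_
  rw [if_pos (by omega), Nat.add_sub_cancel_left, pow_add]
  ring

theorem xs_val_data {n L M : ℕ} (x : ℕ → List Bool) {t i : ℕ} (ht : t < M) (hi : i < L) :
    val (xs n L M x (4 * L * t + i)) = val (x ((M - 1 - t) * L + (L - 1 - i))) := by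
  rw [xs_data x ht hi, val_append, val_replicate]; simp

theorem xs_val_pad {n L M : ℕ} (x : ℕ → List Bool) {t i : ℕ} (hi : L ≤ i) (hi' : i < 4 * L) :
    val (xs n L M x (4 * L * t + i)) = 0 := by
  rw [xs_pad x hi hi', val_replicate]

theorem xs_val_lt {n L M : ℕ} {x : ℕ → List Bool} (hx : ∀ k < M * L, (x k).length = n) (p : ℕ) :
    val (xs n L M x p) < 2 ^ n := by
  unfold xs
  split_ifs with h
  · obtain ⟨h1, h2⟩ := h
    rw [val_append, val_replicate, zero_mul, zero_add]
    refine (val_lt _).trans_eq ?_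
    rw [hx]
    generalize p / (4 * L) = a at *
    generalize p % (4 * L) = b at *
    have : (M - 1 - a) + 1 ≤ M := by omega
    calc _ < (M - 1 - a) * L + L := by omega
      _ = (M - 1 - a + 1) * L := by ring
      _ ≤ M * L := Nat.mul_le_mul_right _ this
  · rw [val_replicate]; positivity

/-- The coefficient of the product that gives entry `g * L + r`. -/
theorem coeff_eq {n L M : ℕ} (x : ℕ → List Bool) (y : ℕ → ℕ) {g r : ℕ} (hg : g < M) (hr : r < L) :
    (∑ p ∈ range (2 * L), if p ≤ slotIx L M (g * L + r) then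
      val (xs n L M x (slotIx L M (g * L + r) - p)) * y p else 0) =
      ∑ k ∈ range L, val (x (g * L + k)) * y (L + k - r) := by
  have hML : g * L + r + 1 ≤ M * L := by
    calc g * L + r + 1 ≤ g * L + L := by omega
      _ = (g + 1) * L := by ring
      _ ≤ M * L := Nat.mul_le_mul_right _ hg
  have hslot : slotIx L M (g * L + r) = 4 * L * (M - 1 - g) + L + (L - 1 - r) := by
    have := slotIx_eq (L := L) (M := M) (t := M - 1 - g) (i := L - 1 - r) (by omega) (by omega)
    rw [← this]
    congr 1
    have h3 : (M - 1 - g) * L + g * L + L = M * L := by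
      rw [← add_mul, ← Nat.succ_mul]; congr 1; omega
    omega
  rw [hslot]
  set t := M - 1 - g with ht
  set i := L - 1 - r with hi
  have hgt : M - 1 - t = g := by omega
  have hsplit : 2 * L = (i + 1) + (L + (L - 1 - i)) := by omega
  rw [hsplit, sum_range_add _ (i + 1) (L + (L - 1 - i)), sum_range_add _ L (L - 1 - i)]
  have z1 : ∑ p ∈ range (i + 1), (if p ≤ 4 * L * t + L + i then
      val (xs n L M x (4 * L * t + L + i - p)) * y p else 0) = 0 := by
    refine sum_eq_zero fun p hp => ?_
    rw [mem_range] at hp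
    rw [if_pos (by omega), show 4 * L * t + L + i - p = 4 * L * t + (L + i - p) by omega,
      xs_val_pad x (by omega) (by omega), zero_mul]
  have z2 : ∑ p ∈ range (L - 1 - i), (if i + 1 + (L + p) ≤ 4 * L * t + L + i then
      val (xs n L M x (4 * L * t + L + i - (i + 1 + (L + p)))) * y (i + 1 + (L + p)) else 0) = 0 := by
    refine sum_eq_zero fun p hp => ?_
    rw [mem_range] at hp
    split_ifs with h
    · obtain ⟨t', ht'⟩ : ∃ t', t = t' + 1 := by
        refine ⟨t - 1, ?_⟩
        rcases Nat.eq_zero_or_pos t with h0 | h0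
        · rw [h0] at h; omega
        · omega
      rw [show 4 * L * t + L + i - (i + 1 + (L + p)) = 4 * L * t' + (4 * L - 1 - p) by
        rw [ht', mul_add, mul_one]; omega, xs_val_pad x (by omega) (by omega), zero_mul]
    · rfl
  rw [z1, z2, zero_add, add_zero]
  refine sum_congr rfl fun k hk => ?_
  rw [mem_range] at hk
  rw [if_pos (by omega), show 4 * L * t + L + i - (i + 1 + k) = 4 * L * t + (L - 1 - k) by omega,
    xs_val_data x (by omega) (by omega), hgt]
  congr 3 <;> omega

theorem testBit_bin_val (k z : ℕ) : val (bin k z) = z % 2 ^ k := by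
  induction k with
  | zero => simp [bin, Nat.mod_one]
  | succ k ih =>
    have h1 : bin (k + 1) z = z.testBit k :: bin k z := by
      rw [bin, List.range_succ_eq_map, List.map_cons, List.map_map, bin]
      congr 1
      refine List.map_congr_left fun i _ => ?_
      simp only [Function.comp]
      congr 1
      omega
    rw [h1, val_cons, ih, bin_length, Nat.mod_pow_succ, Nat.toNat_testBit]
    ring

theorem lv_prodBits {n w L M : ℕ} {x : ℕ → List Bool} (hn : 0 < n)
    (hx : ∀ k < M * L, (x k).length = n) :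
    lv (prodBits n w L M x) = val (xWord n w L M x) * val (yWord n w L M) := by
  rw [prodBits, lv_reverse, testBit_bin_val, Nat.mod_eq_of_lt]
  have h1 := val_lt (xWord n w L M x)
  have h2 := val_lt (yWord n w L M)
  rw [xWord_length hx] at h1
  rw [yWord_length hn] at h2
  calc _ < 2 ^ nWord n L M * 2 ^ nWord n L M := Nat.mul_lt_mul'' h1 h2
    _ = _ := by rw [← pow_add]; congr 1; ring

/-- The slot of the product that gives entry `g * L + r`. -/
theorem lv_slot {n w L M : ℕ} {x : ℕ → List Bool} (hLn : 2 * L ≤ n) (hL : 0 < L)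
    (hx : ∀ k < M * L, (x k).length = n) {g r : ℕ} (hg : g < M) (hr : r < L) :
    lv (chunk (prodBits n w L M x) (4 * n) (slotIx L M (g * L + r))) =
      ∑ k ∈ range L, val (preW n w x (g * L + k)) *
        2 ^ (zdq n w (n / 2) (n - w) (L + k - r)).1 := by
  have hx' : ∀ k < M * L, (preW n w x k).length = n := fun k hk => by
    rw [preW, List.length_rotate]; exact hx k hk
  have hz : ∀ p, (zdq n w (n / 2) (n - w) p).1 < n := fun p => zdq_lt (by omega) p
  rw [lv_chunk, lv_prodBits (by omega) hx]
  have hX : val (xWord n w L M x) = ∑ a ∈ range (4 * L * M + 2 * L),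
      val (xs n L M (preW n w x) a) * (2 ^ (4 * n)) ^ a :=
    val_rseg _ _ _ fun k _ => xs_length hx' k
  have hY : val (yWord n w L M) = ∑ p ∈ range (2 * L),
      2 ^ (zdq n w (n / 2) (n - w) p).1 * (2 ^ (4 * n)) ^ p := by
    rw [yWord, val_append, val_replicate, zero_mul, zero_add,
      val_rseg _ (4 * n) _ fun k _ => slotY_length (hz k)]
    refine sum_congr rfl fun p _ => ?_
    rw [slotY_val]
  rw [hX, hY, conv_eq]
  · rw [sum_digit]
    · exact coeff_eq (preW n w x) (fun p => 2 ^ (zdq n w (n / 2) (n - w) p).1) hg hr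
    · intro j
      calc _ ≤ ∑ p ∈ range (2 * L), 2 ^ n * 2 ^ n := by
            refine sum_le_sum fun p _ => ?_
            split_ifs
            · exact Nat.mul_le_mul (xs_val_lt hx' _).le (Nat.pow_le_pow_right (by norm_num)
                (hz p).le)
            · exact Nat.zero_le _
        _ = 2 * L * (2 ^ n * 2 ^ n) := by rw [sum_const, card_range, smul_eq_mul]
        _ < 2 ^ n * (2 ^ n * 2 ^ n) := by
            refine Nat.mul_lt_mul_of_pos_right ?_ (by positivity)
            exact lt_of_le_of_lt hLn Nat.lt_two_pow_self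
        _ = 2 ^ (3 * n) := by rw [← pow_add, ← pow_add]; congr 1; ring
        _ ≤ 2 ^ (4 * n) := Nat.pow_le_pow_right (by norm_num) (by omega)
    · -- position bound
      have hML : g * L + r + 1 ≤ M * L := by
        calc g * L + r + 1 ≤ g * L + L := by omega
          _ = (g + 1) * L := by ring
          _ ≤ M * L := Nat.mul_le_mul_right _ hg
      have h1 : (M * L - 1 - (g * L + r)) / L < M := by
        rw [Nat.div_lt_iff_lt_mul hL]; omega
      have h2 : (M * L - 1 - (g * L + r)) % L < L := Nat.mod_lt _ hL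
      have h3 : 4 * L * ((M * L - 1 - (g * L + r)) / L) + 4 * L ≤ 4 * L * M := by
        calc _ = 4 * L * ((M * L - 1 - (g * L + r)) / L + 1) := by ring
          _ ≤ _ := Nat.mul_le_mul_left _ h1
      unfold slotIx
      omega
  · intro a ha
    rw [xs_top _ (by omega), val_replicate]

end Vale.Agent.P338
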