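import Vale.Agent.Lib.P338.Prog

/-! Rotation of words and chirp registers. -/

namespace Vale.Agent.P338

open Function

section gen
variable {ι : Type} [DecidableEq ι] {Ω : (ι → List G) → (ι → List G) → ℕ → Prop}

/-- both stacks non-empty -/
def ne2 (i j : ι) : (ι → Option G) → Bool := fun t => (t i).isSome && (t j).isSome

/-- `a - b` modulo `n`. -/
def sm (n a b : ℕ) : ℕ := if b ≤ a then a - b else a + n - b

/-- `a ← a - b` modulo `n`, where `a + a' = n`. -/
def subMod (a a' b u : ι) : Cmd ι G :=
  .seq (.loop (ne2 b a) (mv2 b u a a'))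
    (.seq (.ite (ne b) (.seq (moveAll a' a) (.loop (ne b) (mv2 b u a a'))) .skip) (moveAll u b))

theorem run_mv2T {a a' b u : ι} (h : [a, a', b, u].Nodup) {f : ι → List G} {k l m r : ℕ}
    (ha : f a = ticks (k + 1)) (ha' : f a' = ticks l) (hb : f b = ticks (m + 1))
    (hu : f u = ticks r) :
    Run Ω (mv2 b u a a') f (update (update (update (update f b (ticks m)) u (ticks (r + 1))) a
      (ticks k)) a' (ticks (l + 1))) 1 := by
  simp only [List.nodup_cons, List.mem_cons, List.not_mem_nil, or_false, not_or,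
    List.nodup_nil, and_true, not_false_eq_true] at h
  obtain ⟨⟨h1, h2, h3⟩, ⟨h4, h5⟩, h6⟩ := h
  refine (run_mv2 (i := b) (j := u) (k := a) (l := a') h6 (Ne.symm h2) (Ne.symm h4) (Ne.symm h3)
    (Ne.symm h5) h1 (a := G.tick) (b := G.tick) (x := ticks m) (y := ticks k)
    (by rw [hb, ticks_succ]) (by rw [ha, ticks_succ])).congr ?_ le_rfl
  rw [hu, ha', ← ticks_succ, ← ticks_succ]

/-- the loop of `subMod` -/
theorem run_subLoop {a a' b u : ι} (h : [a, a', b, u].Nodup) {f : ι → List G} (k l m r c : ℕ)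
    (t : (ι → Option G) → Bool)
    (ht : ∀ i < c, ∀ f : ι → List G, f a = ticks (k - i) → f b = ticks (m - i) →
      t (tops f) = true)
    (hc : ∀ f : ι → List G, f a = ticks (k - c) → f b = ticks (m - c) → t (tops f) = false)
    (hck : c ≤ k) (hcm : c ≤ m)
    (ha : f a = ticks k) (ha' : f a' = ticks l) (hb : f b = ticks m) (hu : f u = ticks r) :
    Run Ω (.loop t (mv2 b u a a')) f (update (update (update (update f b (ticks (m - c))) u
      (ticks (r + c))) a (ticks (k - c))) a' (ticks (l + c))) (2 * c + 1) := by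
  have h' := h
  simp only [List.nodup_cons, List.mem_cons, List.not_mem_nil, or_false, not_or,
    List.nodup_nil, and_true, not_false_eq_true] at h
  obtain ⟨⟨h1, h2, h3⟩, ⟨h4, h5⟩, h6⟩ := h
  have key := Run.loop_iter (Ω := Ω) (t := t) (a := mv2 b u a a')
    (fun i => update (update (update (update f b (ticks (m - i))) u
      (ticks (r + i))) a (ticks (k - i))) a' (ticks (l + i))) c 1
    (fun i hi => ht i hi _ (by simp [h1]) (by simp [Ne.symm h2, Ne.symm h4, h6]))
    (hc _ (by simp [h1]) (by simp [Ne.symm h2, Ne.symm h4, h6]))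
    (fun i hi => by
      refine (run_mv2T h' (k := k - (i + 1)) (l := l + i) (m := m - (i + 1)) (r := r + i)
        ?_ ?_ ?_ ?_).congr ?_ le_rfl
      · rw [show k - (i + 1) + 1 = k - i by omega]; simp [h1]
      · simp
      · rw [show m - (i + 1) + 1 = m - i by omega]; simp [Ne.symm h2, Ne.symm h4, h6]
      · simp [Ne.symm h3, Ne.symm h5]
      · funext x
        by_cases x1 : x = a'
        · subst x1; simp [add_assoc]
        by_cases x2 : x = a
        · subst x2; simp [h1]
        by_cases x3 : x = u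
        · subst x3; simp [x1, x2, add_assoc]
        by_cases x4 : x = b
        · subst x4; simp [x1, x2, x3]
        simp [x1, x2, x3, x4])
  refine Run.cast key ?_ rfl (by omega)
  funext x
  by_cases x1 : x = a'
  · subst x1; simp [ha']
  by_cases x2 : x = a
  · subst x2; simp [h1, ha]
  by_cases x3 : x = u
  · subst x3; simp [x1, x2, hu]
  by_cases x4 : x = b
  · subst x4; simp [x1, x2, x3, hb]
  simp [x1, x2, x3, x4]

theorem run_subMod {a a' b u : ι} (h : [a, a', b, u].Nodup) {f : ι → List G} {n k m : ℕ}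
    (hk : k ≤ n) (hm : m ≤ n)
    (ha : f a = ticks k) (ha' : f a' = ticks (n - k)) (hb : f b = ticks m) (hu : f u = ticks 0) :
    Run Ω (subMod a a' b u) f (update (update f a (ticks (sm n k m))) a' (ticks (n - sm n k m)))
      (10 * n + 6) := by
  have h' := h
  simp only [List.nodup_cons, List.mem_cons, List.not_mem_nil, or_false, not_or,
    List.nodup_nil, and_true, not_false_eq_true] at h
  obtain ⟨⟨h1, h2, h3⟩, ⟨h4, h5⟩, h6⟩ := h
  by_cases hkm : m ≤ k
  · -- no wrap-around
    have A := run_subLoop (Ω := Ω) h' (f := f) k (n - k) m 0 m (ne2 b a)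
      (fun i hi f' hf1 hf2 => by
        obtain ⟨j, hj⟩ : ∃ j, k - i = j + 1 := ⟨k - i - 1, by omega⟩
        obtain ⟨j', hj'⟩ : ∃ j, m - i = j + 1 := ⟨m - i - 1, by omega⟩
        simp [ne2, tops, hf1, hf2, hj, hj', ticks_succ])
      (fun f' hf1 hf2 => by simp [ne2, tops, hf2]) hkm le_rfl ha ha' hb hu
    refine (A.seq ((Run.ite_false ?_ (Run.skip _)).seq (runT_moveAll (i := u) (j := b)
      (by simpa using Ne.symm h6) (k := 0 + m) (m := m - m) ?_ ?_))).congr ?_ ?_
    · simp [ne, tops, Ne.symm h2, Ne.symm h4, h6]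
    · simp [Ne.symm h3, Ne.symm h5]
    · simp [Ne.symm h2, Ne.symm h4, h6]
    · funext x
      by_cases x1 : x = a'
      · subst x1; simp [h4, h5, sm, hkm]; congr 1; omega
      by_cases x2 : x = a
      · subst x2; simp [h1, h2, h3, sm, hkm]
      by_cases x3 : x = u
      · subst x3; simp [x1, x2, hu, Ne.symm h6]
      by_cases x4 : x = b
      · subst x4; simp [x1, x2, hb]
      simp [x1, x2, x3, x4]
    · omega
  · -- wrap-around
    have A := run_subLoop (Ω := Ω) h' (f := f) k (n - k) m 0 k (ne2 b a)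
      (fun i hi f' hf1 hf2 => by
        obtain ⟨j, hj⟩ : ∃ j, k - i = j + 1 := ⟨k - i - 1, by omega⟩
        obtain ⟨j', hj'⟩ : ∃ j, m - i = j + 1 := ⟨m - i - 1, by omega⟩
        simp [ne2, tops, hf1, hf2, hj, hj', ticks_succ])
      (fun f' hf1 hf2 => by simp [ne2, tops, hf1]) le_rfl (by omega) ha ha' hb hu
    have B := runT_moveAll (Ω := Ω) (i := a') (j := a)
      (f := update (update (update (update f b (ticks (m - k))) u
      (ticks (0 + k))) a (ticks (k - k))) a' (ticks (n - k + k)))
      (by simpa using Ne.symm h1) (k := n - k + k) (m := k - k) (by simp) (by simp [h1])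
    have C := run_subLoop (Ω := Ω) h' (f := update (update (update (update (update (update f b
      (ticks (m - k))) u (ticks (0 + k))) a (ticks (k - k))) a' (ticks (n - k + k))) a' (ticks 0))
      a (ticks (n - k + k + (k - k)))) n 0 (m - k) (0 + k) (m - k) (ne b)
      (fun i hi f' hf1 hf2 => by
        obtain ⟨j', hj'⟩ : ∃ j, m - k - i = j + 1 := ⟨m - k - i - 1, by omega⟩
        simp [ne, tops, hf2, hj', ticks_succ])
      (fun f' hf1 hf2 => by simp [ne, tops, hf2]) (by omega) (by omega)
      (by simp; congr 1; omega) (by simp [Ne.symm h1]) (by simp [Ne.symm h2, Ne.symm h4, h6])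
      (by simp [Ne.symm h3, Ne.symm h5])
    refine (A.seq ((Run.ite_true ?_ (B.seq C)).seq (runT_moveAll (i := u) (j := b)
      (by simpa using Ne.symm h6) (k := 0 + k + (m - k)) (m := 0) ?_ ?_))).congr ?_ ?_
    · obtain ⟨j', hj'⟩ : ∃ j, m - k = j + 1 := ⟨m - k - 1, by omega⟩
      simp [ne, tops, Ne.symm h2, Ne.symm h4, h6, hj', ticks_succ]
    · simp [Ne.symm h3, Ne.symm h5]
    · simp [Ne.symm h2, Ne.symm h4, h6]
    · funext x
      by_cases x1 : x = a'
      · subst x1; simp [h4, h5, sm, hkm]; congr 1; omega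
      by_cases x2 : x = a
      · subst x2; simp [h1, h2, h3, sm, hkm]; congr 1; omega
      by_cases x3 : x = u
      · subst x3; simp [x1, x2, hu, Ne.symm h6]
      by_cases x4 : x = b
      · subst x4; simp [x1, x2, hb]; congr 1; omega
      simp [x1, x2, x3, x4]
    · omega

end gen

end Vale.Agent.P338
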