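import Mathlib

/-!
# Multitape Turing machines, integer multiplication and matrix transposition

The model of problem P338: deterministic multitape Turing machines, each tape being a sequence of
cells numbered `0, 1, 2, …` (cell `0` is the leftmost one), the cost being the number of steps.
-/

namespace Vale.Agent.P338

/-- The possible head moves. -/
inductive Move
  | left | stay | right

/-- A head in cell `n` after a move (a head in the leftmost cell cannot move further left). -/
def Move.apply : Move → ℕ → ℕ
  | .left, n => n - 1
  | .stay, n => n
  | .right, n => n + 1

/-- A deterministic multitape Turing machine: finitely many one-dimensional tapes, a finite tape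
alphabet containing a blank, the two bits and a separator, finitely many states, and a transition
table `step`.  If `step` gives `none`, the machine halts. -/
structure Machine where
  /-- names of the tapes -/
  Tape : Type
  /-- tape alphabet -/
  Sym : Type
  /-- states -/
  State : Type
  tapeFintype : Fintype Tape
  symFintype : Fintype Sym
  stateFintype : Fintype State
  /-- the input tape (first tape) -/
  inp : Tape
  /-- the designated output tape -/
  out : Tape
  blank : Sym
  bit : Bool → Sym
  sep : Sym
  bit_injective : Function.Injective bit
  bit_ne_blank : ∀ b, bit b ≠ blank
  bit_ne_sep : ∀ b, bit b ≠ sep
  sep_ne_blank : sep ≠ blank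
  /-- the initial state -/
  start : State
  /-- from the state and the scanned symbols: the new state and, for every tape, the symbol written
  and the head move; `none` means that the machine halts -/
  step : State → (Tape → Sym) → Option (State × (Tape → Sym × Move))

namespace Machine

/-- A configuration: the state, the head positions and the contents of the cells. -/
@[ext] structure Config (M : Machine) where
  state : M.State
  head : M.Tape → ℕ
  cell : M.Tape → ℕ → M.Sym

variable (M : Machine)

/-- One step of computation; `none` if the machine halts. -/
def next (c : M.Config) : Option M.Config :=
  (M.step c.state (fun i => c.cell i (c.head i))).map fun r =>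
    { state := r.1
      head := fun i => (r.2 i).2.apply (c.head i)
      cell := fun i => Function.update (c.cell i) (c.head i) (r.2 i).1 }

/-- `t` steps of computation; `none` if the machine halts before. -/
def run : ℕ → M.Config → Option M.Config
  | 0, c => some c
  | t + 1, c => (M.next c).bind (run t)

open Classical in
/-- The initial configuration: the word `w` on the input tape, all heads on the leftmost cell,
all other tapes blank. -/
noncomputable def init (w : List M.Sym) : M.Config where
  state := M.start
  head := fun _ => 0
  cell := fun i n => if i = M.inp then w.getD n M.blank else M.blank

/-- On the input word `w` the machine halts after exactly `t` steps, in configuration `c`. -/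
def HaltsIn (w : List M.Sym) (t : ℕ) (c : M.Config) : Prop :=
  M.run t (M.init w) = some c ∧ M.next c = none

/-- In configuration `c` the output tape holds exactly the binary word `u`. -/
def Writes (c : M.Config) (u : List Bool) : Prop :=
  ∀ n, c.cell M.out n = (u.map M.bit).getD n M.blank

end Machine

/-- The value of a binary word, leftmost bit most significant. -/
def val (x : List Bool) : ℕ := x.foldl (fun a b => 2 * a + b.toNat) 0

/-- The binary representation of `z < 2 ^ k`, padded on the left to length `k`. -/
def bin (k z : ℕ) : List Bool := (List.range k).map fun i => z.testBit (k - 1 - i)

namespace Machine

variable (M : Machine)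

/-- The input word `x#y`. -/
def mulInput (x y : List Bool) : List M.Sym := x.map M.bit ++ M.sep :: y.map M.bit

/-- The machine multiplies: for all `n ≥ 1` and all binary words `x, y` of length `n`, on input
`x#y` it halts with the product, as a binary word of length `2 * n`, on its output tape. -/
def Multiplies : Prop :=
  ∀ n : ℕ, 1 ≤ n → ∀ x y : List Bool, x.length = n → y.length = n →
    ∃ t c, M.HaltsIn (M.mulInput x y) t c ∧ M.Writes c (bin (2 * n) (val x * val y))

/-- `T_M(n)` of problem P338: the worst-case number of steps on inputs `x#y` with `x, y` binary
words of length `n`. -/
noncomputable def mulTime (n : ℕ) : ℕ :=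
  sSup {t | ∃ x y : List Bool, x.length = n ∧ y.length = n ∧ ∃ c, M.HaltsIn (M.mulInput x y) t c}

end Machine

/-- The word of length `n ^ 2` that lists the rows of the `n × n` binary matrix `a`. -/
def rowMajor (n : ℕ) (a : ℕ → ℕ → Bool) : List Bool :=
  (List.range (n * n)).map fun p => a (p / n) (p % n)

namespace Machine

variable (M : Machine)

/-- The machine transposes binary matrices: for all `n ≥ 1` and all `n × n` binary matrices, given
row by row on the input tape, it halts with the transposed matrix, row by row, on the output tape. -/
def Transposes : Prop :=
  ∀ n : ℕ, 1 ≤ n → ∀ a : ℕ → ℕ → Bool,
    ∃ t c, M.HaltsIn ((rowMajor n a).map M.bit) t c ∧ M.Writes c (rowMajor n fun i j => a j i)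

/-- The worst-case number of steps on `n × n` binary matrices. -/
noncomputable def transTime (n : ℕ) : ℕ :=
  sSup {t | ∃ a : ℕ → ℕ → Bool, ∃ c, M.HaltsIn ((rowMajor n a).map M.bit) t c}

end Machine

end Vale.Agent.P338
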