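import Vale.Agent.Lib.P338.Defs

/-! Module FINAL of P338: from the reduction to the lower bound for multiplication. -/

namespace Vale.Agent.P338

namespace Final

/-- the exponents with a fixed 2-adic valuation -/
def hh (κ j : ℕ) : ℕ := 2 ^ κ * (2 * j + 1)

theorem padic_hh (κ j : ℕ) : padicValNat 2 (2 * hh κ j) = κ + 1 := by
  have h1 : 2 * hh κ j = 2 ^ (κ + 1) * (2 * j + 1) := by
    rw [hh, pow_succ]; ring
  rw [h1, padicValNat.mul (by positivity) (by omega), padicValNat.prime_pow,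
    padicValNat.eq_zero_of_not_dvd (by omega)]

theorem hh_div (κ j : ℕ) : 2 * hh κ j / 2 ^ (κ + 1) = 2 * j + 1 := by
  have h1 : 2 * hh κ j = 2 ^ (κ + 1) * (2 * j + 1) := by
    rw [hh, pow_succ]; ring
  rw [h1, Nat.mul_div_cancel_left _ (by positivity)]

theorem hh_succ (κ j : ℕ) : hh κ (j + 1) = hh κ j + 2 ^ (κ + 1) := by
  rw [hh, hh, pow_succ]; ring

theorem le_hh (κ j : ℕ) : j + 1 ≤ hh κ j := by
  rw [hh]
  calc j + 1 ≤ 1 * (2 * j + 1) := by omega
    _ ≤ 2 ^ κ * (2 * j + 1) := Nat.mul_le_mul_right _ (Nat.one_le_pow _ _ (by norm_num))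

theorem hh_mono (κ : ℕ) {i j : ℕ} (h : i ≤ j) : hh κ i ≤ hh κ j :=
  Nat.mul_le_mul_left _ (by omega)

end Final

open Final in
/-- Module FINAL. -/
theorem final
    (red : ∀ A : Machine, A.Multiplies →
      ∃ (B : Machine) (F : ℕ → ℕ) (C : ℕ), B.Transposes ∧ ∀ h T : ℕ, 1 ≤ h →
        (∀ ν, 32 * 16 ^ h ≤ ν → ν ≤ 48 * 16 ^ h → A.mulTime ν ≤ T) →
        B.transTime (4 ^ h) ≤ F (padicValNat 2 (2 * h)) * (T + 16 ^ h) +
          C * 16 ^ h * (2 * h / 2 ^ padicValNat 2 (2 * h)))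
    (hyp : ∀ B : Machine, B.Transposes → ∃ c : ℝ, 0 < c ∧ ∃ N : ℕ, ∀ n ≥ N,
      c * (n : ℝ) ^ 2 * Real.log n ≤ B.transTime n)
    (A : Machine) (hA : A.Multiplies) :
    ∃ c : ℝ, 0 < c ∧ ∃ C N : ℕ, ∀ n ≥ N, ∃ ν, ν ≤ n ∧ n ≤ C * ν ∧
      c * (n : ℝ) * Real.log n ≤ A.mulTime ν := by
  obtain ⟨B, F, Cr, hB, hred⟩ := red A hA
  obtain ⟨c₀, hc₀, N₀, hN₀⟩ := hyp B hB
  have hL : 0 < Real.log 4 := Real.log_pos (by norm_num)
  obtain ⟨κ, hκ⟩ := pow_unbounded_of_one_lt (4 * (Cr : ℝ) / (c₀ * Real.log 4))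
    (by norm_num : (1 : ℝ) < 2)
  obtain ⟨F₀, hF₀1, hF₀⟩ : ∃ F₀ : ℝ, 1 ≤ F₀ ∧ (F (κ + 1) : ℝ) ≤ F₀ :=
    ⟨max 1 (F (κ + 1)), le_max_left _ _, le_max_right _ _⟩
  obtain ⟨J, hJ⟩ := exists_nat_ge (4 * F₀ / (c₀ * Real.log 4))
  -- the lower bound at special lengths
  have key : ∀ i, J ≤ i → N₀ ≤ i → ∃ ν, 32 * 16 ^ hh κ i ≤ ν ∧ ν ≤ 48 * 16 ^ hh κ i ∧
      c₀ * Real.log 4 / (4 * F₀) * (16 : ℝ) ^ hh κ i * (hh κ i : ℝ) ≤ A.mulTime ν := by
    intro i hi1 hi2
    have hne : (Finset.Icc (32 * 16 ^ hh κ i) (48 * 16 ^ hh κ i)).Nonempty :=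
      Finset.nonempty_Icc.2 (Nat.mul_le_mul_right _ (by norm_num))
    obtain ⟨ν, hν, hT⟩ := Finset.exists_mem_eq_sup' hne A.mulTime
    rw [Finset.mem_Icc] at hν
    refine ⟨ν, hν.1, hν.2, ?_⟩
    have h1 := hred (hh κ i) (A.mulTime ν) (by have := le_hh κ i; omega) (fun μ h1 h2 => by
      rw [← hT]
      exact Finset.le_sup' A.mulTime (Finset.mem_Icc.2 ⟨h1, h2⟩))
    rw [padic_hh, hh_div] at h1
    have h2 := hN₀ (4 ^ hh κ i) (by
      have h3 : hh κ i < 4 ^ hh κ i := Nat.lt_pow_self (by norm_num)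
      have := le_hh κ i
      omega)
    have h3 : ((B.transTime (4 ^ hh κ i) : ℕ) : ℝ) ≤ F (κ + 1) * (A.mulTime ν + 16 ^ hh κ i) +
        Cr * 16 ^ hh κ i * (2 * i + 1) := by
      exact_mod_cast h1
    have h4 : c₀ * ((4 ^ hh κ i : ℕ) : ℝ) ^ 2 * Real.log ((4 ^ hh κ i : ℕ) : ℝ) =
        c₀ * (16 : ℝ) ^ hh κ i * hh κ i * Real.log 4 := by
      push_cast
      rw [Real.log_pow, ← pow_mul, mul_comm (hh κ i) 2, pow_mul]
      norm_num
      ring
    rw [h4] at h2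
    set X : ℝ := (16 : ℝ) ^ hh κ i with hX
    have hX0 : 0 < X := by positivity
    have hh1 : (hh κ i : ℝ) = 2 ^ κ * (2 * i + 1) := by
      rw [hh]; push_cast; ring
    set H : ℝ := (hh κ i : ℝ) with hH
    have hH0 : 4 * F₀ / (c₀ * Real.log 4) ≤ H := by
      have : (J : ℝ) ≤ i := by exact_mod_cast hi1
      have h5 : ((i : ℕ) : ℝ) ≤ H := by
        have := le_hh κ i
        rw [hH]
        exact_mod_cast (by omega : i ≤ hh κ i)
      linarith
    have hH1 : 4 * F₀ ≤ c₀ * Real.log 4 * H := by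
      rw [div_le_iff₀ (by positivity)] at hH0
      linarith
    have hκ' : 4 * (Cr : ℝ) ≤ 2 ^ κ * (c₀ * Real.log 4) := by
      rw [div_lt_iff₀ (by positivity)] at hκ
      exact hκ.le
    -- the second term is at most half
    have h6 : (Cr : ℝ) * X * (2 * i + 1) ≤ c₀ * Real.log 4 * X * H / 4 := by
      rw [hh1]
      have : (0 : ℝ) ≤ X * (2 * i + 1) := by positivity
      nlinarith
    have h7 : (F (κ + 1) : ℝ) * (A.mulTime ν + X) ≤ F₀ * (A.mulTime ν + X) := by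
      apply mul_le_mul_of_nonneg_right hF₀
      positivity
    have h8 : c₀ * Real.log 4 * X * H * (3 / 4) ≤ F₀ * (A.mulTime ν + X) := by
      nlinarith
    have h9 : F₀ * X ≤ c₀ * Real.log 4 * X * H / 4 := by nlinarith
    have h10 : c₀ * Real.log 4 * X * H / 4 ≤ F₀ * A.mulTime ν := by nlinarith
    rw [show c₀ * Real.log 4 / (4 * F₀) * X * H = (c₀ * Real.log 4 * X * H / 4) / F₀ by
      field_simp, div_le_iff₀ (by positivity)]
    linarith
  -- the constants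
  set D : ℕ := 2 ^ (κ + 1) with hD
  set c₂ : ℝ := Real.log (48 * 16 ^ D) + Real.log 16 with hc₂
  have hlog16 : 0 < Real.log 16 := Real.log_pos (by norm_num)
  have hc₂0 : 0 < c₂ := by
    have : 0 ≤ Real.log (48 * 16 ^ D) := Real.log_nonneg (by
      have : (1 : ℝ) ≤ 16 ^ D := one_le_pow₀ (by norm_num)
      linarith)
    linarith
  have hc' : 0 < c₀ * Real.log 4 / (4 * F₀) := by positivity
  refine ⟨c₀ * Real.log 4 / (4 * F₀) / (48 * 16 ^ D * c₂), by positivity, 2 * 16 ^ D,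
    48 * 16 ^ hh κ (J + N₀), fun n hn => ?_⟩
  -- the greatest special length below `n`
  have hex : ∃ j, n < 48 * 16 ^ hh κ j := ⟨n, by
    have h1 := le_hh κ n
    have h2 : hh κ n < 16 ^ hh κ n := Nat.lt_pow_self (by norm_num)
    omega⟩
  classical
  have hfind := Nat.find_spec hex
  have hmin := fun {m : ℕ} (h : m < Nat.find hex) => Nat.find_min hex h
  have hJ' : J + N₀ < Nat.find hex := by
    by_contra hcon
    have h1 : hh κ (Nat.find hex) ≤ hh κ (J + N₀) := hh_mono κ (not_lt.1 hcon)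
    have h2 : 16 ^ hh κ (Nat.find hex) ≤ 16 ^ hh κ (J + N₀) := Nat.pow_le_pow_right (by norm_num) h1
    have : 48 * 16 ^ hh κ (Nat.find hex) ≤ n := le_trans (Nat.mul_le_mul_left _ h2) hn
    omega
  obtain ⟨i, hi⟩ : ∃ i, Nat.find hex = i + 1 := ⟨Nat.find hex - 1, by omega⟩
  rw [hi] at hfind hJ'
  have hlow : 48 * 16 ^ hh κ i ≤ n := not_lt.1 (hmin (by omega))
  obtain ⟨ν, h1, h2, h3⟩ := key i (by omega) (by omega)
  rw [hh_succ, pow_add, ← hD] at hfind
  have hup : n ≤ 48 * (16 ^ hh κ i * 16 ^ D) := hfind.le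
  refine ⟨ν, h2.trans hlow, ?_, le_trans ?_ h3⟩
  · calc n ≤ 48 * (16 ^ hh κ i * 16 ^ D) := hup
      _ ≤ 2 * 16 ^ D * (32 * 16 ^ hh κ i) := by
          have : 0 ≤ 16 ^ D * 16 ^ hh κ i := Nat.zero_le _
          nlinarith
      _ ≤ 2 * 16 ^ D * ν := Nat.mul_le_mul_left _ h1
  · set H : ℝ := (hh κ i : ℝ) with hH
    have hH1 : 1 ≤ H := by
      have := le_hh κ i
      rw [hH]
      exact_mod_cast (by omega : 1 ≤ hh κ i)
    set X : ℝ := (16 : ℝ) ^ hh κ i with hX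
    have hX0 : 0 < X := by positivity
    have hup' : (n : ℝ) ≤ 48 * 16 ^ D * X := by
      have : (n : ℝ) ≤ 48 * (16 ^ hh κ i * 16 ^ D) := by exact_mod_cast hup
      linarith
    have hn0 : (0 : ℝ) < n := by
      have : 0 < n := lt_of_lt_of_le (by positivity) hlow
      exact_mod_cast this
    have hlog : Real.log n ≤ c₂ * H := by
      calc Real.log n ≤ Real.log (48 * 16 ^ D * X) := Real.log_le_log hn0 hup'
        _ = Real.log (48 * 16 ^ D) + H * Real.log 16 := by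
            rw [Real.log_mul (by positivity) hX0.ne', hX, Real.log_pow]
        _ ≤ c₂ * H := by
            have : 0 ≤ Real.log (48 * 16 ^ D) := Real.log_nonneg (by
              have : (1 : ℝ) ≤ 16 ^ D := one_le_pow₀ (by norm_num)
              linarith)
            rw [hc₂]
            nlinarith
    have hlog0 : 0 ≤ Real.log n := Real.log_natCast_nonneg n
    have : (n : ℝ) * Real.log n ≤ (48 * 16 ^ D * X) * (c₂ * H) :=
      mul_le_mul hup' hlog hlog0 (by positivity)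
    calc c₀ * Real.log 4 / (4 * F₀) / (48 * 16 ^ D * c₂) * n * Real.log n
        = c₀ * Real.log 4 / (4 * F₀) / (48 * 16 ^ D * c₂) * (n * Real.log n) := by ring
      _ ≤ c₀ * Real.log 4 / (4 * F₀) / (48 * 16 ^ D * c₂) * ((48 * 16 ^ D * X) * (c₂ * H)) :=
          mul_le_mul_of_nonneg_left this (by positivity)
      _ = c₀ * Real.log 4 / (4 * F₀) * X * H := by
          field_simp

end Vale.Agent.P338
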