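import Vale.Agent.Lib.P338.WLib

/-! Module INDEX of P338: the index arithmetic of the digit permutations. -/

namespace Vale.Agent.P338

/-- New position `((u * r + j) * p + i) * s + t` comes from the old position
`((u * p + i) * r + j) * s + t` (`i < p`, `j < r`, `t < s`). -/
def swIx (p r s x : ℕ) : ℕ :=
  ((x / s / (p * r) * p + x / s % p) * r + x / s / p % r) * s + x % s

/-- Swap the digit of size `p` with the digit of size `r` below it, above a payload of size `s`. -/
def sw (p r s : ℕ) (f : ℕ → Bool) : ℕ → Bool := fun x => f (swIx p r s x)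

namespace Index

theorem div_aux {a s t : ℕ} (ht : t < s) : (a * s + t) / s = a := by
  rw [mul_comm, Nat.mul_add_div (by omega), Nat.div_eq_of_lt ht, add_zero]

theorem mod_aux {a s t : ℕ} (ht : t < s) : (a * s + t) % s = t := by
  rw [mul_comm, Nat.mul_add_mod, Nat.mod_eq_of_lt ht]

theorem split {s : ℕ} (hs : 0 < s) (x : ℕ) : ∃ a t, t < s ∧ x = a * s + t :=
  ⟨x / s, x % s, Nat.mod_lt _ hs, (Nat.div_add_mod' x s).symm⟩

theorem lt_aux {a b i j : ℕ} (hi : i < a) (hj : j < b) : i * b + j < a * b := by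
  calc i * b + j < i * b + b := by omega
    _ = (i + 1) * b := by ring
    _ ≤ a * b := Nat.mul_le_mul_right _ hi

end Index

open Index

theorem swIx_eq {p r s u i j t : ℕ} (hi : i < p) (hj : j < r) (ht : t < s) :
    swIx p r s (((u * r + j) * p + i) * s + t) = ((u * p + i) * r + j) * s + t := by
  rw [swIx, div_aux ht, mod_aux ht, mod_aux hi, div_aux hi, mod_aux hj]
  have : ((u * r + j) * p + i) / (p * r) = u := by
    rw [← Nat.div_div_eq_div_mul, div_aux hi, div_aux hj]
  rw [this]

theorem sw_one {p s : ℕ} (hp : 0 < p) (hs : 0 < s) (f : ℕ → Bool) : sw p 1 s f = f := by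
  funext x
  obtain ⟨y, t, ht, rfl⟩ := split hs x
  obtain ⟨u, i, hi, rfl⟩ := split hp y
  have := swIx_eq (u := u) hi (Nat.zero_lt_one) ht
  simp only [mul_one, add_zero] at this
  rw [sw, this]

theorem sw_comp₁ {p p' r s : ℕ} (hp : 0 < p) (hp' : 0 < p') (hr : 0 < r) (hs : 0 < s)
    (f : ℕ → Bool) : sw p r (s * p') (sw p' r s f) = sw (p * p') r s f := by
  funext x
  obtain ⟨x, t, ht, rfl⟩ := split hs x
  obtain ⟨x, i', hi', rfl⟩ := split hp' x
  obtain ⟨x, i, hi, rfl⟩ := split hp x
  obtain ⟨u, j, hj, rfl⟩ := split hr x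
  simp only [sw]
  have h1 : (((u * r + j) * p + i) * p' + i') * s + t =
      ((u * r + j) * p + i) * (s * p') + (i' * s + t) := by ring
  have h2 := swIx_eq (u := u) hi hj (mul_comm p' s ▸ lt_aux hi' ht)
  have h3 : ((u * p + i) * r + j) * (s * p') + (i' * s + t) =
      ((((u * p + i) * r + j) * p' + i')) * s + t := by ring
  have h4 := swIx_eq (u := u * p + i) hi' hj ht
  have h5 : (((u * r + j) * p + i) * p' + i') * s + t =
      ((u * r + j) * (p * p') + (i * p' + i')) * s + t := by ring
  have h6 := swIx_eq (u := u) (lt_aux hi hi') hj ht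
  rw [h1, h2, h3, h4, ← h1, h5, h6]
  congr 1
  ring

theorem sw_comp₂ {p r r' s : ℕ} (hp : 0 < p) (hr : 0 < r) (hr' : 0 < r') (hs : 0 < s)
    (f : ℕ → Bool) : sw p r s (sw p r' (s * r) f) = sw p (r' * r) s f := by
  funext x
  obtain ⟨x, t, ht, rfl⟩ := split hs x
  obtain ⟨x, i, hi, rfl⟩ := split hp x
  obtain ⟨x, j, hj, rfl⟩ := split hr x
  obtain ⟨u, j', hj', rfl⟩ := split hr' x
  simp only [sw]
  have h2 := swIx_eq (u := u * r' + j') hi hj ht
  have h3 : (((u * r' + j') * p + i) * r + j) * s + t =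
      ((u * r' + j') * p + i) * (s * r) + (j * s + t) := by ring
  have h4 := swIx_eq (u := u) hi hj' (mul_comm r s ▸ lt_aux hj ht)
  have h5 : (((u * r' + j') * r + j) * p + i) * s + t =
      ((u * (r' * r) + (j' * r + j)) * p + i) * s + t := by ring
  have h6 := swIx_eq (u := u) hi (lt_aux hj' hj) ht
  rw [h2, h3, h4, h5, h6]
  congr 1
  ring

theorem sw_comp₃ {p r : ℕ} (hp : 0 < p) (hr : 0 < r) (f : ℕ → Bool) :
    sw (p * r) 2 1 (sw (2 * p) r 1 f) = sw p (2 * r) 1 f := by
  funext x
  obtain ⟨x, i, hi, rfl⟩ := split hp x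
  obtain ⟨x, j, hj, rfl⟩ := split hr x
  obtain ⟨u, b, hb, rfl⟩ := split (by norm_num : 0 < 2) x
  simp only [sw]
  have h1 : ((u * 2 + b) * r + j) * p + i = ((u * 2 + b) * (p * r) + (j * p + i)) * 1 + 0 := by
    ring
  have h2 := swIx_eq (u := u) (mul_comm r p ▸ lt_aux hj hi : j * p + i < p * r) hb
    (Nat.zero_lt_one)
  have h3 : ((u * (p * r) + (j * p + i)) * 2 + b) * 1 + 0 =
      ((u * r + j) * (2 * p) + (i * 2 + b)) * 1 + 0 := by ring
  have h4 := swIx_eq (u := u) (mul_comm p 2 ▸ lt_aux hi hb : i * 2 + b < 2 * p) hj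
    (Nat.zero_lt_one)
  have h5 : ((u * 2 + b) * r + j) * p + i = ((u * (2 * r) + (b * r + j)) * p + i) * 1 + 0 := by
    ring
  have h6 := swIx_eq (u := u) hi (lt_aux hb hj) (Nat.zero_lt_one)
  rw [h1, h2, h3, h4, ← h1, h5, h6]
  congr 1
  ring

/-- words as concatenations of blocks -/
theorem map_range_eq_seg (s M : ℕ) (f : ℕ → Bool) :
    (List.range (M * s)).map f = seg (fun k => (List.range s).map fun t => f (k * s + t)) 0 M := by
  induction M with
  | zero => simp
  | succ M ih =>
    rw [seg_succ', ← ih, add_mul, one_mul, List.range_add, List.map_append, List.map_map,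
      zero_add]
    rfl

/-- the swap of neighbouring `s`-bit entries, in terms of `seg`: `q * q` entries in a group. -/
theorem seg_sw (q s M : ℕ) (hq : 0 < q) (hs : 0 < s) (f : ℕ → Bool) :
    seg (fun k => (List.range s).map fun t =>
      f (((k / (q * q) * q + k % q) * q + k / q % q) * s + t)) 0 (M * (q * q)) =
    (List.range (M * (q * q) * s)).map (sw q q s f) := by
  rw [map_range_eq_seg]
  apply seg_congr
  intro k _ _
  apply List.map_congr_left
  intro t ht
  rw [List.mem_range] at ht
  simp only [sw, swIx, div_aux ht, mod_aux ht]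

/-- evens first, odds second, in every block of `2 * b` bits -/
theorem seg_unshuffle (b M : ℕ) (hb : 0 < b) (f : ℕ → Bool) :
    seg (fun k => (List.range b).map (fun i => f (k * (2 * b) + 2 * i)) ++
      (List.range b).map (fun i => f (k * (2 * b) + (2 * i + 1)))) 0 M =
    (List.range (M * (2 * b))).map (sw b 2 1 f) := by
  rw [map_range_eq_seg]
  apply seg_congr
  intro k _ _
  rw [two_mul b, List.range_add, List.map_append, List.map_map]
  congr 1
  · apply List.map_congr_left
    intro i hi
    rw [List.mem_range] at hi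
    have h := swIx_eq (u := k) hi (by norm_num : 0 < 2) Nat.zero_lt_one
    have h1 : k * (b + b) + i = ((k * 2 + 0) * b + i) * 1 + 0 := by ring
    rw [sw, h1, h]
    congr 1
    ring
  · apply List.map_congr_left
    intro i hi
    rw [List.mem_range] at hi
    have h := swIx_eq (u := k) hi (by norm_num : 1 < 2) Nat.zero_lt_one
    have h1 : k * (b + b) + (b + i) = ((k * 2 + 1) * b + i) * 1 + 0 := by ring
    simp only [Function.comp]
    rw [sw, h1, h]
    congr 1
    ring

theorem rowMajor_transpose (m : ℕ) (a : ℕ → ℕ → Bool) (hm : 0 < m) :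
    (List.range (m * m)).map (sw m m 1 fun p => a (p / m) (p % m)) =
      rowMajor m (fun i j => a j i) := by
  rw [rowMajor]
  apply List.map_congr_left
  intro x hx
  rw [List.mem_range] at hx
  obtain ⟨j, i, hi, rfl⟩ := split hm x
  have hj : j < m := by
    by_contra hcon
    have : m * m ≤ j * m := Nat.mul_le_mul_right _ (not_lt.1 hcon)
    omega
  have h := swIx_eq (u := 0) hi hj Nat.zero_lt_one
  simp only [zero_mul, zero_add, mul_one, add_zero] at h
  rw [sw, h, div_aux hi, mod_aux hi, div_aux hj, mod_aux hj]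

end Vale.Agent.P338
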