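import Vale.Agent.Lib.P338.Stack

/-! Basic stack-program macros. -/

namespace Vale.Agent.P338

open Function

section basic
variable {ι Γ : Type} {Ω : (ι → List Γ) → (ι → List Γ) → ℕ → Prop}

theorem Run.mono {c : Cmd ι Γ} {s s' : ι → List Γ} {n m : ℕ} (h : Run Ω c s s' n) (hm : n ≤ m) :
    Run Ω c s s' m := by
  obtain ⟨k, hk, he⟩ := h
  exact ⟨k, hk.trans hm, he⟩

theorem Run.congr {c : Cmd ι Γ} {s s' s'' : ι → List Γ} {n m : ℕ} (h : Run Ω c s s' n)
    (hs : s' = s'') (hm : n ≤ m) : Run Ω c s s'' m := hs ▸ h.mono hm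

theorem Run.skip (s : ι → List Γ) : Run Ω .skip s s 0 := ⟨0, le_rfl, .skip s⟩

theorem Run.act (f : (ι → Option Γ) → ι → Op Γ) (s : ι → List Γ) :
    Run Ω (.act f) s (fun i => (f (tops s) i).app (s i)) 1 := ⟨1, le_rfl, .act f s⟩

theorem Run.seq {a b : Cmd ι Γ} {s s₁ s₂ : ι → List Γ} {n m : ℕ} (ha : Run Ω a s s₁ n)
    (hb : Run Ω b s₁ s₂ m) : Run Ω (.seq a b) s s₂ (n + m) := by
  obtain ⟨k, hk, he⟩ := ha
  obtain ⟨l, hl, hf⟩ := hb
  exact ⟨k + l, by omega, .seq _ _ _ _ _ _ _ he hf⟩

theorem Run.ite_true {t : (ι → Option Γ) → Bool} {a b : Cmd ι Γ} {s s' : ι → List Γ} {n : ℕ}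
    (ht : t (tops s) = true) (h : Run Ω a s s' n) : Run Ω (.ite t a b) s s' (n + 1) := by
  obtain ⟨k, hk, he⟩ := h
  exact ⟨k + 1, by omega, .ite_true _ _ _ _ _ _ ht he⟩

theorem Run.ite_false {t : (ι → Option Γ) → Bool} {a b : Cmd ι Γ} {s s' : ι → List Γ} {n : ℕ}
    (ht : t (tops s) = false) (h : Run Ω b s s' n) : Run Ω (.ite t a b) s s' (n + 1) := by
  obtain ⟨k, hk, he⟩ := h
  exact ⟨k + 1, by omega, .ite_false _ _ _ _ _ _ ht he⟩

theorem Run.loop_done {t : (ι → Option Γ) → Bool} {a : Cmd ι Γ} {s : ι → List Γ}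
    (ht : t (tops s) = false) : Run Ω (.loop t a) s s 1 := ⟨1, le_rfl, .loop_done _ _ _ ht⟩

theorem Run.loop_step {t : (ι → Option Γ) → Bool} {a : Cmd ι Γ} {s s₁ s₂ : ι → List Γ} {n m : ℕ}
    (ht : t (tops s) = true) (h : Run Ω a s s₁ n) (h' : Run Ω (.loop t a) s₁ s₂ m) :
    Run Ω (.loop t a) s s₂ (n + m + 1) := by
  obtain ⟨k, hk, he⟩ := h
  obtain ⟨l, hl, hf⟩ := h'
  exact ⟨k + l + 1, by omega, .loop_step _ _ _ _ _ _ _ ht he hf⟩

/-- A loop that runs through the states `Φ 0, …, Φ n`. -/
theorem Run.loop_iter {t : (ι → Option Γ) → Bool} {a : Cmd ι Γ} (Φ : ℕ → ι → List Γ) (n c : ℕ)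
    (ht : ∀ k < n, t (tops (Φ k)) = true) (hn : t (tops (Φ n)) = false)
    (h : ∀ k < n, Run Ω a (Φ k) (Φ (k + 1)) c) :
    Run Ω (.loop t a) (Φ 0) (Φ n) (n * (c + 1) + 1) := by
  induction n generalizing Φ with
  | zero => simpa using Run.loop_done hn
  | succ n ih =>
    have h0 := h 0 (by omega)
    have h1 := ih (fun k => Φ (k + 1)) (fun k hk => ht (k + 1) (by omega)) hn
      (fun k hk => h (k + 1) (by omega))
    refine (Run.loop_step (ht 0 (by omega)) h0 h1).mono ?_
    ring_nf; omega

/-- A loop with variable costs. -/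
theorem Run.loop_iter' {t : (ι → Option Γ) → Bool} {a : Cmd ι Γ} (Φ : ℕ → ι → List Γ) (n : ℕ)
    (c : ℕ → ℕ)
    (ht : ∀ k < n, t (tops (Φ k)) = true) (hn : t (tops (Φ n)) = false)
    (h : ∀ k < n, Run Ω a (Φ k) (Φ (k + 1)) (c k)) :
    Run Ω (.loop t a) (Φ 0) (Φ n) ((∑ k ∈ Finset.range n, (c k + 1)) + 1) := by
  induction n generalizing Φ c with
  | zero => simpa using Run.loop_done hn
  | succ n ih =>
    have h0 := h 0 (by omega)
    have h1 := ih (fun k => Φ (k + 1)) (fun k => c (k + 1)) (fun k hk => ht (k + 1) (by omega)) hn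
      (fun k hk => h (k + 1) (by omega))
    refine (Run.loop_step (ht 0 (by omega)) h0 h1).mono ?_
    rw [Finset.sum_range_succ']
    omega

end basic

section macros
variable {ι Γ : Type} [DecidableEq ι] {Ω : (ι → List Γ) → (ι → List Γ) → ℕ → Prop}

/-- Is the stack `i` non-empty? -/
def ne (i : ι) : (ι → Option Γ) → Bool := fun t => (t i).isSome

omit [DecidableEq ι] in
theorem ne_true {i : ι} {s : ι → List Γ} {a : Γ} {l : List Γ} (h : s i = a :: l) :
    ne i (tops s) = true := by simp [ne, tops, h]

omit [DecidableEq ι] in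
theorem ne_false {i : ι} {s : ι → List Γ} (h : s i = []) : ne i (tops s) = false := by
  simp [ne, tops, h]

/-- Push a symbol. -/
def push (a : Γ) (i : ι) : Cmd ι Γ := .act fun _ x => if x = i then .push a else .nop

theorem run_push (a : Γ) (i : ι) (s : ι → List Γ) :
    Run Ω (push a i) s (update s i (a :: s i)) 1 := by
  refine (Run.act _ s).congr ?_ le_rfl
  funext x
  by_cases hx : x = i
  · subst hx; simp [Op.app]
  · simp [hx, Op.app]

/-- Pop a symbol. -/
def pop (i : ι) : Cmd ι Γ := .act fun _ x => if x = i then .pop else .nop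

theorem run_pop (i : ι) (s : ι → List Γ) :
    Run Ω (pop i) s (update s i (s i).tail) 1 := by
  refine (Run.act _ s).congr ?_ le_rfl
  funext x
  by_cases hx : x = i
  · subst hx; simp [Op.app]
  · simp [hx, Op.app]

/-- Replace the top symbol. -/
def rep (a : Γ) (i : ι) : Cmd ι Γ := .act fun _ x => if x = i then .rep a else .nop

theorem run_rep (a : Γ) (i : ι) (s : ι → List Γ) :
    Run Ω (rep a i) s (update s i (a :: (s i).tail)) 1 := by
  refine (Run.act _ s).congr ?_ le_rfl
  funext x
  by_cases hx : x = i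
  · subst hx; simp [Op.app]
  · simp [hx, Op.app]

/-- Move the top symbol of `i` to `j`. -/
def mv (i j : ι) : Cmd ι Γ := .act fun t x =>
  if x = i then .pop else if x = j then (match t i with | some a => .push a | none => .nop) else .nop

theorem run_mv {i j : ι} (hij : i ≠ j) {s : ι → List Γ} {a : Γ} {l : List Γ} (h : s i = a :: l) :
    Run Ω (mv i j) s (update (update s i l) j (a :: s j)) 1 := by
  refine (Run.act _ s).congr ?_ le_rfl
  funext x
  by_cases hx : x = i
  · subst hx; simp [Op.app, h, hij]
  · by_cases hy : x = j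
    · subst hy; simp [Op.app, hx, tops, h]
    · simp [hx, hy, Op.app]

/-- Move the top symbol of `i` to `j` and that of `k` to `l`. -/
def mv2 (i j k l : ι) : Cmd ι Γ := .act fun t x =>
  if x = i then .pop else if x = k then .pop
  else if x = j then (match t i with | some a => .push a | none => .nop)
  else if x = l then (match t k with | some a => .push a | none => .nop) else .nop

theorem run_mv2 {i j k l : ι} (hij : i ≠ j) (hik : i ≠ k) (hil : i ≠ l) (hjk : j ≠ k) (hjl : j ≠ l)
    (hkl : k ≠ l) {s : ι → List Γ} {a b : Γ} {x y : List Γ} (h : s i = a :: x) (h' : s k = b :: y) :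
    Run Ω (mv2 i j k l) s
      (update (update (update (update s i x) j (a :: s j)) k y) l (b :: s l)) 1 := by
  refine (Run.act _ s).congr ?_ le_rfl
  funext z
  by_cases h1 : z = i
  · subst h1; simp [Op.app, h, hij, hik, hil]
  by_cases h2 : z = k
  · subst h2; simp [Op.app, h1, h', hkl, tops]
  by_cases h3 : z = j
  · subst h3; simp [Op.app, h1, h2, tops, h, hjk, hjl]
  by_cases h4 : z = l
  · subst h4; simp [Op.app, h1, h2, h3, tops, h']
  · simp [h1, h2, h3, h4, Op.app]

/-- Pop everything. -/
def clear (i : ι) : Cmd ι Γ := .loop (ne i) (pop i)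

theorem run_clear (i : ι) (s : ι → List Γ) :
    Run Ω (clear i) s (update s i []) (2 * (s i).length + 1) := by
  have h := Run.loop_iter (Ω := Ω) (t := ne i) (a := pop i)
    (fun k => update s i ((s i).drop k)) (s i).length 1
    (fun k hk => by
      simp [ne, tops]
      exact hk)
    (by simp [ne, tops])
    (fun k hk => by
      refine (run_pop i _).congr ?_ le_rfl
      simp)
  simp only [List.drop_zero, update_eq_self, List.drop_length] at h
  exact h.mono (by omega)

/-- Move everything from `i` to `j` (reversing the order). -/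
def moveAll (i j : ι) : Cmd ι Γ := .loop (ne i) (mv i j)

theorem run_moveAll {i j : ι} (hij : i ≠ j) (s : ι → List Γ) :
    Run Ω (moveAll i j) s (update (update s i []) j ((s i).reverse ++ s j))
      (2 * (s i).length + 1) := by
  have h := Run.loop_iter (Ω := Ω) (t := ne i) (a := mv i j)
    (fun k => update (update s i ((s i).drop k)) j (((s i).take k).reverse ++ s j))
    (s i).length 1
    (fun k hk => by
      simp [ne, tops, hij]
      exact hk)
    (by simp [ne, tops, hij])
    (fun k hk => by
      have h1 : (s i).drop k = (s i)[k] :: (s i).drop (k + 1) := List.drop_eq_getElem_cons hk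
      refine (run_mv hij (a := (s i)[k]) (l := (s i).drop (k + 1)) (by simp [hij])).congr ?_
        le_rfl
      have h2 : ((s i).take (k + 1)).reverse = (s i)[k] :: ((s i).take k).reverse := by
        rw [List.take_add_one, List.reverse_append]; simp [hk]
      funext x
      by_cases hx : x = i
      · subst hx; simp [hij]
      · by_cases hy : x = j
        · subst hy; simp [h2]
        · simp [hx, hy])
  simp only [List.drop_zero, List.take_zero, List.reverse_nil, List.nil_append, update_eq_self,
    List.drop_length, List.take_length] at h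
  exact h.mono (by omega)

/-- Move the top symbol of `i` to `j` and copy it to `k`. -/
def mvc (i j k : ι) : Cmd ι Γ := .act fun t x =>
  if x = i then .pop else if x = j ∨ x = k then
    (match t i with | some a => .push a | none => .nop) else .nop

theorem run_mvc {i j k : ι} (hij : i ≠ j) (hik : i ≠ k) (hjk : j ≠ k) {s : ι → List Γ} {a : Γ}
    {l : List Γ} (h : s i = a :: l) :
    Run Ω (mvc i j k) s (update (update (update s i l) j (a :: s j)) k (a :: s k)) 1 := by
  refine (Run.act _ s).congr ?_ le_rfl
  funext x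
  by_cases hx : x = i
  · subst hx; simp [Op.app, h, hij, hik]
  · by_cases hy : x = j
    · subst hy; simp [Op.app, hx, tops, h, hjk]
    · by_cases hz : x = k
      · subst hz; simp [Op.app, hx, tops, h]
      · simp [hx, hy, hz, Op.app]

/-- Move everything from `i` to `j` and `k`. -/
def moveAll2 (i j k : ι) : Cmd ι Γ := .loop (ne i) (mvc i j k)

theorem run_moveAll2 {i j k : ι} (hij : i ≠ j) (hik : i ≠ k) (hjk : j ≠ k) (s : ι → List Γ) :
    Run Ω (moveAll2 i j k) s (update (update (update s i []) j ((s i).reverse ++ s j)) k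
      ((s i).reverse ++ s k)) (2 * (s i).length + 1) := by
  have h := Run.loop_iter (Ω := Ω) (t := ne i) (a := mvc i j k)
    (fun m => update (update (update s i ((s i).drop m)) j (((s i).take m).reverse ++ s j))
      k (((s i).take m).reverse ++ s k))
    (s i).length 1
    (fun m hm => by
      simp [ne, tops, hij, hik]
      exact hm)
    (by simp [ne, tops, hij, hik])
    (fun m hm => by
      have h1 : (s i).drop m = (s i)[m] :: (s i).drop (m + 1) := List.drop_eq_getElem_cons hm
      refine (run_mvc hij hik hjk (a := (s i)[m]) (l := (s i).drop (m + 1))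
        (by simp [hij, hik])).congr ?_ le_rfl
      have h2 : ((s i).take (m + 1)).reverse = (s i)[m] :: ((s i).take m).reverse := by
        rw [List.take_add_one, List.reverse_append]; simp [hm]
      funext x
      by_cases hx : x = i
      · subst hx; simp [hij, hik]
      · by_cases hy : x = j
        · subst hy; simp [h2, hjk]
        · by_cases hz : x = k
          · subst hz; simp [h2]
          · simp [hx, hy, hz])
  simp only [List.drop_zero, List.take_zero, List.reverse_nil, List.nil_append, update_eq_self,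
    List.drop_length, List.take_length] at h
  exact h.mono (by omega)

/-- Copy the stack `i` onto `j`, using the (empty) stack `k`. -/
def copy (i j k : ι) : Cmd ι Γ := .seq (moveAll i k) (moveAll2 k i j)

theorem run_copy {i j k : ι} (hij : i ≠ j) (hik : i ≠ k) (hjk : j ≠ k) {s : ι → List Γ}
    (hk : s k = []) :
    Run Ω (copy i j k) s (update s j (s i ++ s j)) (4 * (s i).length + 2) := by
  refine ((run_moveAll hik s).seq (run_moveAll2 hik.symm hjk.symm hij _)).congr ?_ ?_
  · funext x
    by_cases hx : x = i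
    · subst hx; simp [hij, hik, hk]
    · by_cases hy : x = j
      · subst hy; simp [hjk, hij.symm, hk, hik]
      · by_cases hz : x = k
        · subst hz; simp [hx, hy, hk]
        · simp [hx, hy, hz]
  · simp [hk]; omega

end macros

end Vale.Agent.P338
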