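import Vale.Agent.Lib.P338.Swap2
import Vale.Agent.Lib.P338.Index

/-! The main program. -/

set_option linter.constructorNameAsVariable false

namespace Vale.Agent.P338

open Function

/-- `v ← v * q` -/
def mulV : Cmd W G := Cmd.seq (Cmd.seq (forT .v .u2 (copy .q .x1 .u1)) (clear .v)) (moveAll .x1 .v)

/-- `B ← B * q` -/
def mulB : Cmd W G := Cmd.seq (Cmd.seq (forT .B .u2 (copy .q .x1 .u1)) (clear .B)) (moveAll .x1 .B)

variable {Ω : (W → List G) → (W → List G) → ℕ → Prop}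

theorem run_mulV (s : St) (hu : s.u1 = 0) (hu2 : s.u2 = 0) (hx : s.x1 = 0) :
    Run Ω mulV s.st (St.st {s with v := s.v * s.q}) (6 * (s.v * s.q) + 8 * s.v + 4) := by
  have h := w_for (Ω := Ω) .v .u2 (by decide) (body := copy .q .x1 .u1)
    (fun i => {s with x1 := i * s.q}) s.v (4 * s.q + 2) (fun i hi a b => by
      have B := t_copy (Ω := Ω) .q .x1 .u1 (by decide) (f := St.st {s with x1 := i * s.q, v := a, u2 := b})
        rfl rfl (by simp [hu])
      simp only [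
          upd_arg, upd_dat, upd_acc, upd_t1, upd_t2, upd_t3, upd_res, upd_out, upd_cc, upd_n,
          upd_s, upd_L, upd_q, upd_tau, upd_K, upd_w, upd_z, upd_zb, upd_d, upd_db, upd_e, upd_v,
          upd_p, upd_i, upd_j, upd_a, upd_b, upd_B, upd_N, upd_m, upd_h, upd_u1, upd_u2, upd_u3,
          upd_u4, upd_u5, upd_u6, upd_x1, upd_x2, upd_x3, upd_x4, st_arg, st_dat, st_acc, st_t1,
          st_t2, st_t3, st_res, st_out, st_cc, st_n, st_s, st_L, st_q, st_tau, st_K, st_w, st_z,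
          st_zb, st_d, st_db, st_e, st_v, st_p, st_i, st_j, st_a, st_b, st_B, st_N, st_m, st_h,
          st_u1, st_u2, st_u3, st_u4, st_u5, st_u6, st_x1, st_x2, st_x3, st_x4] at B
      simp only [
          upd_arg, upd_dat, upd_acc, upd_t1, upd_t2, upd_t3, upd_res, upd_out, upd_cc, upd_n,
          upd_s, upd_L, upd_q, upd_tau, upd_K, upd_w, upd_z, upd_zb, upd_d, upd_db, upd_e, upd_v,
          upd_p, upd_i, upd_j, upd_a, upd_b, upd_B, upd_N, upd_m, upd_h, upd_u1, upd_u2, upd_u3,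
          upd_u4, upd_u5, upd_u6, upd_x1, upd_x2, upd_x3, upd_x4, st_arg, st_dat, st_acc, st_t1,
          st_t2, st_t3, st_res, st_out, st_cc, st_n, st_s, st_L, st_q, st_tau, st_K, st_w, st_z,
          st_zb, st_d, st_db, st_e, st_v, st_p, st_i, st_j, st_a, st_b, st_B, st_N, st_m, st_h,
          st_u1, st_u2, st_u3, st_u4, st_u5, st_u6, st_x1, st_x2, st_x3, st_x4]
      refine B.congr ?_ (by omega)
      congr 2
      ring)
  simp only [
      upd_arg, upd_dat, upd_acc, upd_t1, upd_t2, upd_t3, upd_res, upd_out, upd_cc, upd_n, upd_s,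
      upd_L, upd_q, upd_tau, upd_K, upd_w, upd_z, upd_zb, upd_d, upd_db, upd_e, upd_v, upd_p,
      upd_i, upd_j, upd_a, upd_b, upd_B, upd_N, upd_m, upd_h, upd_u1, upd_u2, upd_u3, upd_u4,
      upd_u5, upd_u6, upd_x1, upd_x2, upd_x3, upd_x4, st_arg, st_dat, st_acc, st_t1, st_t2, st_t3,
      st_res, st_out, st_cc, st_n, st_s, st_L, st_q, st_tau, st_K, st_w, st_z, st_zb, st_d, st_db,
      st_e, st_v, st_p, st_i, st_j, st_a, st_b, st_B, st_N, st_m, st_h, st_u1, st_u2, st_u3,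
      st_u4, st_u5, st_u6, st_x1, st_x2, st_x3, st_x4] at h
  have e : ∀ a b, a = s.x1 → b = s.u2 → ({s with x1 := a, v := s.v, u2 := b} : St) = s := by
    rintro _ _ rfl rfl; rfl
  rw [e _ _ (by rw [hx, zero_mul]) hu2.symm] at h
  have h := h.seq (t_clear .v rfl)
  simp only [
      upd_arg, upd_dat, upd_acc, upd_t1, upd_t2, upd_t3, upd_res, upd_out, upd_cc, upd_n, upd_s,
      upd_L, upd_q, upd_tau, upd_K, upd_w, upd_z, upd_zb, upd_d, upd_db, upd_e, upd_v, upd_p,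
      upd_i, upd_j, upd_a, upd_b, upd_B, upd_N, upd_m, upd_h, upd_u1, upd_u2, upd_u3, upd_u4,
      upd_u5, upd_u6, upd_x1, upd_x2, upd_x3, upd_x4, st_arg, st_dat, st_acc, st_t1, st_t2, st_t3,
      st_res, st_out, st_cc, st_n, st_s, st_L, st_q, st_tau, st_K, st_w, st_z, st_zb, st_d, st_db,
      st_e, st_v, st_p, st_i, st_j, st_a, st_b, st_B, st_N, st_m, st_h, st_u1, st_u2, st_u3,
      st_u4, st_u5, st_u6, st_x1, st_x2, st_x3, st_x4] at h
  have h := h.seq (t_moveAll .x1 .v (by decide) rfl rfl)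
  simp only [
      upd_arg, upd_dat, upd_acc, upd_t1, upd_t2, upd_t3, upd_res, upd_out, upd_cc, upd_n, upd_s,
      upd_L, upd_q, upd_tau, upd_K, upd_w, upd_z, upd_zb, upd_d, upd_db, upd_e, upd_v, upd_p,
      upd_i, upd_j, upd_a, upd_b, upd_B, upd_N, upd_m, upd_h, upd_u1, upd_u2, upd_u3, upd_u4,
      upd_u5, upd_u6, upd_x1, upd_x2, upd_x3, upd_x4, st_arg, st_dat, st_acc, st_t1, st_t2, st_t3,
      st_res, st_out, st_cc, st_n, st_s, st_L, st_q, st_tau, st_K, st_w, st_z, st_zb, st_d, st_db,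
      st_e, st_v, st_p, st_i, st_j, st_a, st_b, st_B, st_N, st_m, st_h, st_u1, st_u2, st_u3,
      st_u4, st_u5, st_u6, st_x1, st_x2, st_x3, st_x4] at h
  refine h.congr ?_ ?_
  · congr 1
    simp only [hx, hu2, add_zero]
  · have e1 : s.v * (4 * s.q + 2 + 4) = 4 * (s.v * s.q) + 6 * s.v := by ring
    omega

theorem run_mulB (s : St) (hu : s.u1 = 0) (hu2 : s.u2 = 0) (hx : s.x1 = 0) :
    Run Ω mulB s.st (St.st {s with B := s.B * s.q}) (6 * (s.B * s.q) + 8 * s.B + 4) := by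
  have h := w_for (Ω := Ω) .B .u2 (by decide) (body := copy .q .x1 .u1)
    (fun i => {s with x1 := i * s.q}) s.B (4 * s.q + 2) (fun i hi a b => by
      have B := t_copy (Ω := Ω) .q .x1 .u1 (by decide) (f := St.st {s with x1 := i * s.q, B := a, u2 := b})
        rfl rfl (by simp [hu])
      simp only [
          upd_arg, upd_dat, upd_acc, upd_t1, upd_t2, upd_t3, upd_res, upd_out, upd_cc, upd_n,
          upd_s, upd_L, upd_q, upd_tau, upd_K, upd_w, upd_z, upd_zb, upd_d, upd_db, upd_e, upd_v,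
          upd_p, upd_i, upd_j, upd_a, upd_b, upd_B, upd_N, upd_m, upd_h, upd_u1, upd_u2, upd_u3,
          upd_u4, upd_u5, upd_u6, upd_x1, upd_x2, upd_x3, upd_x4, st_arg, st_dat, st_acc, st_t1,
          st_t2, st_t3, st_res, st_out, st_cc, st_n, st_s, st_L, st_q, st_tau, st_K, st_w, st_z,
          st_zb, st_d, st_db, st_e, st_v, st_p, st_i, st_j, st_a, st_b, st_B, st_N, st_m, st_h,
          st_u1, st_u2, st_u3, st_u4, st_u5, st_u6, st_x1, st_x2, st_x3, st_x4] at B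
      simp only [
          upd_arg, upd_dat, upd_acc, upd_t1, upd_t2, upd_t3, upd_res, upd_out, upd_cc, upd_n,
          upd_s, upd_L, upd_q, upd_tau, upd_K, upd_w, upd_z, upd_zb, upd_d, upd_db, upd_e, upd_v,
          upd_p, upd_i, upd_j, upd_a, upd_b, upd_B, upd_N, upd_m, upd_h, upd_u1, upd_u2, upd_u3,
          upd_u4, upd_u5, upd_u6, upd_x1, upd_x2, upd_x3, upd_x4, st_arg, st_dat, st_acc, st_t1,
          st_t2, st_t3, st_res, st_out, st_cc, st_n, st_s, st_L, st_q, st_tau, st_K, st_w, st_z,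
          st_zb, st_d, st_db, st_e, st_v, st_p, st_i, st_j, st_a, st_b, st_B, st_N, st_m, st_h,
          st_u1, st_u2, st_u3, st_u4, st_u5, st_u6, st_x1, st_x2, st_x3, st_x4]
      refine B.congr ?_ (by omega)
      congr 2
      ring)
  simp only [
      upd_arg, upd_dat, upd_acc, upd_t1, upd_t2, upd_t3, upd_res, upd_out, upd_cc, upd_n, upd_s,
      upd_L, upd_q, upd_tau, upd_K, upd_w, upd_z, upd_zb, upd_d, upd_db, upd_e, upd_v, upd_p,
      upd_i, upd_j, upd_a, upd_b, upd_B, upd_N, upd_m, upd_h, upd_u1, upd_u2, upd_u3, upd_u4,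
      upd_u5, upd_u6, upd_x1, upd_x2, upd_x3, upd_x4, st_arg, st_dat, st_acc, st_t1, st_t2, st_t3,
      st_res, st_out, st_cc, st_n, st_s, st_L, st_q, st_tau, st_K, st_w, st_z, st_zb, st_d, st_db,
      st_e, st_v, st_p, st_i, st_j, st_a, st_b, st_B, st_N, st_m, st_h, st_u1, st_u2, st_u3,
      st_u4, st_u5, st_u6, st_x1, st_x2, st_x3, st_x4] at h
  have e : ∀ a b, a = s.x1 → b = s.u2 → ({s with x1 := a, B := s.B, u2 := b} : St) = s := by
    rintro _ _ rfl rfl; rfl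
  rw [e _ _ (by rw [hx, zero_mul]) hu2.symm] at h
  have h := h.seq (t_clear .B rfl)
  simp only [
      upd_arg, upd_dat, upd_acc, upd_t1, upd_t2, upd_t3, upd_res, upd_out, upd_cc, upd_n, upd_s,
      upd_L, upd_q, upd_tau, upd_K, upd_w, upd_z, upd_zb, upd_d, upd_db, upd_e, upd_v, upd_p,
      upd_i, upd_j, upd_a, upd_b, upd_B, upd_N, upd_m, upd_h, upd_u1, upd_u2, upd_u3, upd_u4,
      upd_u5, upd_u6, upd_x1, upd_x2, upd_x3, upd_x4, st_arg, st_dat, st_acc, st_t1, st_t2, st_t3,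
      st_res, st_out, st_cc, st_n, st_s, st_L, st_q, st_tau, st_K, st_w, st_z, st_zb, st_d, st_db,
      st_e, st_v, st_p, st_i, st_j, st_a, st_b, st_B, st_N, st_m, st_h, st_u1, st_u2, st_u3,
      st_u4, st_u5, st_u6, st_x1, st_x2, st_x3, st_x4] at h
  have h := h.seq (t_moveAll .x1 .B (by decide) rfl rfl)
  simp only [
      upd_arg, upd_dat, upd_acc, upd_t1, upd_t2, upd_t3, upd_res, upd_out, upd_cc, upd_n, upd_s,
      upd_L, upd_q, upd_tau, upd_K, upd_w, upd_z, upd_zb, upd_d, upd_db, upd_e, upd_v, upd_p,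
      upd_i, upd_j, upd_a, upd_b, upd_B, upd_N, upd_m, upd_h, upd_u1, upd_u2, upd_u3, upd_u4,
      upd_u5, upd_u6, upd_x1, upd_x2, upd_x3, upd_x4, st_arg, st_dat, st_acc, st_t1, st_t2, st_t3,
      st_res, st_out, st_cc, st_n, st_s, st_L, st_q, st_tau, st_K, st_w, st_z, st_zb, st_d, st_db,
      st_e, st_v, st_p, st_i, st_j, st_a, st_b, st_B, st_N, st_m, st_h, st_u1, st_u2, st_u3,
      st_u4, st_u5, st_u6, st_x1, st_x2, st_x3, st_x4] at h
  refine h.congr ?_ ?_
  · congr 1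
    simp only [hx, hu2, add_zero]
  · have e1 : s.B * (4 * s.q + 2 + 4) = 4 * (s.B * s.q) + 6 * s.B := by ring
    omega

/-- Halve `B`. -/
def halfB : Cmd W G := Cmd.seq (.loop (ne .B) (Cmd.seq (Cmd.seq (pop .B) (pop .B)) (push .tick
    .x1))) (moveAll .x1 .B)

theorem run_halfB (s : St) (b : ℕ) (hb : s.B = 2 * b) (hx : s.x1 = 0) :
    Run Ω halfB s.st (St.st {s with B := b}) (6 * b + 2) := by
  have h := Run.loop_iter (Ω := Ω) (t := ne .B) (a := Cmd.seq (Cmd.seq (pop .B) (pop .B)) (push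
    .tick .x1))
    (fun i => St.st {s with B := 2 * (b - i), x1 := i}) b 3
    (fun i hi => by
      obtain ⟨j, hj⟩ : ∃ j, 2 * (b - i) = j + 1 := ⟨2 * (b - i) - 1, by omega⟩
      simp [ne, tops, hj, ticks_succ])
    (by simp [ne, tops])
    (fun i hi => by
      have B := t_pop (Ω := Ω) .B (f := St.st {s with B := 2 * (b - i), x1 := i})
        (2 * (b - i) - 1) (by simp only [st_B]; congr 1; omega)
      simp only [
          upd_arg, upd_dat, upd_acc, upd_t1, upd_t2, upd_t3, upd_res, upd_out, upd_cc, upd_n,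
          upd_s, upd_L, upd_q, upd_tau, upd_K, upd_w, upd_z, upd_zb, upd_d, upd_db, upd_e, upd_v,
          upd_p, upd_i, upd_j, upd_a, upd_b, upd_B, upd_N, upd_m, upd_h, upd_u1, upd_u2, upd_u3,
          upd_u4, upd_u5, upd_u6, upd_x1, upd_x2, upd_x3, upd_x4, st_arg, st_dat, st_acc, st_t1,
          st_t2, st_t3, st_res, st_out, st_cc, st_n, st_s, st_L, st_q, st_tau, st_K, st_w, st_z,
          st_zb, st_d, st_db, st_e, st_v, st_p, st_i, st_j, st_a, st_b, st_B, st_N, st_m, st_h,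
          st_u1, st_u2, st_u3, st_u4, st_u5, st_u6, st_x1, st_x2, st_x3, st_x4] at B
      have B := B.seq (t_pop .B (2 * (b - (i + 1))) (by simp only [st_B]; congr 1; omega))
      simp only [
          upd_arg, upd_dat, upd_acc, upd_t1, upd_t2, upd_t3, upd_res, upd_out, upd_cc, upd_n,
          upd_s, upd_L, upd_q, upd_tau, upd_K, upd_w, upd_z, upd_zb, upd_d, upd_db, upd_e, upd_v,
          upd_p, upd_i, upd_j, upd_a, upd_b, upd_B, upd_N, upd_m, upd_h, upd_u1, upd_u2, upd_u3,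
          upd_u4, upd_u5, upd_u6, upd_x1, upd_x2, upd_x3, upd_x4, st_arg, st_dat, st_acc, st_t1,
          st_t2, st_t3, st_res, st_out, st_cc, st_n, st_s, st_L, st_q, st_tau, st_K, st_w, st_z,
          st_zb, st_d, st_db, st_e, st_v, st_p, st_i, st_j, st_a, st_b, st_B, st_N, st_m, st_h,
          st_u1, st_u2, st_u3, st_u4, st_u5, st_u6, st_x1, st_x2, st_x3, st_x4] at B
      have B := B.seq (t_push .x1 rfl)
      simp only [
          upd_arg, upd_dat, upd_acc, upd_t1, upd_t2, upd_t3, upd_res, upd_out, upd_cc, upd_n,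
          upd_s, upd_L, upd_q, upd_tau, upd_K, upd_w, upd_z, upd_zb, upd_d, upd_db, upd_e, upd_v,
          upd_p, upd_i, upd_j, upd_a, upd_b, upd_B, upd_N, upd_m, upd_h, upd_u1, upd_u2, upd_u3,
          upd_u4, upd_u5, upd_u6, upd_x1, upd_x2, upd_x3, upd_x4, st_arg, st_dat, st_acc, st_t1,
          st_t2, st_t3, st_res, st_out, st_cc, st_n, st_s, st_L, st_q, st_tau, st_K, st_w, st_z,
          st_zb, st_d, st_db, st_e, st_v, st_p, st_i, st_j, st_a, st_b, st_B, st_N, st_m, st_h,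
          st_u1, st_u2, st_u3, st_u4, st_u5, st_u6, st_x1, st_x2, st_x3, st_x4] at B
      exact B)
  have e : ∀ a b, a = s.B → b = s.x1 → ({s with B := a, x1 := b} : St) = s := by
    rintro _ _ rfl rfl; rfl
  rw [e _ _ (by rw [hb, Nat.sub_zero]) hx.symm] at h
  have h := h.seq (t_moveAll .x1 .B (by decide) rfl rfl)
  simp only [
      upd_arg, upd_dat, upd_acc, upd_t1, upd_t2, upd_t3, upd_res, upd_out, upd_cc, upd_n, upd_s,
      upd_L, upd_q, upd_tau, upd_K, upd_w, upd_z, upd_zb, upd_d, upd_db, upd_e, upd_v, upd_p,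
      upd_i, upd_j, upd_a, upd_b, upd_B, upd_N, upd_m, upd_h, upd_u1, upd_u2, upd_u3, upd_u4,
      upd_u5, upd_u6, upd_x1, upd_x2, upd_x3, upd_x4, st_arg, st_dat, st_acc, st_t1, st_t2, st_t3,
      st_res, st_out, st_cc, st_n, st_s, st_L, st_q, st_tau, st_K, st_w, st_z, st_zb, st_d, st_db,
      st_e, st_v, st_p, st_i, st_j, st_a, st_b, st_B, st_N, st_m, st_h, st_u1, st_u2, st_u3,
      st_u4, st_u5, st_u6, st_x1, st_x2, st_x3, st_x4] at h
  refine h.congr ?_ ?_
  · congr 1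
    simp only [hx, Nat.sub_self, mul_zero, add_zero]
  · omega

/-- The swap, in terms of functions. -/
theorem fs_step (Mach : Machine) (C : ℕ) (s : St) (cl : Clean s) (τ v M T N : ℕ) (hτ : 1 ≤ τ)
    (hv : 1 ≤ v) (hM : 1 ≤ M) (f : ℕ → Bool)
    (hN : N = M * (2 ^ τ * 2 ^ τ) * (v * (2 ^ τ * 2 ^ τ)))
    (hsv : s.v = v) (hsτ : s.tau = τ) (hsq : s.q = 2 ^ τ) (hsL : s.L = 2 ^ τ * 2 ^ τ)
    (hdat : s.dat = (List.range N).map f)
    (hT : ∀ ν, 32 * N ≤ ν → ν ≤ 48 * N → Mach.mulTime ν ≤ T) :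
    Run (mulOracle Mach C W.arg W.res) fastSwap s.st
      (St.st {s with dat := (List.range N).map (sw (2 ^ τ) (2 ^ τ) (v * (2 ^ τ * 2 ^ τ)) f)})
      (50000 * (C + 1) * (T + N)) := by
  subst hN
  have hq : 0 < 2 ^ τ := by positivity
  have hs : 0 < v * (2 ^ τ * 2 ^ τ) := by positivity
  rw [map_range_eq_seg] at hdat
  have h := run_fastSwap Mach C s cl τ v M T hτ hv hM _ (fun k _ => by simp) hsv hsτ hsq hsL hdat hT
  refine h.congr ?_ le_rfl
  rw [← seg_sw (2 ^ τ) (v * (2 ^ τ * 2 ^ τ)) M hq hs f]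
  rfl

theorem Clean.upd {σ : St} (cl : Clean σ) {ydat yout : List Bool}
    {yL yq ytau yK ye yv yi yj yB yN ym yh yu3 yu4 yu5 yu6 yx3 yx4 : ℕ} :
    Clean {σ with
      dat := ydat, out := yout, L := yL, q := yq, tau := ytau, K := yK, e := ye, v := yv, i := yi, j := yj,
      B := yB, N := yN, m := ym, h := yh, u3 := yu3, u4 := yu4, u5 := yu5, u6 := yu6, x3 := yx3, x4 := yx4} :=
  ⟨cl.arg, cl.acc, cl.t1, cl.t2, cl.t3, cl.res, cl.cc, cl.s, cl.n, cl.w, cl.z, cl.zb, cl.d, cl.db, cl.p, cl.a, cl.b, cl.u1, cl.u2, cl.x1, cl.x2⟩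

theorem sw_one_left (r s : ℕ) (f : ℕ → Bool) : sw 1 r s f = f := by
  funext x
  rw [sw, swIx, one_mul, mul_one, Nat.mod_one, add_zero, Nat.div_one]
  congr 1
  rw [mul_comm (x / s / r) r, Nat.div_add_mod, mul_comm, Nat.div_add_mod]

/-- The inner loop. -/
def inner : Cmd W G := forT .K .u3 (Cmd.seq fastSwap mulV)

theorem run_inner (Mach : Machine) (C : ℕ) (s : St) (cl : Clean s) (τ K j T N : ℕ) (hτ : 1 ≤ τ)
    (hj : j + 3 ≤ K) (F : ℕ → Bool) (hN : N = (2 ^ τ) ^ (2 * K))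
    (hsv : s.v = (2 ^ τ) ^ j) (hsK : s.K = K) (hu3 : s.u3 = 0)
    (hsτ : s.tau = τ) (hsq : s.q = 2 ^ τ) (hsL : s.L = 2 ^ τ * 2 ^ τ)
    (hdat : s.dat = (List.range N).map F)
    (hT : ∀ ν, 32 * N ≤ ν → ν ≤ 48 * N → Mach.mulTime ν ≤ T) :
    Run (mulOracle Mach C W.arg W.res) inner s.st
      (St.st {s with
        v := (2 ^ τ) ^ (j + K),
        dat := (List.range N).map (sw ((2 ^ τ) ^ K) (2 ^ τ) ((2 ^ τ) ^ (2 + j)) F)})
      (K * (50000 * (C + 1) * (T + N) + 14 * N + 8) + 2) := by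
  have hq : 0 < 2 ^ τ := by positivity
  obtain ⟨q, hqq⟩ : ∃ q, q = 2 ^ τ := ⟨_, rfl⟩
  have hq0 : 0 < q := by omega
  have h := w_for (Ω := mulOracle Mach C W.arg W.res) .K .u3 (by decide) (body := Cmd.seq fastSwap mulV)
    (fun i => {s with
      v := q ^ (j + i), dat := (List.range N).map (sw (q ^ i) q (q ^ (2 + j)) F)}) K
    (50000 * (C + 1) * (T + N) + 14 * N + 4) (fun i hi a b => by
      have B := fs_step Mach C {s with
        v := q ^ (j + i), dat := (List.range N).map (sw (q ^ i) q (q ^ (2 + j)) F),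
        K := a, u3 := b} cl.upd τ (q ^ (j + i)) (q ^ (2 * K - (j + i) - 4)) T N hτ
        (Nat.pos_of_ne_zero (by positivity)) (Nat.pos_of_ne_zero (by positivity)) _ (by
          rw [hN, ← hqq, ← pow_two, ← pow_add, ← pow_add, ← pow_add]
          congr 1; omega) rfl hsτ hsq hsL rfl hT
      simp only [
          upd_arg, upd_dat, upd_acc, upd_t1, upd_t2, upd_t3, upd_res, upd_out, upd_cc, upd_n,
          upd_s, upd_L, upd_q, upd_tau, upd_K, upd_w, upd_z, upd_zb, upd_d, upd_db, upd_e, upd_v,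
          upd_p, upd_i, upd_j, upd_a, upd_b, upd_B, upd_N, upd_m, upd_h, upd_u1, upd_u2, upd_u3,
          upd_u4, upd_u5, upd_u6, upd_x1, upd_x2, upd_x3, upd_x4, st_arg, st_dat, st_acc, st_t1,
          st_t2, st_t3, st_res, st_out, st_cc, st_n, st_s, st_L, st_q, st_tau, st_K, st_w, st_z,
          st_zb, st_d, st_db, st_e, st_v, st_p, st_i, st_j, st_a, st_b, st_B, st_N, st_m, st_h,
          st_u1, st_u2, st_u3, st_u4, st_u5, st_u6, st_x1, st_x2, st_x3, st_x4] at B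
      have B := B.seq (run_mulV _ cl.u1 cl.u2 cl.x1)
      simp only [
          upd_arg, upd_dat, upd_acc, upd_t1, upd_t2, upd_t3, upd_res, upd_out, upd_cc, upd_n,
          upd_s, upd_L, upd_q, upd_tau, upd_K, upd_w, upd_z, upd_zb, upd_d, upd_db, upd_e, upd_v,
          upd_p, upd_i, upd_j, upd_a, upd_b, upd_B, upd_N, upd_m, upd_h, upd_u1, upd_u2, upd_u3,
          upd_u4, upd_u5, upd_u6, upd_x1, upd_x2, upd_x3, upd_x4, st_arg, st_dat, st_acc, st_t1,
          st_t2, st_t3, st_res, st_out, st_cc, st_n, st_s, st_L, st_q, st_tau, st_K, st_w, st_z,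
          st_zb, st_d, st_db, st_e, st_v, st_p, st_i, st_j, st_a, st_b, st_B, st_N, st_m, st_h,
          st_u1, st_u2, st_u3, st_u4, st_u5, st_u6, st_x1, st_x2, st_x3, st_x4] at B
      simp only [
          upd_arg, upd_dat, upd_acc, upd_t1, upd_t2, upd_t3, upd_res, upd_out, upd_cc, upd_n,
          upd_s, upd_L, upd_q, upd_tau, upd_K, upd_w, upd_z, upd_zb, upd_d, upd_db, upd_e, upd_v,
          upd_p, upd_i, upd_j, upd_a, upd_b, upd_B, upd_N, upd_m, upd_h, upd_u1, upd_u2, upd_u3,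
          upd_u4, upd_u5, upd_u6, upd_x1, upd_x2, upd_x3, upd_x4, st_arg, st_dat, st_acc, st_t1,
          st_t2, st_t3, st_res, st_out, st_cc, st_n, st_s, st_L, st_q, st_tau, st_K, st_w, st_z,
          st_zb, st_d, st_db, st_e, st_v, st_p, st_i, st_j, st_a, st_b, st_B, st_N, st_m, st_h,
          st_u1, st_u2, st_u3, st_u4, st_u5, st_u6, st_x1, st_x2, st_x3, st_x4]
      refine B.congr ?_ ?_
      · congr 1
        rw [hsq, ← hqq, ← pow_succ, add_assoc, pow_succ' q i]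
        congr 2
        rw [← sw_comp₁ (p := q) (p' := q ^ i) (r := q) (s := q ^ (2 + j)) (by omega) (by positivity)
          (by omega) (by positivity)]
        congr 1
        ring
      · have h1 : q ^ (j + i) * s.q ≤ N := by
          rw [hsq, ← hqq, ← pow_succ, hN, ← hqq]
          exact Nat.pow_le_pow_right (by omega) (by omega)
        have h2 : q ^ (j + i) ≤ q ^ (j + i) * s.q :=
          Nat.le_mul_of_pos_right _ (by rw [hsq]; exact hq)
        omega)
  simp only [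
      upd_arg, upd_dat, upd_acc, upd_t1, upd_t2, upd_t3, upd_res, upd_out, upd_cc, upd_n, upd_s,
      upd_L, upd_q, upd_tau, upd_K, upd_w, upd_z, upd_zb, upd_d, upd_db, upd_e, upd_v, upd_p,
      upd_i, upd_j, upd_a, upd_b, upd_B, upd_N, upd_m, upd_h, upd_u1, upd_u2, upd_u3, upd_u4,
      upd_u5, upd_u6, upd_x1, upd_x2, upd_x3, upd_x4, st_arg, st_dat, st_acc, st_t1, st_t2, st_t3,
      st_res, st_out, st_cc, st_n, st_s, st_L, st_q, st_tau, st_K, st_w, st_z, st_zb, st_d, st_db,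
      st_e, st_v, st_p, st_i, st_j, st_a, st_b, st_B, st_N, st_m, st_h, st_u1, st_u2, st_u3,
      st_u4, st_u5, st_u6, st_x1, st_x2, st_x3, st_x4] at h
  refine h.cast ?_ ?_ (by
    have : 50000 * (C + 1) * (T + N) + 14 * N + 4 + 4 = 50000 * (C + 1) * (T + N) + 14 * N + 8 := by
      ring
    rw [this])
  · have e : ∀ a b c d, a = s.dat → b = s.v → c = s.K → d = s.u3 →
      ({s with dat := a, v := b, K := c, u3 := d} : St) = s := by
        rintro _ _ _ _ rfl rfl rfl rfl; rfl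
    rw [e _ _ _ _ (by
      rw [hdat, pow_zero, sw_one_left]) (by rw [hsv, ← hqq]; rfl) hsK.symm hu3.symm]
  · have e : ∀ a b, a = s.K → b = s.u3 →
      ({s with v := (2 ^ τ) ^ (j + K),
               dat := (List.range N).map (sw ((2 ^ τ) ^ K) (2 ^ τ) ((2 ^ τ) ^ (2 + j)) F),
               K := a, u3 := b} : St) =
      {s with v := (2 ^ τ) ^ (j + K),
              dat := (List.range N).map (sw ((2 ^ τ) ^ K) (2 ^ τ) ((2 ^ τ) ^ (2 + j)) F)} := by
        rintro _ _ rfl rfl; rfl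
    rw [hqq, e _ _ hsK.symm hu3.symm]

/-- One round of the outer loop. -/
def outerBody : Cmd W G :=
  Cmd.seq (Cmd.seq (Cmd.seq (Cmd.seq (pop .j) (push .tick .v)) (forT .j .u3 mulV)) inner) (clear .v)

theorem run_outerBody (Mach : Machine) (C : ℕ) (s : St) (cl : Clean s) (τ K j T N : ℕ)
    (hτ : 1 ≤ τ) (hj : j + 3 ≤ K) (F : ℕ → Bool) (hN : N = (2 ^ τ) ^ (2 * K))
    (hsv : s.v = 0) (hsj : s.j = j + 1) (hsK : s.K = K) (hu3 : s.u3 = 0)
    (hsτ : s.tau = τ) (hsq : s.q = 2 ^ τ) (hsL : s.L = 2 ^ τ * 2 ^ τ)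
    (hdat : s.dat = (List.range N).map F)
    (hT : ∀ ν, 32 * N ≤ ν → ν ≤ 48 * N → Mach.mulTime ν ≤ T) :
    Run (mulOracle Mach C W.arg W.res) outerBody s.st
      (St.st {s with
        j := j,
        dat := (List.range N).map (sw ((2 ^ τ) ^ K) (2 ^ τ) ((2 ^ τ) ^ (2 + j)) F)})
      (K * (50000 * (C + 1) * (T + N) + 28 * N + 16) + 2 * N + 7) := by
  have hq : 0 < 2 ^ τ := by positivity
  obtain ⟨q, hqq⟩ : ∃ q, q = 2 ^ τ := ⟨_, rfl⟩
  have hq0 : 0 < q := by omega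
  have h := t_pop (Ω := mulOracle Mach C W.arg W.res) .j j (f := s.st) (by simp [hsj])
  simp only [
      upd_arg, upd_dat, upd_acc, upd_t1, upd_t2, upd_t3, upd_res, upd_out, upd_cc, upd_n, upd_s,
      upd_L, upd_q, upd_tau, upd_K, upd_w, upd_z, upd_zb, upd_d, upd_db, upd_e, upd_v, upd_p,
      upd_i, upd_j, upd_a, upd_b, upd_B, upd_N, upd_m, upd_h, upd_u1, upd_u2, upd_u3, upd_u4,
      upd_u5, upd_u6, upd_x1, upd_x2, upd_x3, upd_x4, st_arg, st_dat, st_acc, st_t1, st_t2, st_t3,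
      st_res, st_out, st_cc, st_n, st_s, st_L, st_q, st_tau, st_K, st_w, st_z, st_zb, st_d, st_db,
      st_e, st_v, st_p, st_i, st_j, st_a, st_b, st_B, st_N, st_m, st_h, st_u1, st_u2, st_u3,
      st_u4, st_u5, st_u6, st_x1, st_x2, st_x3, st_x4] at h
  have h := h.seq (t_push .v rfl)
  simp only [
      upd_arg, upd_dat, upd_acc, upd_t1, upd_t2, upd_t3, upd_res, upd_out, upd_cc, upd_n, upd_s,
      upd_L, upd_q, upd_tau, upd_K, upd_w, upd_z, upd_zb, upd_d, upd_db, upd_e, upd_v, upd_p,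
      upd_i, upd_j, upd_a, upd_b, upd_B, upd_N, upd_m, upd_h, upd_u1, upd_u2, upd_u3, upd_u4,
      upd_u5, upd_u6, upd_x1, upd_x2, upd_x3, upd_x4, st_arg, st_dat, st_acc, st_t1, st_t2, st_t3,
      st_res, st_out, st_cc, st_n, st_s, st_L, st_q, st_tau, st_K, st_w, st_z, st_zb, st_d, st_db,
      st_e, st_v, st_p, st_i, st_j, st_a, st_b, st_B, st_N, st_m, st_h, st_u1, st_u2, st_u3,
      st_u4, st_u5, st_u6, st_x1, st_x2, st_x3, st_x4] at h
  have h2 := w_for (Ω := mulOracle Mach C W.arg W.res) .j .u3 (by decide) (body := mulV)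
    (fun i => {s with v := q ^ i}) j (14 * N + 4) (fun i hi a b => by
      have B := run_mulV (Ω := mulOracle Mach C W.arg W.res) {s with
        v := q ^ i, j := a, u3 := b} cl.u1 cl.u2 cl.x1
      simp only [
          upd_arg, upd_dat, upd_acc, upd_t1, upd_t2, upd_t3, upd_res, upd_out, upd_cc, upd_n,
          upd_s, upd_L, upd_q, upd_tau, upd_K, upd_w, upd_z, upd_zb, upd_d, upd_db, upd_e, upd_v,
          upd_p, upd_i, upd_j, upd_a, upd_b, upd_B, upd_N, upd_m, upd_h, upd_u1, upd_u2, upd_u3,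
          upd_u4, upd_u5, upd_u6, upd_x1, upd_x2, upd_x3, upd_x4, st_arg, st_dat, st_acc, st_t1,
          st_t2, st_t3, st_res, st_out, st_cc, st_n, st_s, st_L, st_q, st_tau, st_K, st_w, st_z,
          st_zb, st_d, st_db, st_e, st_v, st_p, st_i, st_j, st_a, st_b, st_B, st_N, st_m, st_h,
          st_u1, st_u2, st_u3, st_u4, st_u5, st_u6, st_x1, st_x2, st_x3, st_x4] at B
      simp only [
          upd_arg, upd_dat, upd_acc, upd_t1, upd_t2, upd_t3, upd_res, upd_out, upd_cc, upd_n,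
          upd_s, upd_L, upd_q, upd_tau, upd_K, upd_w, upd_z, upd_zb, upd_d, upd_db, upd_e, upd_v,
          upd_p, upd_i, upd_j, upd_a, upd_b, upd_B, upd_N, upd_m, upd_h, upd_u1, upd_u2, upd_u3,
          upd_u4, upd_u5, upd_u6, upd_x1, upd_x2, upd_x3, upd_x4, st_arg, st_dat, st_acc, st_t1,
          st_t2, st_t3, st_res, st_out, st_cc, st_n, st_s, st_L, st_q, st_tau, st_K, st_w, st_z,
          st_zb, st_d, st_db, st_e, st_v, st_p, st_i, st_j, st_a, st_b, st_B, st_N, st_m, st_h,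
          st_u1, st_u2, st_u3, st_u4, st_u5, st_u6, st_x1, st_x2, st_x3, st_x4]
      refine B.congr ?_ ?_
      · congr 1
        rw [hsq, ← hqq, ← pow_succ]
      · have h1 : q ^ i * s.q ≤ N := by
          rw [hsq, ← hqq, ← pow_succ, hN, ← hqq]
          exact Nat.pow_le_pow_right (by omega) (by omega)
        have h2 : q ^ i ≤ q ^ i * s.q :=
          Nat.le_mul_of_pos_right _ (by rw [hsq]; exact hq)
        omega)
  simp only [
      upd_arg, upd_dat, upd_acc, upd_t1, upd_t2, upd_t3, upd_res, upd_out, upd_cc, upd_n, upd_s,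
      upd_L, upd_q, upd_tau, upd_K, upd_w, upd_z, upd_zb, upd_d, upd_db, upd_e, upd_v, upd_p,
      upd_i, upd_j, upd_a, upd_b, upd_B, upd_N, upd_m, upd_h, upd_u1, upd_u2, upd_u3, upd_u4,
      upd_u5, upd_u6, upd_x1, upd_x2, upd_x3, upd_x4, st_arg, st_dat, st_acc, st_t1, st_t2, st_t3,
      st_res, st_out, st_cc, st_n, st_s, st_L, st_q, st_tau, st_K, st_w, st_z, st_zb, st_d, st_db,
      st_e, st_v, st_p, st_i, st_j, st_a, st_b, st_B, st_N, st_m, st_h, st_u1, st_u2, st_u3,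
      st_u4, st_u5, st_u6, st_x1, st_x2, st_x3, st_x4] at h2
  have h := h.seq (h2.cast (by congr 1; simp only [hsv, pow_zero, zero_add, hu3]) rfl le_rfl)
  have h := h.seq (run_inner Mach C {s with v := q ^ j, j := j, u3 := 0} cl.upd τ K j T N hτ hj F hN
    (by rw [hqq]) hsK rfl hsτ hsq hsL hdat hT)
  have h := h.seq (t_clear .v rfl)
  simp only [
      upd_arg, upd_dat, upd_acc, upd_t1, upd_t2, upd_t3, upd_res, upd_out, upd_cc, upd_n, upd_s,
      upd_L, upd_q, upd_tau, upd_K, upd_w, upd_z, upd_zb, upd_d, upd_db, upd_e, upd_v, upd_p,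
      upd_i, upd_j, upd_a, upd_b, upd_B, upd_N, upd_m, upd_h, upd_u1, upd_u2, upd_u3, upd_u4,
      upd_u5, upd_u6, upd_x1, upd_x2, upd_x3, upd_x4, st_arg, st_dat, st_acc, st_t1, st_t2, st_t3,
      st_res, st_out, st_cc, st_n, st_s, st_L, st_q, st_tau, st_K, st_w, st_z, st_zb, st_d, st_db,
      st_e, st_v, st_p, st_i, st_j, st_a, st_b, st_B, st_N, st_m, st_h, st_u1, st_u2, st_u3,
      st_u4, st_u5, st_u6, st_x1, st_x2, st_x3, st_x4] at h
  refine h.congr ?_ ?_
  · congr 1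
    simp only [hsv, hu3]
  · have h1 : (2 ^ τ) ^ (j + K) ≤ N := by
      rw [hN]; exact Nat.pow_le_pow_right (by omega) (by omega)
    have h2 : j * (14 * N + 4 + 4) ≤ K * (14 * N + 8) := by
      rw [show 14 * N + 4 + 4 = 14 * N + 8 by ring]; exact Nat.mul_le_mul_right _ (by omega)
    have h3 : K * (50000 * (C + 1) * (T + N) + 28 * N + 16) =
      K * (50000 * (C + 1) * (T + N) + 14 * N + 8) + K * (14 * N + 8) := by ring
    omega

/-- The outer loop. -/
def outer : Cmd W G := Cmd.seq (Cmd.seq (Cmd.seq (copy .K .j .u1) (pop .j)) (pop .j)) (.loop (ne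
    .j) outerBody)

theorem run_outer (Mach : Machine) (C : ℕ) (s : St) (cl : Clean s) (τ K T N : ℕ)
    (hτ : 1 ≤ τ) (hK : 2 ≤ K) (F : ℕ → Bool) (hN : N = (2 ^ τ) ^ (2 * K))
    (hsv : s.v = 0) (hsj : s.j = 0) (hsK : s.K = K) (hu3 : s.u3 = 0)
    (hsτ : s.tau = τ) (hsq : s.q = 2 ^ τ) (hsL : s.L = 2 ^ τ * 2 ^ τ)
    (hdat : s.dat = (List.range N).map F)
    (hT : ∀ ν, 32 * N ≤ ν → ν ≤ 48 * N → Mach.mulTime ν ≤ T) :
    Run (mulOracle Mach C W.arg W.res) outer s.st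
      (St.st {s with
        dat := (List.range N).map (sw ((2 ^ τ) ^ K) ((2 ^ τ) ^ (K - 2)) ((2 ^ τ) ^ 2) F)})
      (K * (K * (50000 * (C + 1) * (T + N) + 28 * N + 16) + 2 * N + 12) + 8) := by
  have hq : 0 < 2 ^ τ := by positivity
  obtain ⟨q, hqq⟩ : ∃ q, q = 2 ^ τ := ⟨_, rfl⟩
  have hq0 : 0 < q := by omega
  have h := t_copy (Ω := mulOracle Mach C W.arg W.res) .K .j .u1 (by decide) (f := s.st) rfl rfl
    (by simp [cl.u1])
  simp only [
      upd_arg, upd_dat, upd_acc, upd_t1, upd_t2, upd_t3, upd_res, upd_out, upd_cc, upd_n, upd_s,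
      upd_L, upd_q, upd_tau, upd_K, upd_w, upd_z, upd_zb, upd_d, upd_db, upd_e, upd_v, upd_p,
      upd_i, upd_j, upd_a, upd_b, upd_B, upd_N, upd_m, upd_h, upd_u1, upd_u2, upd_u3, upd_u4,
      upd_u5, upd_u6, upd_x1, upd_x2, upd_x3, upd_x4, st_arg, st_dat, st_acc, st_t1, st_t2, st_t3,
      st_res, st_out, st_cc, st_n, st_s, st_L, st_q, st_tau, st_K, st_w, st_z, st_zb, st_d, st_db,
      st_e, st_v, st_p, st_i, st_j, st_a, st_b, st_B, st_N, st_m, st_h, st_u1, st_u2, st_u3,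
      st_u4, st_u5, st_u6, st_x1, st_x2, st_x3, st_x4] at h
  have h := h.seq (t_pop .j (K - 1) (by simp only [st_j, hsK, hsj]; congr 1; omega))
  simp only [
      upd_arg, upd_dat, upd_acc, upd_t1, upd_t2, upd_t3, upd_res, upd_out, upd_cc, upd_n, upd_s,
      upd_L, upd_q, upd_tau, upd_K, upd_w, upd_z, upd_zb, upd_d, upd_db, upd_e, upd_v, upd_p,
      upd_i, upd_j, upd_a, upd_b, upd_B, upd_N, upd_m, upd_h, upd_u1, upd_u2, upd_u3, upd_u4,
      upd_u5, upd_u6, upd_x1, upd_x2, upd_x3, upd_x4, st_arg, st_dat, st_acc, st_t1, st_t2, st_t3,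
      st_res, st_out, st_cc, st_n, st_s, st_L, st_q, st_tau, st_K, st_w, st_z, st_zb, st_d, st_db,
      st_e, st_v, st_p, st_i, st_j, st_a, st_b, st_B, st_N, st_m, st_h, st_u1, st_u2, st_u3,
      st_u4, st_u5, st_u6, st_x1, st_x2, st_x3, st_x4] at h
  have h := h.seq (t_pop .j (K - 2) (by simp only [st_j]; congr 1; omega))
  simp only [
      upd_arg, upd_dat, upd_acc, upd_t1, upd_t2, upd_t3, upd_res, upd_out, upd_cc, upd_n, upd_s,
      upd_L, upd_q, upd_tau, upd_K, upd_w, upd_z, upd_zb, upd_d, upd_db, upd_e, upd_v, upd_p,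
      upd_i, upd_j, upd_a, upd_b, upd_B, upd_N, upd_m, upd_h, upd_u1, upd_u2, upd_u3, upd_u4,
      upd_u5, upd_u6, upd_x1, upd_x2, upd_x3, upd_x4, st_arg, st_dat, st_acc, st_t1, st_t2, st_t3,
      st_res, st_out, st_cc, st_n, st_s, st_L, st_q, st_tau, st_K, st_w, st_z, st_zb, st_d, st_db,
      st_e, st_v, st_p, st_i, st_j, st_a, st_b, st_B, st_N, st_m, st_h, st_u1, st_u2, st_u3,
      st_u4, st_u5, st_u6, st_x1, st_x2, st_x3, st_x4] at h
  have h2 := Run.loop_iter (Ω := mulOracle Mach C W.arg W.res) (t := ne .j) (a := outerBody)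
    (fun t => St.st {s with
      j := K - 2 - t, dat := (List.range N).map (sw (q ^ K) (q ^ t) (q ^ (K - t)) F)}) (K - 2)
    (K * (50000 * (C + 1) * (T + N) + 28 * N + 16) + 2 * N + 7)
    (fun t ht => by
      obtain ⟨i, hi⟩ : ∃ i, K - 2 - t = i + 1 := ⟨K - 2 - t - 1, by omega⟩
      simp [ne, tops, hi, ticks_succ])
    (by simp [ne, tops])
    (fun t ht => by
      have B := run_outerBody Mach C {s with
        j := K - 2 - t, dat := (List.range N).map (sw (q ^ K) (q ^ t) (q ^ (K - t)) F)} cl.upd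
        τ K (K - 2 - (t + 1)) T N hτ (by omega) _ hN hsv (by simp only []; omega) hsK hu3 hsτ hsq
        hsL rfl hT
      refine B.congr ?_ le_rfl
      congr 1
      rw [← hqq, show 2 + (K - 2 - (t + 1)) = K - (t + 1) by omega, pow_succ q t,
        ← sw_comp₂ (p := q ^ K) (r := q) (r' := q ^ t) (s := q ^ (K - (t + 1))) (by positivity) hq0
          (by positivity) (by positivity), ← pow_succ, show K - (t + 1) + 1 = K - t by omega])
  have h := h.seq (h2.cast (by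
    congr 1
    have e : ∀ a, a = s.dat → ({s with dat := a, j := K - 2} : St) = {s with j := K - 2} := by
      rintro _ rfl; rfl
    simp only [Nat.sub_zero, pow_zero]
    rw [sw_one (by positivity) (by positivity), e _ hdat.symm]) rfl le_rfl)
  refine h.congr ?_ ?_
  · congr 1
    have e : ∀ a (D : List Bool), a = s.j → ({s with dat := D, j := a} : St) = {s with dat := D} := by
      rintro _ _ rfl; rfl
    rw [← hqq, show K - (K - 2) = 2 by omega, e _ _ (by rw [hsj]; omega)]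
  · have h1 : (K - 2) * (K * (50000 * (C + 1) * (T + N) + 28 * N + 16) + 2 * N + 7 + 1) ≤
        K * (K * (50000 * (C + 1) * (T + N) + 28 * N + 16) + 2 * N + 8) :=
      Nat.mul_le_mul (Nat.sub_le _ _) le_rfl
    have h3 : K * (K * (50000 * (C + 1) * (T + N) + 28 * N + 16) + 2 * N + 12) =
      K * (K * (50000 * (C + 1) * (T + N) + 28 * N + 16) + 2 * N + 8) + 4 * K := by ring
    rw [hsK]
    omega

/-- One unshuffling pass, in terms of functions. -/
theorem us_step (s : St) (cl : Clean s) (b m N : ℕ) (f : ℕ → Bool) (hN : N = m * (2 * b))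
    (hb : s.B = b) (hb0 : 0 < b) (hdat : s.dat = (List.range N).map f) :
    Run Ω unsh s.st (St.st {s with dat := (List.range N).map (sw b 2 1 f)}) (13 * N + 2) := by
  subst hN
  rw [map_range_eq_seg] at hdat
  refine (run_unsh (Ω := Ω) s b m f hb hb0 hdat cl.acc cl.t1 cl.t2 cl.t3 cl.u1).congr ?_ ?_
  · rw [seg_unshuffle b m hb0 f]
  · have : m * (2 * b) = 2 * (m * b) := by ring
    omega

/-- `B = q ^ (K + 2) / 2` -/
def setB : Cmd W G := Cmd.seq (Cmd.seq (Cmd.seq (Cmd.seq (push .tick .B) (forT .K .u3 mulB)) mulB)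
    mulB) halfB

theorem run_setB (s : St) (cl : Clean s) (q K b N : ℕ) (hq0 : 1 ≤ q) (hK2 : 2 ≤ K)
    (hb : q ^ (K + 2) = 2 * b) (hN : N = q ^ (2 * K))
    (hsq : s.q = q) (hsK : s.K = K) (hsB : s.B = 0) (hu3 : s.u3 = 0) :
    Run Ω setB s.st (St.st {s with B := b}) (K * (14 * N + 8) + 31 * N + 13) := by
  have hle : ∀ i, i ≤ K + 2 → q ^ i ≤ N := fun i hi => by
    rw [hN]; exact Nat.pow_le_pow_right hq0 (by omega)
  have h := t_push (Ω := Ω) .B (f := s.st) rfl
  simp only [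
      upd_arg, upd_dat, upd_acc, upd_t1, upd_t2, upd_t3, upd_res, upd_out, upd_cc, upd_n, upd_s,
      upd_L, upd_q, upd_tau, upd_K, upd_w, upd_z, upd_zb, upd_d, upd_db, upd_e, upd_v, upd_p,
      upd_i, upd_j, upd_a, upd_b, upd_B, upd_N, upd_m, upd_h, upd_u1, upd_u2, upd_u3, upd_u4,
      upd_u5, upd_u6, upd_x1, upd_x2, upd_x3, upd_x4, st_arg, st_dat, st_acc, st_t1, st_t2, st_t3,
      st_res, st_out, st_cc, st_n, st_s, st_L, st_q, st_tau, st_K, st_w, st_z, st_zb, st_d, st_db,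
      st_e, st_v, st_p, st_i, st_j, st_a, st_b, st_B, st_N, st_m, st_h, st_u1, st_u2, st_u3,
      st_u4, st_u5, st_u6, st_x1, st_x2, st_x3, st_x4] at h
  have h2 := w_for (Ω := Ω) .K .u3 (by decide) (body := mulB)
    (fun i => {s with B := q ^ i}) K (14 * N + 4) (fun i hi x y => by
      have B := run_mulB (Ω := Ω) {s with B := q ^ i, K := x, u3 := y} cl.u1 cl.u2 cl.x1
      simp only [
          upd_arg, upd_dat, upd_acc, upd_t1, upd_t2, upd_t3, upd_res, upd_out, upd_cc, upd_n,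
          upd_s, upd_L, upd_q, upd_tau, upd_K, upd_w, upd_z, upd_zb, upd_d, upd_db, upd_e, upd_v,
          upd_p, upd_i, upd_j, upd_a, upd_b, upd_B, upd_N, upd_m, upd_h, upd_u1, upd_u2, upd_u3,
          upd_u4, upd_u5, upd_u6, upd_x1, upd_x2, upd_x3, upd_x4, st_arg, st_dat, st_acc, st_t1,
          st_t2, st_t3, st_res, st_out, st_cc, st_n, st_s, st_L, st_q, st_tau, st_K, st_w, st_z,
          st_zb, st_d, st_db, st_e, st_v, st_p, st_i, st_j, st_a, st_b, st_B, st_N, st_m, st_h,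
          st_u1, st_u2, st_u3, st_u4, st_u5, st_u6, st_x1, st_x2, st_x3, st_x4] at B
      simp only [
          upd_arg, upd_dat, upd_acc, upd_t1, upd_t2, upd_t3, upd_res, upd_out, upd_cc, upd_n,
          upd_s, upd_L, upd_q, upd_tau, upd_K, upd_w, upd_z, upd_zb, upd_d, upd_db, upd_e, upd_v,
          upd_p, upd_i, upd_j, upd_a, upd_b, upd_B, upd_N, upd_m, upd_h, upd_u1, upd_u2, upd_u3,
          upd_u4, upd_u5, upd_u6, upd_x1, upd_x2, upd_x3, upd_x4, st_arg, st_dat, st_acc, st_t1,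
          st_t2, st_t3, st_res, st_out, st_cc, st_n, st_s, st_L, st_q, st_tau, st_K, st_w, st_z,
          st_zb, st_d, st_db, st_e, st_v, st_p, st_i, st_j, st_a, st_b, st_B, st_N, st_m, st_h,
          st_u1, st_u2, st_u3, st_u4, st_u5, st_u6, st_x1, st_x2, st_x3, st_x4]
      refine B.congr ?_ ?_
      · congr 1
        rw [hsq, ← pow_succ]
      · have h1 : q ^ i * s.q ≤ N := by rw [hsq, ← pow_succ]; exact hle _ (by omega)
        have h2 : q ^ i ≤ N := hle _ (by omega)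
        omega)
  simp only [
      upd_arg, upd_dat, upd_acc, upd_t1, upd_t2, upd_t3, upd_res, upd_out, upd_cc, upd_n, upd_s,
      upd_L, upd_q, upd_tau, upd_K, upd_w, upd_z, upd_zb, upd_d, upd_db, upd_e, upd_v, upd_p,
      upd_i, upd_j, upd_a, upd_b, upd_B, upd_N, upd_m, upd_h, upd_u1, upd_u2, upd_u3, upd_u4,
      upd_u5, upd_u6, upd_x1, upd_x2, upd_x3, upd_x4, st_arg, st_dat, st_acc, st_t1, st_t2, st_t3,
      st_res, st_out, st_cc, st_n, st_s, st_L, st_q, st_tau, st_K, st_w, st_z, st_zb, st_d, st_db,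
      st_e, st_v, st_p, st_i, st_j, st_a, st_b, st_B, st_N, st_m, st_h, st_u1, st_u2, st_u3,
      st_u4, st_u5, st_u6, st_x1, st_x2, st_x3, st_x4] at h2
  have h := h.seq (h2.cast (by congr 1; simp only [hsB, pow_zero, zero_add, hu3, hsK]) rfl le_rfl)
  have h := h.seq (run_mulB {s with B := q ^ K, K := K, u3 := 0} cl.u1 cl.u2 cl.x1)
  simp only [
      upd_arg, upd_dat, upd_acc, upd_t1, upd_t2, upd_t3, upd_res, upd_out, upd_cc, upd_n, upd_s,
      upd_L, upd_q, upd_tau, upd_K, upd_w, upd_z, upd_zb, upd_d, upd_db, upd_e, upd_v, upd_p,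
      upd_i, upd_j, upd_a, upd_b, upd_B, upd_N, upd_m, upd_h, upd_u1, upd_u2, upd_u3, upd_u4,
      upd_u5, upd_u6, upd_x1, upd_x2, upd_x3, upd_x4, st_arg, st_dat, st_acc, st_t1, st_t2, st_t3,
      st_res, st_out, st_cc, st_n, st_s, st_L, st_q, st_tau, st_K, st_w, st_z, st_zb, st_d, st_db,
      st_e, st_v, st_p, st_i, st_j, st_a, st_b, st_B, st_N, st_m, st_h, st_u1, st_u2, st_u3,
      st_u4, st_u5, st_u6, st_x1, st_x2, st_x3, st_x4] at h
  have h := h.seq (run_mulB {s with B := q ^ K * s.q, K := K, u3 := 0} cl.u1 cl.u2 cl.x1)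
  simp only [
      upd_arg, upd_dat, upd_acc, upd_t1, upd_t2, upd_t3, upd_res, upd_out, upd_cc, upd_n, upd_s,
      upd_L, upd_q, upd_tau, upd_K, upd_w, upd_z, upd_zb, upd_d, upd_db, upd_e, upd_v, upd_p,
      upd_i, upd_j, upd_a, upd_b, upd_B, upd_N, upd_m, upd_h, upd_u1, upd_u2, upd_u3, upd_u4,
      upd_u5, upd_u6, upd_x1, upd_x2, upd_x3, upd_x4, st_arg, st_dat, st_acc, st_t1, st_t2, st_t3,
      st_res, st_out, st_cc, st_n, st_s, st_L, st_q, st_tau, st_K, st_w, st_z, st_zb, st_d, st_db,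
      st_e, st_v, st_p, st_i, st_j, st_a, st_b, st_B, st_N, st_m, st_h, st_u1, st_u2, st_u3,
      st_u4, st_u5, st_u6, st_x1, st_x2, st_x3, st_x4] at h
  have e1 : q ^ K * s.q = q ^ (K + 1) := by rw [hsq, ← pow_succ]
  have e2 : q ^ K * s.q * s.q = 2 * b := by rw [e1, hsq, ← pow_succ, ← hb]
  have h := h.seq (run_halfB {s with B := q ^ K * s.q * s.q, K := K, u3 := 0} b e2 cl.x1)
  refine h.congr ?_ ?_
  · have e : ∀ a c, a = s.K → c = s.u3 → ({s with B := b, K := a, u3 := c} : St) =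
      {s with B := b} := by rintro _ _ rfl rfl; rfl
    rw [← e _ _ hsK.symm hu3.symm]
  · have h1 := hle K (by omega)
    have h2 := hle (K + 1) (by omega)
    have h3 := hle (K + 2) le_rfl
    have e5 : K * (14 * N + 4 + 4) = K * (14 * N + 8) := by ring
    rw [e2, e1]
    omega

/-- The main program. -/
def mainProg : Cmd W G :=
  Cmd.seq (Cmd.seq (Cmd.seq (Cmd.seq outer setB) (forT .tau .u3 (Cmd.seq unsh unsh))) (moveAll
    .dat .t1)) (moveAll .t1 .out)

theorem run_main (Mach : Machine) (C : ℕ) (s : St) (cl : Clean s) (τ K T N m : ℕ)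
    (hτ : 1 ≤ τ) (hK : 2 ≤ K) (a : ℕ → ℕ → Bool) (hN : N = (2 ^ τ) ^ (2 * K))
    (hm : m = (2 ^ τ) ^ K)
    (hsv : s.v = 0) (hsj : s.j = 0) (hsK : s.K = K) (hu3 : s.u3 = 0) (hsB : s.B = 0)
    (hsτ : s.tau = τ) (hsq : s.q = 2 ^ τ) (hsL : s.L = 2 ^ τ * 2 ^ τ) (hout : s.out = [])
    (hdat : s.dat = rowMajor m a)
    (hT : ∀ ν, 32 * N ≤ ν → ν ≤ 48 * N → Mach.mulTime ν ≤ T) :
    ∃ s' : St, s'.out = rowMajor m (fun i j => a j i) ∧
      Run (mulOracle Mach C W.arg W.res) mainProg s.st s'.st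
        (51000 * K ^ 2 * ((C + 1) * (T + N)) + 34 * (N * τ)) := by
  have hq : 0 < 2 ^ τ := by positivity
  obtain ⟨q, hqq⟩ : ∃ q, q = 2 ^ τ := ⟨_, rfl⟩
  have hq0 : 0 < q := by omega
  have hmm : m * m = N := by rw [hm, hN, ← pow_add]; congr 1; ring
  have hm0 : 0 < m := by rw [hm]; positivity
  have hdat' : s.dat = (List.range N).map (fun p => a (p / m) (p % m)) := by
    rw [hdat, rowMajor, hmm]
  obtain ⟨b, hb⟩ : ∃ b, b = 2 ^ (τ * (K + 2) - 1) := ⟨_, rfl⟩
  have hτK : 1 ≤ τ * (K + 2) := Nat.mul_pos hτ (by omega)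
  have hb2 : q ^ (K + 2) = 2 * b := by
    rw [hqq, hb, ← pow_mul, ← pow_succ']; congr 1; omega
  have hb0 : 0 < b := by rw [hb]; positivity
  have h := run_outer Mach C s cl τ K T N hτ hK (fun p => a (p / m) (p % m)) hN hsv hsj hsK hu3
    hsτ hsq hsL hdat' hT
  have h := h.seq (run_setB _ cl.upd q K b N hq0 hK hb2 (by rw [hN, hqq]) (by rw [hqq]; exact hsq)
    hsK hsB hu3)
  simp only [
      upd_arg, upd_dat, upd_acc, upd_t1, upd_t2, upd_t3, upd_res, upd_out, upd_cc, upd_n, upd_s,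
      upd_L, upd_q, upd_tau, upd_K, upd_w, upd_z, upd_zb, upd_d, upd_db, upd_e, upd_v, upd_p,
      upd_i, upd_j, upd_a, upd_b, upd_B, upd_N, upd_m, upd_h, upd_u1, upd_u2, upd_u3, upd_u4,
      upd_u5, upd_u6, upd_x1, upd_x2, upd_x3, upd_x4, st_arg, st_dat, st_acc, st_t1, st_t2, st_t3,
      st_res, st_out, st_cc, st_n, st_s, st_L, st_q, st_tau, st_K, st_w, st_z, st_zb, st_d, st_db,
      st_e, st_v, st_p, st_i, st_j, st_a, st_b, st_B, st_N, st_m, st_h, st_u1, st_u2, st_u3,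
      st_u4, st_u5, st_u6, st_x1, st_x2, st_x3, st_x4] at h
  obtain ⟨F, hF⟩ : ∃ F, F = sw ((2 ^ τ) ^ K) ((2 ^ τ) ^ (K - 2)) ((2 ^ τ) ^ 2)
    (fun p => a (p / m) (p % m)) := ⟨_, rfl⟩
  rw [← hF] at h
  have hdiv : N = q ^ (K - 2) * (2 * b) := by
    rw [hN, ← hb2, ← hqq, ← pow_add]; congr 1; omega
  have pass : ∀ (x y t : ℕ), t + 1 ≤ τ * (K + 2) → Run (mulOracle Mach C W.arg W.res) unsh
      (St.st {s with
                     B := b, tau := x, u3 := y,
                     dat := (List.range N).map (sw (2 ^ (τ * (K + 2) - t)) (2 ^ t) 1 F)})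
      (St.st {s with
                     B := b, tau := x, u3 := y,
                     dat := (List.range N).map
                       (sw (2 ^ (τ * (K + 2) - (t + 1))) (2 ^ (t + 1)) 1 F)}) (13 * N + 2) := by
    intro x y t ht
    refine (us_step {s with
                     B := b, tau := x, u3 := y,
                     dat := (List.range N).map (sw (2 ^ (τ * (K + 2) - t)) (2 ^ t) 1 F)} cl.upd
                     b (q ^ (K - 2)) N _ hdiv rfl hb0 rfl).congr ?_ le_rfl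
    congr 1
    rw [pow_succ' 2 t, ← sw_comp₃ (by positivity) (by positivity), ← pow_succ', ← pow_add,
      show τ * (K + 2) - (t + 1) + 1 = τ * (K + 2) - t by omega,
      show τ * (K + 2) - (t + 1) + t = τ * (K + 2) - 1 by omega, ← hb]
  have h3 := w_for (Ω := mulOracle Mach C W.arg W.res) .tau .u3 (by decide) (body := Cmd.seq unsh unsh)
    (fun i => {s with
      B := b,
      dat := (List.range N).map (sw (2 ^ (τ * (K + 2) - 2 * i)) (2 ^ (2 * i)) 1 F)}) τ (26 * N + 4) (fun i hi x y => by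
      have hi2 : 2 * i + 2 ≤ τ * (K + 2) := by nlinarith
      have B := (pass x y (2 * i) (by omega)).seq (pass x y (2 * i + 1) (by omega))
      simp only [
          upd_arg, upd_dat, upd_acc, upd_t1, upd_t2, upd_t3, upd_res, upd_out, upd_cc, upd_n,
          upd_s, upd_L, upd_q, upd_tau, upd_K, upd_w, upd_z, upd_zb, upd_d, upd_db, upd_e, upd_v,
          upd_p, upd_i, upd_j, upd_a, upd_b, upd_B, upd_N, upd_m, upd_h, upd_u1, upd_u2, upd_u3,
          upd_u4, upd_u5, upd_u6, upd_x1, upd_x2, upd_x3, upd_x4, st_arg, st_dat, st_acc, st_t1,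
          st_t2, st_t3, st_res, st_out, st_cc, st_n, st_s, st_L, st_q, st_tau, st_K, st_w, st_z,
          st_zb, st_d, st_db, st_e, st_v, st_p, st_i, st_j, st_a, st_b, st_B, st_N, st_m, st_h,
          st_u1, st_u2, st_u3, st_u4, st_u5, st_u6, st_x1, st_x2, st_x3, st_x4]
      refine B.congr ?_ (by omega)
      congr 1)
  simp only [
      upd_arg, upd_dat, upd_acc, upd_t1, upd_t2, upd_t3, upd_res, upd_out, upd_cc, upd_n, upd_s,
      upd_L, upd_q, upd_tau, upd_K, upd_w, upd_z, upd_zb, upd_d, upd_db, upd_e, upd_v, upd_p,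
      upd_i, upd_j, upd_a, upd_b, upd_B, upd_N, upd_m, upd_h, upd_u1, upd_u2, upd_u3, upd_u4,
      upd_u5, upd_u6, upd_x1, upd_x2, upd_x3, upd_x4, st_arg, st_dat, st_acc, st_t1, st_t2, st_t3,
      st_res, st_out, st_cc, st_n, st_s, st_L, st_q, st_tau, st_K, st_w, st_z, st_zb, st_d, st_db,
      st_e, st_v, st_p, st_i, st_j, st_a, st_b, st_B, st_N, st_m, st_h, st_u1, st_u2, st_u3,
      st_u4, st_u5, st_u6, st_x1, st_x2, st_x3, st_x4] at h3
  have hsw0 : sw (2 ^ (τ * (K + 2) - 2 * 0)) (2 ^ (2 * 0)) 1 F = F := by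
    rw [mul_zero, pow_zero, sw_one (by positivity) one_pos]
  have h := h.seq (h3.cast (by
    congr 1
    have e : ∀ x y, x = s.tau → y = s.u3 → ({s with
      B := b, dat := (List.range N).map F, tau := x, u3 := y} : St) = {s with B := b, dat := (List.range N).map F} := by
        rintro _ _ rfl rfl; rfl
    rw [hsw0, e _ _ hsτ.symm hu3.symm]) rfl le_rfl)
  have h := h.seq (w_moveAll .dat .t1 (by decide) rfl rfl)
  simp only [
      upd_arg, upd_dat, upd_acc, upd_t1, upd_t2, upd_t3, upd_res, upd_out, upd_cc, upd_n, upd_s,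
      upd_L, upd_q, upd_tau, upd_K, upd_w, upd_z, upd_zb, upd_d, upd_db, upd_e, upd_v, upd_p,
      upd_i, upd_j, upd_a, upd_b, upd_B, upd_N, upd_m, upd_h, upd_u1, upd_u2, upd_u3, upd_u4,
      upd_u5, upd_u6, upd_x1, upd_x2, upd_x3, upd_x4, st_arg, st_dat, st_acc, st_t1, st_t2, st_t3,
      st_res, st_out, st_cc, st_n, st_s, st_L, st_q, st_tau, st_K, st_w, st_z, st_zb, st_d, st_db,
      st_e, st_v, st_p, st_i, st_j, st_a, st_b, st_B, st_N, st_m, st_h, st_u1, st_u2, st_u3,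
      st_u4, st_u5, st_u6, st_x1, st_x2, st_x3, st_x4] at h
  have h := h.seq (w_moveAll .t1 .out (by decide) rfl rfl)
  simp only [
      upd_arg, upd_dat, upd_acc, upd_t1, upd_t2, upd_t3, upd_res, upd_out, upd_cc, upd_n, upd_s,
      upd_L, upd_q, upd_tau, upd_K, upd_w, upd_z, upd_zb, upd_d, upd_db, upd_e, upd_v, upd_p,
      upd_i, upd_j, upd_a, upd_b, upd_B, upd_N, upd_m, upd_h, upd_u1, upd_u2, upd_u3, upd_u4,
      upd_u5, upd_u6, upd_x1, upd_x2, upd_x3, upd_x4, st_arg, st_dat, st_acc, st_t1, st_t2, st_t3,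
      st_res, st_out, st_cc, st_n, st_s, st_L, st_q, st_tau, st_K, st_w, st_z, st_zb, st_d, st_db,
      st_e, st_v, st_p, st_i, st_j, st_a, st_b, st_B, st_N, st_m, st_h, st_u1, st_u2, st_u3,
      st_u4, st_u5, st_u6, st_x1, st_x2, st_x3, st_x4] at h
  have hfin : sw (2 ^ (τ * (K + 2) - 2 * τ)) (2 ^ (2 * τ)) 1 F =
      sw m m 1 (fun p => a (p / m) (p % m)) := by
    have e1 : 2 ^ (τ * (K + 2) - 2 * τ) = q ^ K := by
      rw [hqq, ← pow_mul]; congr 1
      rw [show τ * (K + 2) = τ * K + 2 * τ by ring, Nat.add_sub_cancel]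
    have e2 : 2 ^ (2 * τ) = q ^ 2 := by rw [hqq, ← pow_mul]; congr 1; ring
    rw [e1, e2, hF, ← hqq]
    have := sw_comp₂ (p := q ^ K) (r := q ^ 2) (r' := q ^ (K - 2)) (s := 1) (by positivity)
      (by positivity) (by positivity) one_pos (fun p => a (p / m) (p % m))
    rw [one_mul] at this
    rw [this, ← pow_add, show K - 2 + 2 = K by omega, hm, ← hqq]
  refine ⟨_, ?_, h.mono ?_⟩
  · simp only [cl.t1, hout, List.append_nil, List.reverse_reverse]
    rw [hfin, ← hmm, rowMajor_transpose m a hm0]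
  · simp only [List.length_append, List.length_reverse, List.length_map, List.length_range, cl.t1,
      List.length_nil, add_zero]
    have hN1 : 1 ≤ N := by rw [hN]; exact Nat.one_le_pow _ _ hq
    have hZ : N ≤ (C + 1) * (T + N) := by nlinarith
    have e1 : 50000 * (C + 1) * (T + N) = 50000 * ((C + 1) * (T + N)) := by ring
    rw [e1]
    generalize (C + 1) * (T + N) = Z at *
    have e2 : K * (K * (50000 * Z + 28 * N + 16) + 2 * N + 12) =
      50000 * (K ^ 2 * Z) + 28 * (K ^ 2 * N) + 16 * K ^ 2 + 2 * (K * N) + 12 * K := by ring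
    have e3 : K * (14 * N + 8) = 14 * (K * N) + 8 * K := by ring
    have e4 : τ * (26 * N + 4 + 4) = 26 * (N * τ) + 8 * τ := by ring
    have e5 : 51000 * K ^ 2 * Z = 51000 * (K ^ 2 * Z) := by ring
    have f1 : K ^ 2 * N ≤ K ^ 2 * Z := Nat.mul_le_mul_left _ hZ
    have f2 : K ^ 2 ≤ K ^ 2 * N := Nat.le_mul_of_pos_right _ hN1
    have f3 : K ≤ K ^ 2 := by rw [pow_two]; exact Nat.le_mul_of_pos_right _ (by omega)
    have f4 : K * N ≤ K ^ 2 * N := Nat.mul_le_mul_right _ f3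
    have f5 : N ≤ K ^ 2 * N := Nat.le_mul_of_pos_left _ (by positivity)
    have f6 : τ ≤ N * τ := Nat.le_mul_of_pos_left _ hN1
    rw [e2, e3, e4, e5]
    generalize K ^ 2 * Z = a1 at *
    generalize K ^ 2 * N = a2 at *
    generalize K * N = a3 at *
    generalize K ^ 2 = a4 at *
    generalize N * τ = a5 at *
    omega

/-- MODULE MAIN: the fast algorithm. -/
theorem exists_main' (fastSt : List Bool → ℕ → ℕ → St)
    (hfast : ∀ w m h, fastSt w m h = {E with
      dat := w, m := m, x4 := 1,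
      K := 2 ^ padicValNat 2 (2 * h), tau := 2 * h / 2 ^ padicValNat 2 (2 * h),
      q := 2 ^ (2 * h / 2 ^ padicValNat 2 (2 * h)),
      L := 2 ^ (2 * h / 2 ^ padicValNat 2 (2 * h)) * 2 ^ (2 * h / 2 ^ padicValNat 2 (2 * h))}) :
    ∃ (main : Cmd W G) (C₁ : ℕ),
    ∀ (Mach : Machine) (C h T : ℕ) (a : ℕ → ℕ → Bool), 1 ≤ h →
      (∀ ν, 32 * 16 ^ h ≤ ν → ν ≤ 48 * 16 ^ h → Mach.mulTime ν ≤ T) →
      ∃ (s' : St) (k : ℕ), s'.out = rowMajor (4 ^ h) (fun i j => a j i) ∧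
        Run (mulOracle Mach C W.arg W.res) main
          (St.st (fastSt (rowMajor (4 ^ h) a) (4 ^ h) h)) s'.st k ∧
        k ≤ (51000 * (2 ^ padicValNat 2 (2 * h)) ^ 2) * (C + 1) * (T + 16 ^ h) +
          C₁ * 16 ^ h * (2 * h / 2 ^ padicValNat 2 (2 * h)) := by
  refine ⟨mainProg, 34, fun Mach C h T a hh hT => ?_⟩
  obtain ⟨κ, hκ⟩ : ∃ κ, κ = padicValNat 2 (2 * h) := ⟨_, rfl⟩
  obtain ⟨τ, hτ⟩ : ∃ τ, τ = 2 * h / 2 ^ κ := ⟨_, rfl⟩
  have hdvd : 2 ^ κ ∣ 2 * h := by rw [hκ]; exact pow_padicValNat_dvd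
  have hτK : τ * 2 ^ κ = 2 * h := by rw [hτ]; exact Nat.div_mul_cancel hdvd
  have hκ1 : 1 ≤ κ := by
    rw [hκ]
    exact one_le_padicValNat_of_dvd (by omega) (dvd_mul_right 2 h)
  have hτ1 : 1 ≤ τ := by
    rcases Nat.eq_zero_or_pos τ with h0 | h0
    · rw [h0] at hτK; omega
    · exact h0
  have hK2 : 2 ≤ 2 ^ κ := by
    calc 2 = 2 ^ 1 := rfl
      _ ≤ 2 ^ κ := Nat.pow_le_pow_right (by norm_num) hκ1
  have hN : 16 ^ h = (2 ^ τ) ^ (2 * 2 ^ κ) := by
    rw [← pow_mul, show τ * (2 * 2 ^ κ) = 4 * h by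
      rw [show τ * (2 * 2 ^ κ) = 2 * (τ * 2 ^ κ) by ring, hτK]; ring, pow_mul]
    norm_num
  have hm : 4 ^ h = (2 ^ τ) ^ 2 ^ κ := by
    rw [← pow_mul, hτK, pow_mul]
    norm_num
  have cl : Clean (fastSt (rowMajor (4 ^ h) a) (4 ^ h) h) := by
    rw [hfast]
    exact ⟨rfl, rfl, rfl, rfl, rfl, rfl, rfl, rfl, rfl, rfl, rfl, rfl, rfl, rfl, rfl, rfl, rfl, rfl,
      rfl, rfl, rfl⟩
  obtain ⟨s', h1, h2⟩ := run_main Mach C _ cl τ (2 ^ κ) T (16 ^ h) (4 ^ h) hτ1 hK2 a hN hm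
    (by rw [hfast]) (by rw [hfast]) (by rw [hfast, hκ]) (by rw [hfast]) (by rw [hfast])
    (by rw [hfast, hτ, hκ]) (by rw [hfast, hτ, hκ]) (by rw [hfast, hτ, hκ]) (by rw [hfast])
    (by rw [hfast]) hT
  refine ⟨s', _, h1, h2, ?_⟩
  rw [← hκ, ← hτ]
  exact le_of_eq (by ring)

end Vale.Agent.P338
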