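import Mathlib

/-! Algebraic identities for the transposition algorithm. -/

namespace Vale.Agent.P338

open Finset

namespace MathAux

variable {R : Type} [CommRing R]

theorem geom_prod (ζ : R) (N : ℕ) :
    ∑ k ∈ range (2 ^ N), ζ ^ k = ∏ b ∈ range N, (1 + ζ ^ (2 ^ b)) := by
  induction N with
  | zero => simp
  | succ N ih =>
    rw [prod_range_succ, ← ih, pow_succ, mul_two, sum_range_add]
    simp_rw [pow_add]
    rw [← mul_sum]
    ring

theorem orth (N : ℕ) (ω : R) (hω : ω ^ (2 ^ (N - 1)) = -1) (m : ℕ) (hm : ¬ 2 ^ N ∣ m) :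
    ∑ k ∈ range (2 ^ N), (ω ^ m) ^ k = 0 := by
  have hm0 : m ≠ 0 := by
    rintro rfl
    exact hm (dvd_zero _)
  obtain ⟨a, u, hu, rfl⟩ := Nat.exists_eq_two_pow_mul_odd hm0
  have ha : a < N := by
    by_contra h
    exact hm (Dvd.dvd.mul_right (pow_dvd_pow 2 (by omega)) u)
  rw [geom_prod]
  apply prod_eq_zero (i := N - 1 - a) (mem_range.2 (by omega))
  have h1 : (ω ^ (2 ^ a * u)) ^ (2 ^ (N - 1 - a)) = (ω ^ (2 ^ (N - 1))) ^ u := by
    rw [← pow_mul, ← pow_mul]
    congr 1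
    have h2 : 2 ^ (N - 1) = 2 ^ a * 2 ^ (N - 1 - a) := by
      rw [← pow_add]
      congr 1
      omega
    rw [h2]
    ring
  rw [h1, hω, hu.neg_one_pow]
  ring

theorem orth' (N : ℕ) (hN : 1 ≤ N) (ω : R) (hω : ω ^ (2 ^ (N - 1)) = -1) (m : ℕ)
    (hm : 2 ^ N ∣ m) : ∑ k ∈ range (2 ^ N), (ω ^ m) ^ k = 2 ^ N := by
  obtain ⟨c, rfl⟩ := hm
  have h1 : ω ^ (2 ^ N) = 1 := by
    obtain ⟨M, rfl⟩ : ∃ M, N = M + 1 := ⟨N - 1, by omega⟩
    rw [Nat.add_sub_cancel] at hω
    rw [pow_succ, pow_mul, hω]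
    norm_num
  rw [pow_mul, h1]
  simp

theorem double (N : ℕ) (hN : 1 ≤ N) (ω : R) (hω : ω ^ (2 ^ (N - 1)) = -1) (c : ℕ) (hc : Odd c)
    (x y z : ℕ → R)
    (hy : ∀ r < 2 ^ N, y r = ∑ k ∈ range (2 ^ N), x k * ω ^ (c * (k * r)))
    (hz : ∀ r < 2 ^ N, z r = ∑ k ∈ range (2 ^ N), y k * ω ^ (k * r))
    (m r : ℕ) (hm : m < 2 ^ N) (hr : r < 2 ^ N) (h : 2 ^ N ∣ c * m + r) :
    z r = 2 ^ N * x m := by
  rw [hz r hr]
  have h1 : ∑ k ∈ range (2 ^ N), y k * ω ^ (k * r) =
      ∑ j ∈ range (2 ^ N), x j * ∑ k ∈ range (2 ^ N), (ω ^ (c * j + r)) ^ k := by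
    simp_rw [mul_sum]
    rw [sum_comm]
    refine sum_congr rfl fun k hk => ?_
    rw [hy k (mem_range.1 hk), sum_mul]
    refine sum_congr rfl fun j _ => ?_
    rw [mul_assoc, ← pow_add, ← pow_mul]
    congr 2
    ring
  rw [h1, sum_eq_single m]
  · rw [orth' N hN ω hω _ h, mul_comm]
  · intro j hj hjm
    rw [orth N ω hω, mul_zero]
    intro hd
    apply hjm
    have hj' : j < 2 ^ N := mem_range.1 hj
    have h2 : c * j + r ≡ c * m + r [MOD 2 ^ N] :=
      (Nat.modEq_zero_iff_dvd.2 hd).trans (Nat.modEq_zero_iff_dvd.2 h).symm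
    have h3 : c * j ≡ c * m [MOD 2 ^ N] := Nat.ModEq.add_right_cancel' r h2
    have h4 : j ≡ m [MOD 2 ^ N] := by
      refine Nat.ModEq.cancel_left_of_coprime ?_ h3
      exact Nat.Coprime.pow_left N (Nat.coprime_two_left.2 hc)
    rw [Nat.ModEq, Nat.mod_eq_of_lt hj', Nat.mod_eq_of_lt hm] at h4
    exact h4
  · intro hm'
    exact absurd (mem_range.2 hm) hm'

end MathAux

open MathAux in
/-- Swapping two digits by four chirp transforms and one reversal. -/
theorem digit_swap {R : Type} [CommRing R] (τ s v : ℕ) (hτ : 1 ≤ τ) (h2 : (2 : R) ^ s = -1)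
    (hv : v * 4 ^ τ = 2 * s) (x : ℕ → R) (y₁ y₂ y₃ y₄ y₅ : ℕ → R)
    (h₁ : ∀ r < 4 ^ τ, y₁ r = ∑ k ∈ range (4 ^ τ), x k * 2 ^ ((2 * s - v * (1 + 2 ^ τ)) * (k * r)))
    (h₂ : ∀ r < 4 ^ τ, y₂ r = ∑ k ∈ range (4 ^ τ), y₁ k * 2 ^ (v * (k * r)))
    (h₃ : ∀ a < 2 ^ τ, ∀ c < 2 ^ τ, y₃ (a * 2 ^ τ + c) = y₂ (a * 2 ^ τ + (a + 2 ^ τ - c) % 2 ^ τ))
    (h₄ : ∀ r < 4 ^ τ, y₄ r = ∑ k ∈ range (4 ^ τ), y₃ k * 2 ^ (v * (2 ^ τ - 1) * (k * r)))
    (h₅ : ∀ r < 4 ^ τ, y₅ r = ∑ k ∈ range (4 ^ τ), y₄ k * 2 ^ (v * (k * r)))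
    (i j : ℕ) (hi : i < 2 ^ τ) (hj : j < 2 ^ τ) :
    y₅ (j * 2 ^ τ + i) = 2 ^ (4 * τ) * x (i * 2 ^ τ + j) := by
  have h4 : 4 ^ τ = 2 ^ (2 * τ) := by rw [pow_mul]; norm_num
  have hqq : 2 ^ (2 * τ) = 2 ^ τ * 2 ^ τ := by rw [two_mul, pow_add]
  rw [h4] at hv h₁ h₂ h₄ h₅
  obtain ⟨t, ht⟩ : ∃ t, 2 ^ τ = 2 * t := ⟨2 ^ (τ - 1), by
    rw [← pow_succ']
    congr 1
    omega⟩
  have hq2 : 2 ≤ 2 ^ τ := by
    calc 2 = 2 ^ 1 := rfl
      _ ≤ 2 ^ τ := Nat.pow_le_pow_right (by norm_num) hτ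
  set q := 2 ^ τ with hq
  have hω : ((2 : R) ^ v) ^ (2 ^ (2 * τ - 1)) = -1 := by
    rw [← pow_mul, ← h2]
    congr 1
    have h5 : 2 ^ (2 * τ) = 2 * 2 ^ (2 * τ - 1) := by
      rw [← pow_succ']
      congr 1
      omega
    rw [h5] at hv
    have : 2 * (v * 2 ^ (2 * τ - 1)) = 2 * s := by rw [← hv]; ring
    omega
  have hle : 1 + q ≤ q * q := by nlinarith
  have he : 2 * s - v * (1 + q) = v * (q * q - 1 - q) := by
    rw [← hv, hqq, Nat.sub_sub, Nat.mul_sub]
  have hodd1 : Odd (q * q - 1 - q) := by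
    rw [Nat.odd_iff]
    obtain ⟨e, hee⟩ : ∃ e, q * q = 2 * e := ⟨t * q, by rw [ht]; ring⟩
    omega
  have hodd2 : Odd (q - 1) := by
    rw [Nat.odd_iff]
    omega
  -- the indices
  set a := (i + j) % q with ha
  have haq : a < q := Nat.mod_lt _ (by omega)
  have hlt : ∀ b c, b < q → c < q → b * q + c < 2 ^ (2 * τ) := by
    intro b c hb hc
    rw [hqq]
    calc b * q + c < b * q + q := by omega
      _ = (b + 1) * q := by ring
      _ ≤ q * q := Nat.mul_le_mul_right _ hb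
  have key1 := double (2 * τ) (by omega) ((2 : R) ^ v) hω (q * q - 1 - q) hodd1 x y₁ y₂
    (fun r hr => by
      rw [h₁ r hr]
      refine sum_congr rfl fun k _ => ?_
      rw [he, ← pow_mul]
      congr 2
      ring)
    (fun r hr => by
      rw [h₂ r hr]
      refine sum_congr rfl fun k _ => ?_
      rw [← pow_mul])
    (i * q + j) (a * q + j) (hlt i j hi hj) (hlt a j haq hj) (by
      rw [hqq]
      obtain ⟨d, hd⟩ : ∃ d, q * q = 1 + q + d := ⟨q * q - 1 - q, by omega⟩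
      have hd' : q * q - 1 - q = d := by omega
      rw [hd']
      have hdiv := Nat.div_add_mod (i + j) q
      rw [← ha] at hdiv
      have hz : ((q * q : ℕ) : ℤ) ∣ ((d * (i * q + j) + (a * q + j) : ℕ) : ℤ) := by
        have hdz : (d : ℤ) = q * q - 1 - q := by
          have : ((q * q : ℕ) : ℤ) = 1 + q + d := by rw [hd]; push_cast; ring
          push_cast at this
          linarith
        have haz : (a : ℤ) = i + j - q * ((i + j) / q : ℕ) := by
          have : ((q * ((i + j) / q) + a : ℕ) : ℤ) = i + j := by rw [hdiv]; push_cast; ring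
          push_cast at this
          push_cast
          linarith
        push_cast
        refine ⟨i * q + j - i - ((i + j) / q : ℕ), ?_⟩
        rw [hdz, haz]
        push_cast
        ring
      exact_mod_cast hz)
  have key2 := double (2 * τ) (by omega) ((2 : R) ^ v) hω (q - 1) hodd2 y₃ y₄ y₅
    (fun r hr => by
      rw [h₄ r hr]
      refine sum_congr rfl fun k _ => ?_
      rw [← pow_mul]
      congr 2
      ring)
    (fun r hr => by
      rw [h₅ r hr]
      refine sum_congr rfl fun k _ => ?_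
      rw [← pow_mul])
    (a * q + i) (j * q + i) (hlt a i haq hi) (hlt j i hj hi) (by
      rw [hqq]
      obtain ⟨d, hd⟩ : ∃ d, q = 1 + d := ⟨q - 1, by omega⟩
      have hd' : q - 1 = d := by omega
      rw [hd']
      have hdiv := Nat.div_add_mod (i + j) q
      rw [← ha] at hdiv
      have hz : ((q * q : ℕ) : ℤ) ∣ ((d * (a * q + i) + (j * q + i) : ℕ) : ℤ) := by
        have hdz : (d : ℤ) = q - 1 := by
          have : (q : ℤ) = 1 + d := by exact_mod_cast hd
          linarith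
        have haz : (a : ℤ) = i + j - q * ((i + j) / q : ℕ) := by
          have : ((q * ((i + j) / q) + a : ℕ) : ℤ) = i + j := by rw [hdiv]; push_cast; ring
          push_cast at this
          push_cast
          linarith
        push_cast
        refine ⟨a + ((i + j) / q : ℕ), ?_⟩
        rw [hdz]
        have : (a : ℤ) * q * (q - 1) = a * q * q - a * q := by ring
        have h6 : (a : ℤ) * q = (i + j - q * ((i + j) / q : ℕ)) * q := by rw [← haz]
        push_cast at h6 ⊢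
        linear_combination (-1 : ℤ) * h6
      exact_mod_cast hz)
  have h6 : y₃ (a * q + i) = y₂ (a * q + j) := by
    rw [h₃ a haq i hi]
    congr 2
    have hdiv := Nat.div_add_mod (i + j) q
    rw [← ha] at hdiv
    have h7 : (i + j) / q = 0 ∨ (i + j) / q = 1 := by
      have : (i + j) / q < 2 := by
        rw [Nat.div_lt_iff_lt_mul (by omega)]
        omega
      exact Nat.le_one_iff_eq_zero_or_eq_one.1 (Nat.lt_succ_iff.1 this)
    rcases h7 with h7 | h7
    · rw [h7] at hdiv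
      have : a + q - i = j + q := by omega
      rw [this, Nat.add_mod_right, Nat.mod_eq_of_lt hj]
    · rw [h7] at hdiv
      have : a + q - i = j := by omega
      rw [this, Nat.mod_eq_of_lt hj]
  rw [key2, h6, key1, ← mul_assoc, ← pow_add]
  congr 2
  ring

/-- Bluestein's identity, the chirp running through all groups. -/
theorem chirp2 {R : Type} [CommRing R] (n s L w z₀ : ℕ) (hn : (2 : R) ^ n = 1) (hwn : w ≤ n)
    (hwL : (2 : R) ^ (w * L) = 1) (hs : (2 : R) ^ (s + w * (L * (L + 1) / 2)) = 1) (hL : 1 ≤ L)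
    (x x' y t : ℕ → R) (g r : ℕ) (hr : r < L)
    (hx : ∀ k, x' k * 2 ^ (w * (k * (k + 1) / 2)) = x k)
    (ht : ∀ p < 2 * L, t p = 2 ^ (s + w * (p * (p + 1) / 2)))
    (hy : y (g * L + r) * 2 ^ (z₀ + w * ((g * L + r) * (g * L + r - 1) / 2)) =
      ∑ k ∈ range L, x' (g * L + k) * t (L + k - r)) :
    y (g * L + r) * 2 ^ z₀ = ∑ k ∈ range L, x (g * L + k) * 2 ^ ((n - w) * (k * r)) := by
  set u : R := 2 ^ w with hu
  set u' : R := 2 ^ (n - w) with hu'
  have huu : u * u' = 1 := by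
    rw [hu, hu', ← pow_add, ← hn]
    congr 1
    omega
  have huL : u ^ L = 1 := by rw [hu, ← pow_mul, hwL]
  have tri : ∀ p : ℕ, 2 * (p * (p + 1) / 2) = p * (p + 1) := fun p =>
    Nat.mul_div_cancel' (Nat.even_mul_succ_self p).two_dvd
  have tri' : ∀ p : ℕ, 2 * (p * (p - 1) / 2) = p * (p - 1) := fun p =>
    Nat.mul_div_cancel' (Nat.even_mul_pred_self p).two_dvd
  set b := g * L + r with hb
  have hunit : IsUnit (u ^ (b * (b - 1) / 2)) :=
    (IsUnit.of_mul_eq_one u' huu).pow _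
  apply hunit.mul_right_cancel
  have e1 : y b * 2 ^ z₀ * u ^ (b * (b - 1) / 2) =
      ∑ k ∈ range L, x' (g * L + k) * t (L + k - r) := by
    rw [← hy, pow_add, hu, pow_mul]
    ring
  rw [e1, sum_mul]
  refine sum_congr rfl fun k hk => ?_
  have hk' : k < L := mem_range.1 hk
  rw [ht (L + k - r) (by omega), ← hx (g * L + k)]
  have e2 : (2 : R) ^ (w * ((g * L + k) * (g * L + k + 1) / 2)) =
      u ^ ((g * L + k) * (g * L + k + 1) / 2) := by rw [hu, ← pow_mul]
  have e3 : (2 : R) ^ (s + w * ((L + k - r) * (L + k - r + 1) / 2)) =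
      2 ^ s * u ^ ((L + k - r) * (L + k - r + 1) / 2) := by rw [hu, pow_add, ← pow_mul]
  have e4 : (2 : R) ^ ((n - w) * (k * r)) = u' ^ (k * r) := by rw [hu', ← pow_mul]
  rw [e2, e3, e4]
  have hs' : (2 : R) ^ s * u ^ (L * (L + 1) / 2) = 1 := by
    rw [hu, ← pow_mul, ← pow_add, hs]
  set p := L + k - r with hp
  set c := g * L + k with hc
  -- the key identity in the exponents
  have hnat : p * (p + 1) / 2 + c * b + L * b =
      L * (L + 1) / 2 + L * c + c * (c + 1) / 2 + b * (b - 1) / 2 := by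
    have h1 := tri p
    have h2 := tri L
    have h3 := tri c
    have h4 := tri' b
    have h5 : p + b = L + c := by omega
    generalize p * (p + 1) / 2 = A at h1 ⊢
    generalize L * (L + 1) / 2 = B at h2 ⊢
    generalize c * (c + 1) / 2 = C at h3 ⊢
    generalize b * (b - 1) / 2 = D at h4 ⊢
    clear_value p c b
    have h6 : 2 * (A + c * b + L * b) = 2 * (B + L * c + C + D) := by
      rcases Nat.eq_zero_or_pos b with hb0 | hb0
      · subst hb0
        have : p = L + c := by omega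
        subst this
        have h4' : D = 0 := by omega
        subst h4'
        linear_combination h1 - h2 - h3
      · obtain ⟨b', rfl⟩ : ∃ b', b = b' + 1 := ⟨b - 1, by omega⟩
        rw [Nat.add_sub_cancel] at h4
        zify at h1 h2 h3 h4 h5 ⊢
        have h7 : (p : ℤ) = L + c - b' - 1 := by linarith
        rw [h7] at h1
        linear_combination h1 - h2 - h3 - h4
    omega
  have hmod : u ^ (c * b) = u ^ (k * r) := by
    have : c * b = L * (g * g * L + g * r + g * k) + k * r := by rw [hc, hb]; ring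
    rw [this, pow_add, pow_mul, huL, one_pow, one_mul]
  have e5 : u ^ (p * (p + 1) / 2) * u ^ (k * r) =
      u ^ (L * (L + 1) / 2) * (u ^ (c * (c + 1) / 2) * u ^ (b * (b - 1) / 2)) := by
    have h8 : u ^ (p * (p + 1) / 2 + c * b + L * b) =
        u ^ (L * (L + 1) / 2 + L * c + c * (c + 1) / 2 + b * (b - 1) / 2) := by rw [hnat]
    rw [pow_add, pow_add, pow_add, pow_add, pow_add, hmod, pow_mul u L b, pow_mul u L c, huL,
      one_pow, one_pow, mul_one, mul_one] at h8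
    rw [h8]
    ring
  have e6 : u ^ (k * r) * u' ^ (k * r) = 1 := by rw [← mul_pow, huu, one_pow]
  calc x' c * (2 ^ s * u ^ (p * (p + 1) / 2))
      = x' c * (2 ^ s * u ^ (p * (p + 1) / 2)) * (u ^ (k * r) * u' ^ (k * r)) := by
        rw [e6, mul_one]
    _ = x' c * 2 ^ s * (u ^ (p * (p + 1) / 2) * u ^ (k * r)) * u' ^ (k * r) := by ring
    _ = x' c * (2 ^ s * u ^ (L * (L + 1) / 2)) *
        (u ^ (c * (c + 1) / 2) * u ^ (b * (b - 1) / 2)) * u' ^ (k * r) := by
        rw [e5]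
        ring
    _ = x' c * u ^ (c * (c + 1) / 2) * u' ^ (k * r) * u ^ (b * (b - 1) / 2) := by
        rw [hs']
        ring

end Vale.Agent.P338
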