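import Vale.Agent.Lib.P338.Trans2

/-! Passes over the data. -/

set_option linter.constructorNameAsVariable false

namespace Vale.Agent.P338

open Function

variable {Ω : (W → List G) → (W → List G) → ℕ → Prop}

/-- Run `body` on every word, then restore the order. -/
def passOf (body : Cmd W G) : Cmd W G := Cmd.seq (.loop (ne .dat) body) (moveAll .acc .dat)

theorem run_passOf {body : Cmd W G} (S : ℕ → St) (x y : ℕ → List Bool) (m c l : ℕ)
    (hx : ∀ k < m, x k ≠ []) (hy : ∀ k < m, (y k).length = l)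
    (hb : ∀ k < m, ∀ D A, Run Ω body (St.st {S k with dat := x k ++ D, acc := A})
      (St.st {S (k + 1) with dat := D, acc := (y k).reverse ++ A}) c) :
    Run Ω (passOf body) (St.st {S 0 with dat := seg x 0 m, acc := []})
      (St.st {S m with dat := seg y 0 m, acc := []}) (m * (c + 1) + 2 * (m * l) + 2) := by
  have h := run_pass (Ω := Ω) S x y m c [] hx hb
  have h := h.seq (w_moveAll .acc .dat (by decide) rfl rfl)
  simp only [
      upd_arg, upd_dat, upd_acc, upd_t1, upd_t2, upd_t3, upd_res, upd_out, upd_cc, upd_n, upd_s,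
      upd_L, upd_q, upd_tau, upd_K, upd_w, upd_z, upd_zb, upd_d, upd_db, upd_e, upd_v, upd_p,
      upd_i, upd_j, upd_a, upd_b, upd_B, upd_N, upd_m, upd_h, upd_u1, upd_u2, upd_u3, upd_u4,
      upd_u5, upd_u6, upd_x1, upd_x2, upd_x3, upd_x4, st_arg, st_dat, st_acc, st_t1, st_t2, st_t3,
      st_res, st_out, st_cc, st_n, st_s, st_L, st_q, st_tau, st_K, st_w, st_z, st_zb, st_d, st_db,
      st_e, st_v, st_p, st_i, st_j, st_a, st_b, st_B, st_N, st_m, st_h, st_u1, st_u2, st_u3,
      st_u4, st_u5, st_u6, st_x1, st_x2, st_x3, st_x4] at h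
  have hl := seg_length (x := y) (a := 0) (m := m) (n := l) (fun k _ hk => hy k (by omega))
  refine h.congr ?_ ?_
  · simp
  · simp only [List.append_nil, List.length_reverse, hl]
    omega

/-! ### expansion -/

/-- Add leading zeros. -/
def expand : Cmd W G := passOf (Cmd.seq (pushN (.bit false) .acc .s .u1) (takeN .dat .acc .s .u1))

theorem run_expand (s : St) (m : ℕ) (x : ℕ → List Bool) (hx : ∀ k < m, (x k).length = s.s)
    (hs : 0 < s.s) (hdat : s.dat = seg x 0 m) (hacc : s.acc = []) (hu : s.u1 = 0) :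
    Run Ω expand s.st
      (St.st {s with dat := seg (fun k => List.replicate s.s false ++ x k) 0 m})
      (m * (10 * s.s + 5) + 2 * (m * (s.s + s.s)) + 2) := by
  refine (run_passOf (Ω := Ω) (fun _ => s) x (fun k => List.replicate s.s false ++ x k) m
    (10 * s.s + 4) (s.s + s.s) ?_ ?_ ?_).cast ?_ ?_ le_rfl
  · intro k hk h
    have := hx k hk
    simp [h] at this
    omega
  · intro k hk
    rw [List.length_append, hx k hk, List.length_replicate]
  · intro k hk D A
    have h := w_pushN (Ω := Ω) false .acc .s .u1 (by decide) (f := St.st {s with dat := x k ++ D, acc := A})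
      rfl rfl (by simp [hu])
    simp only [
        upd_arg, upd_dat, upd_acc, upd_t1, upd_t2, upd_t3, upd_res, upd_out, upd_cc, upd_n, upd_s,
        upd_L, upd_q, upd_tau, upd_K, upd_w, upd_z, upd_zb, upd_d, upd_db, upd_e, upd_v, upd_p,
        upd_i, upd_j, upd_a, upd_b, upd_B, upd_N, upd_m, upd_h, upd_u1, upd_u2, upd_u3, upd_u4,
        upd_u5, upd_u6, upd_x1, upd_x2, upd_x3, upd_x4, st_arg, st_dat, st_acc, st_t1, st_t2,
        st_t3, st_res, st_out, st_cc, st_n, st_s, st_L, st_q, st_tau, st_K, st_w, st_z, st_zb,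
        st_d, st_db, st_e, st_v, st_p, st_i, st_j, st_a, st_b, st_B, st_N, st_m, st_h, st_u1,
        st_u2, st_u3, st_u4, st_u5, st_u6, st_x1, st_x2, st_x3, st_x4] at h
    have h := h.seq (w_take .dat .acc .s .u1 (by decide) (x k) D (hx k hk) rfl rfl rfl (by simp [hu]))
    simp only [
        upd_arg, upd_dat, upd_acc, upd_t1, upd_t2, upd_t3, upd_res, upd_out, upd_cc, upd_n, upd_s,
        upd_L, upd_q, upd_tau, upd_K, upd_w, upd_z, upd_zb, upd_d, upd_db, upd_e, upd_v, upd_p,
        upd_i, upd_j, upd_a, upd_b, upd_B, upd_N, upd_m, upd_h, upd_u1, upd_u2, upd_u3, upd_u4,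
        upd_u5, upd_u6, upd_x1, upd_x2, upd_x3, upd_x4, st_arg, st_dat, st_acc, st_t1, st_t2,
        st_t3, st_res, st_out, st_cc, st_n, st_s, st_L, st_q, st_tau, st_K, st_w, st_z, st_zb,
        st_d, st_db, st_e, st_v, st_p, st_i, st_j, st_a, st_b, st_B, st_N, st_m, st_h, st_u1,
        st_u2, st_u3, st_u4, st_u5, st_u6, st_x1, st_x2, st_x3, st_x4] at h
    refine h.congr ?_ (by omega)
    congr 1
    simp
  · congr 1
    cases s; simp_all
  · congr 1
    cases s; simp_all

/-! ### reversals -/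

/-- Move the words on `t1` to `acc`. -/
def revB : Cmd W G := .loop (ne .t1) (Cmd.seq (takeN .t1 .t2 .n .u1) (moveAll .t2 .acc))

theorem run_revB (x : ℕ → List Bool) (n j k : ℕ) (s : St) (hn : s.n = n) (hn0 : 0 < n)
    (hx : ∀ i, j ≤ i → i < j + k → (x i).length = n) (ht2 : s.t2 = []) (hu : s.u1 = 0)
    (A : List Bool) :
    Run Ω revB (St.st {s with t1 := (seg x j k).reverse, acc := A})
      (St.st {s with t1 := [], acc := (rseg (fun i => x (j + i)) k).reverse ++ A})
      (k * (7 * n + 4) + 1) := by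
  induction k generalizing A with
  | zero =>
    refine (Run.loop_done ?_).congr ?_ (by omega)
    · simp [ne, tops]
    · simp [rseg]
  | succ k ih =>
    have hl := hx (j + k) (by omega) (by omega)
    have h := w_take (Ω := Ω) .t1 .t2 .n .u1 (by decide) (f := St.st {s with
      t1 := (seg x j (k + 1)).reverse, acc := A}) (x (j + k)).reverse (seg x j k).reverse
      (k := n) (by rw [List.length_reverse, hl])
      (by rw [st_t1, seg_succ', List.reverse_append]) rfl (by simp [hn]) (by simp [hu])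
    simp only [
        upd_arg, upd_dat, upd_acc, upd_t1, upd_t2, upd_t3, upd_res, upd_out, upd_cc, upd_n, upd_s,
        upd_L, upd_q, upd_tau, upd_K, upd_w, upd_z, upd_zb, upd_d, upd_db, upd_e, upd_v, upd_p,
        upd_i, upd_j, upd_a, upd_b, upd_B, upd_N, upd_m, upd_h, upd_u1, upd_u2, upd_u3, upd_u4,
        upd_u5, upd_u6, upd_x1, upd_x2, upd_x3, upd_x4, st_arg, st_dat, st_acc, st_t1, st_t2,
        st_t3, st_res, st_out, st_cc, st_n, st_s, st_L, st_q, st_tau, st_K, st_w, st_z, st_zb,
        st_d, st_db, st_e, st_v, st_p, st_i, st_j, st_a, st_b, st_B, st_N, st_m, st_h, st_u1,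
        st_u2, st_u3, st_u4, st_u5, st_u6, st_x1, st_x2, st_x3, st_x4] at h
    have h := h.seq (w_moveAll .t2 .acc (by decide) rfl rfl)
    simp only [
        upd_arg, upd_dat, upd_acc, upd_t1, upd_t2, upd_t3, upd_res, upd_out, upd_cc, upd_n, upd_s,
        upd_L, upd_q, upd_tau, upd_K, upd_w, upd_z, upd_zb, upd_d, upd_db, upd_e, upd_v, upd_p,
        upd_i, upd_j, upd_a, upd_b, upd_B, upd_N, upd_m, upd_h, upd_u1, upd_u2, upd_u3, upd_u4,
        upd_u5, upd_u6, upd_x1, upd_x2, upd_x3, upd_x4, st_arg, st_dat, st_acc, st_t1, st_t2,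
        st_t3, st_res, st_out, st_cc, st_n, st_s, st_L, st_q, st_tau, st_K, st_w, st_z, st_zb,
        st_d, st_db, st_e, st_v, st_p, st_i, st_j, st_a, st_b, st_B, st_N, st_m, st_h, st_u1,
        st_u2, st_u3, st_u4, st_u5, st_u6, st_x1, st_x2, st_x3, st_x4] at h
    refine (Run.loop_step ?_ h ((ih (fun i h1 h2 => hx i h1 (by omega))
      ((x (j + k)).reverse ++ A)).cast ?_ rfl le_rfl)).congr ?_ ?_
    · have h1 : (seg x j (k + 1)).reverse ≠ [] := by
        rw [seg_succ', List.reverse_append]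
        intro h0
        have h2 := congrArg List.length h0
        simp only [List.length_append, List.length_reverse, hl, List.length_nil] at h2
        omega
      obtain ⟨a, l, hl⟩ := List.exists_cons_of_ne_nil h1
      simp [ne, tops, hl]
    · congr 1
      simp [ht2]
    · congr 1
      rw [rseg_succ, List.reverse_append, List.append_assoc]
    · simp only [List.length_append, List.length_reverse, hl, ht2, List.length_nil]
      ring_nf; omega

/-- One row. -/
def rowBody : Cmd W G :=
  Cmd.seq (Cmd.seq (Cmd.seq (Cmd.seq (forT .a .u2 (takeN .dat .t1 .n .u1)) revB) (forT .b .u2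
    (takeN .dat .t1 .n .u1))) revB) (.ite (ne .b) (mv .b .a) (Cmd.seq (moveAll .a .b) (mv .b .a)))

theorem run_takes_a (x : ℕ → List Bool) (n j k : ℕ) (s : St) (hn : s.n = n)
    (hx : ∀ i, j ≤ i → i < j + k → (x i).length = n) (D : List Bool)
    (hu : s.u1 = 0) (ht1 : s.t1 = []) (hRk : s.a = k) (hu2 : s.u2 = 0)
    (hd : s.dat = seg x j k ++ D) :
    Run Ω (forT .a .u2 (takeN .dat .t1 .n .u1)) s.st
      (St.st {s with dat := D, t1 := (seg x j k).reverse}) (k * (5 * n + 6) + 2) := by
  have h := w_for (Ω := Ω) .a .u2 (by decide) (body := takeN .dat .t1 .n .u1)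
    (fun i => {s with dat := seg x (j + i) (k - i) ++ D, t1 := (seg x j i).reverse})
    k (5 * n + 2) (fun i hi a b => by
      have hl := hx (j + i) (by omega) (by omega)
      have B := w_take (Ω := Ω) .dat .t1 .n .u1 (by decide)
        (f := St.st {s with
          dat := seg x (j + i) (k - i) ++ D, t1 := (seg x j i).reverse, a := a, u2 := b})
        (k := n) (x (j + i)) (seg x (j + (i + 1)) (k - (i + 1)) ++ D) (z := (seg x j i).reverse) hl
        (by
          rw [st_dat, ← List.append_assoc]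
          congr 2
          rw [show k - i = (k - (i + 1)) + 1 by omega, seg_succ, add_assoc])
        rfl (by simp [hn]) (by simp [hu])
      simp only [
          upd_arg, upd_dat, upd_acc, upd_t1, upd_t2, upd_t3, upd_res, upd_out, upd_cc, upd_n,
          upd_s, upd_L, upd_q, upd_tau, upd_K, upd_w, upd_z, upd_zb, upd_d, upd_db, upd_e, upd_v,
          upd_p, upd_i, upd_j, upd_a, upd_b, upd_B, upd_N, upd_m, upd_h, upd_u1, upd_u2, upd_u3,
          upd_u4, upd_u5, upd_u6, upd_x1, upd_x2, upd_x3, upd_x4, st_arg, st_dat, st_acc, st_t1,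
          st_t2, st_t3, st_res, st_out, st_cc, st_n, st_s, st_L, st_q, st_tau, st_K, st_w, st_z,
          st_zb, st_d, st_db, st_e, st_v, st_p, st_i, st_j, st_a, st_b, st_B, st_N, st_m, st_h,
          st_u1, st_u2, st_u3, st_u4, st_u5, st_u6, st_x1, st_x2, st_x3, st_x4] at B
      simp only [
          upd_arg, upd_dat, upd_acc, upd_t1, upd_t2, upd_t3, upd_res, upd_out, upd_cc, upd_n,
          upd_s, upd_L, upd_q, upd_tau, upd_K, upd_w, upd_z, upd_zb, upd_d, upd_db, upd_e, upd_v,
          upd_p, upd_i, upd_j, upd_a, upd_b, upd_B, upd_N, upd_m, upd_h, upd_u1, upd_u2, upd_u3,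
          upd_u4, upd_u5, upd_u6, upd_x1, upd_x2, upd_x3, upd_x4, st_arg, st_dat, st_acc, st_t1,
          st_t2, st_t3, st_res, st_out, st_cc, st_n, st_s, st_L, st_q, st_tau, st_K, st_w, st_z,
          st_zb, st_d, st_db, st_e, st_v, st_p, st_i, st_j, st_a, st_b, st_B, st_N, st_m, st_h,
          st_u1, st_u2, st_u3, st_u4, st_u5, st_u6, st_x1, st_x2, st_x3, st_x4]
      refine B.congr ?_ le_rfl
      rw [seg_succ', List.reverse_append])
  simp only [
      upd_arg, upd_dat, upd_acc, upd_t1, upd_t2, upd_t3, upd_res, upd_out, upd_cc, upd_n, upd_s,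
      upd_L, upd_q, upd_tau, upd_K, upd_w, upd_z, upd_zb, upd_d, upd_db, upd_e, upd_v, upd_p,
      upd_i, upd_j, upd_a, upd_b, upd_B, upd_N, upd_m, upd_h, upd_u1, upd_u2, upd_u3, upd_u4,
      upd_u5, upd_u6, upd_x1, upd_x2, upd_x3, upd_x4, st_arg, st_dat, st_acc, st_t1, st_t2, st_t3,
      st_res, st_out, st_cc, st_n, st_s, st_L, st_q, st_tau, st_K, st_w, st_z, st_zb, st_d, st_db,
      st_e, st_v, st_p, st_i, st_j, st_a, st_b, st_B, st_N, st_m, st_h, st_u1, st_u2, st_u3,
      st_u4, st_u5, st_u6, st_x1, st_x2, st_x3, st_x4] at h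
  refine h.cast ?_ ?_ (by ring_nf; omega)
  · congr 1
    cases s; simp_all
  · congr 1
    cases s; simp_all

theorem run_takes_b (x : ℕ → List Bool) (n j k : ℕ) (s : St) (hn : s.n = n)
    (hx : ∀ i, j ≤ i → i < j + k → (x i).length = n) (D : List Bool)
    (hu : s.u1 = 0) (ht1 : s.t1 = []) (hRk : s.b = k) (hu2 : s.u2 = 0)
    (hd : s.dat = seg x j k ++ D) :
    Run Ω (forT .b .u2 (takeN .dat .t1 .n .u1)) s.st
      (St.st {s with dat := D, t1 := (seg x j k).reverse}) (k * (5 * n + 6) + 2) := by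
  have h := w_for (Ω := Ω) .b .u2 (by decide) (body := takeN .dat .t1 .n .u1)
    (fun i => {s with dat := seg x (j + i) (k - i) ++ D, t1 := (seg x j i).reverse})
    k (5 * n + 2) (fun i hi a b => by
      have hl := hx (j + i) (by omega) (by omega)
      have B := w_take (Ω := Ω) .dat .t1 .n .u1 (by decide)
        (f := St.st {s with
          dat := seg x (j + i) (k - i) ++ D, t1 := (seg x j i).reverse, b := a, u2 := b})
        (k := n) (x (j + i)) (seg x (j + (i + 1)) (k - (i + 1)) ++ D) (z := (seg x j i).reverse) hl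
        (by
          rw [st_dat, ← List.append_assoc]
          congr 2
          rw [show k - i = (k - (i + 1)) + 1 by omega, seg_succ, add_assoc])
        rfl (by simp [hn]) (by simp [hu])
      simp only [
          upd_arg, upd_dat, upd_acc, upd_t1, upd_t2, upd_t3, upd_res, upd_out, upd_cc, upd_n,
          upd_s, upd_L, upd_q, upd_tau, upd_K, upd_w, upd_z, upd_zb, upd_d, upd_db, upd_e, upd_v,
          upd_p, upd_i, upd_j, upd_a, upd_b, upd_B, upd_N, upd_m, upd_h, upd_u1, upd_u2, upd_u3,
          upd_u4, upd_u5, upd_u6, upd_x1, upd_x2, upd_x3, upd_x4, st_arg, st_dat, st_acc, st_t1,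
          st_t2, st_t3, st_res, st_out, st_cc, st_n, st_s, st_L, st_q, st_tau, st_K, st_w, st_z,
          st_zb, st_d, st_db, st_e, st_v, st_p, st_i, st_j, st_a, st_b, st_B, st_N, st_m, st_h,
          st_u1, st_u2, st_u3, st_u4, st_u5, st_u6, st_x1, st_x2, st_x3, st_x4] at B
      simp only [
          upd_arg, upd_dat, upd_acc, upd_t1, upd_t2, upd_t3, upd_res, upd_out, upd_cc, upd_n,
          upd_s, upd_L, upd_q, upd_tau, upd_K, upd_w, upd_z, upd_zb, upd_d, upd_db, upd_e, upd_v,
          upd_p, upd_i, upd_j, upd_a, upd_b, upd_B, upd_N, upd_m, upd_h, upd_u1, upd_u2, upd_u3,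
          upd_u4, upd_u5, upd_u6, upd_x1, upd_x2, upd_x3, upd_x4, st_arg, st_dat, st_acc, st_t1,
          st_t2, st_t3, st_res, st_out, st_cc, st_n, st_s, st_L, st_q, st_tau, st_K, st_w, st_z,
          st_zb, st_d, st_db, st_e, st_v, st_p, st_i, st_j, st_a, st_b, st_B, st_N, st_m, st_h,
          st_u1, st_u2, st_u3, st_u4, st_u5, st_u6, st_x1, st_x2, st_x3, st_x4]
      refine B.congr ?_ le_rfl
      rw [seg_succ', List.reverse_append])
  simp only [
      upd_arg, upd_dat, upd_acc, upd_t1, upd_t2, upd_t3, upd_res, upd_out, upd_cc, upd_n, upd_s,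
      upd_L, upd_q, upd_tau, upd_K, upd_w, upd_z, upd_zb, upd_d, upd_db, upd_e, upd_v, upd_p,
      upd_i, upd_j, upd_a, upd_b, upd_B, upd_N, upd_m, upd_h, upd_u1, upd_u2, upd_u3, upd_u4,
      upd_u5, upd_u6, upd_x1, upd_x2, upd_x3, upd_x4, st_arg, st_dat, st_acc, st_t1, st_t2, st_t3,
      st_res, st_out, st_cc, st_n, st_s, st_L, st_q, st_tau, st_K, st_w, st_z, st_zb, st_d, st_db,
      st_e, st_v, st_p, st_i, st_j, st_a, st_b, st_B, st_N, st_m, st_h, st_u1, st_u2, st_u3,
      st_u4, st_u5, st_u6, st_x1, st_x2, st_x3, st_x4] at h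
  refine h.cast ?_ ?_ (by ring_nf; omega)
  · congr 1
    cases s; simp_all
  · congr 1
    cases s; simp_all

/-- The source of entry `k` under the reversals. -/
def ropIx (q k : ℕ) : ℕ := k / q * q + (k / q % q + q - k % q) % q

theorem rop_row (q row : ℕ) (x : ℕ → List Bool) (hq : 0 < q) :
    seg (fun k => x (ropIx q k)) (q * row) q =
      rseg (fun i => x (q * row + i)) (row % q + 1) ++
        rseg (fun i => x (q * row + (row % q + 1) + i)) (q - 1 - row % q) := by
  have hr : row % q < q := Nat.mod_lt _ hq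
  have key : ∀ (y : ℕ → List Bool) (k : ℕ), rseg y k = seg (fun i => y (k - 1 - i)) 0 k := by
    intro y k
    induction k generalizing y with
    | zero => rfl
    | succ k ih =>
      rw [seg_succ, rseg_succ, ih]
      congr 1
      rw [← seg_shift (fun i => y (k + 1 - 1 - i)) 0 1 k]
      · refine seg_congr fun i _ _ => ?_
        congr 1
        omega
  have h0 : q = (row % q + 1) + (q - 1 - row % q) := by omega
  conv_lhs => rw [show seg (fun k => x (ropIx q k)) (q * row) q =
    seg (fun k => x (ropIx q k)) (q * row) ((row % q + 1) + (q - 1 - row % q)) by rw [← h0]]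
  rw [seg_add, key, key]
  congr 1
  · rw [show q * row = q * row + 0 by rfl, ← seg_shift]
    refine seg_congr fun i _ hi => ?_
    have h1 : (q * row + i) / q = row := by
      rw [Nat.mul_add_div hq, Nat.div_eq_of_lt (by omega), add_zero]
    have h2 : (q * row + i) % q = i := by
      rw [Nat.mul_add_mod, Nat.mod_eq_of_lt (by omega)]
    rw [ropIx, h1, h2, show row % q + q - i = (row % q - i) + q by omega, Nat.add_mod_right,
      Nat.mod_eq_of_lt (by omega)]
    congr 1
    rw [mul_comm row q]; omega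
  · rw [show q * row + (row % q + 1) = q * row + (row % q + 1) + 0 by rfl, ← seg_shift]
    refine seg_congr fun i _ hi => ?_
    have h1 : (q * row + (row % q + 1) + i) / q = row := by
      rw [add_assoc, Nat.mul_add_div hq, Nat.div_eq_of_lt (by omega), add_zero]
    have h2 : (q * row + (row % q + 1) + i) % q = row % q + 1 + i := by
      rw [add_assoc, Nat.mul_add_mod, Nat.mod_eq_of_lt (by omega)]
    rw [ropIx, h1, h2, Nat.mod_eq_of_lt (by omega)]
    congr 1
    rw [mul_comm row q]; omega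

theorem run_rowBody (s : St) (q row n : ℕ) (x : ℕ → List Bool) (hq : 0 < q) (hn : s.n = n)
    (hn0 : 0 < n) (hx : ∀ i, q * row ≤ i → i < q * row + q → (x i).length = n)
    (ha : s.a = row % q + 1) (hb : s.b = q - 1 - row % q)
    (ht1 : s.t1 = []) (ht2 : s.t2 = []) (hu : s.u1 = 0) (hu2 : s.u2 = 0) (D : List Bool)
    (hd : s.dat = seg x (q * row) q ++ D) :
    Run Ω rowBody s.st
      (St.st {s with
        dat := D, acc := (seg (fun k => x (ropIx q k)) (q * row) q).reverse ++ s.acc,
        a := (row + 1) % q + 1, b := q - 1 - (row + 1) % q}) (q * (12 * n + 14) + 10) := by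
  have hr : row % q < q := Nat.mod_lt _ hq
  have h0 : q = (row % q + 1) + (q - 1 - row % q) := by omega
  have hd' : s.dat = seg x (q * row) (row % q + 1) ++
      (seg x (q * row + (row % q + 1)) (q - 1 - row % q) ++ D) := by
    rw [hd, ← List.append_assoc, ← seg_add, ← h0]
  have h := run_takes_a (Ω := Ω) x n (q * row) (row % q + 1) s hn
    (fun i h1 h2 => hx i h1 (by omega)) _ hu ht1 ha hu2 hd'
  have h := h.seq (run_revB x n (q * row) (row % q + 1) {s with
    dat := seg x (q * row + (row % q + 1)) (q - 1 - row % q) ++ D} hn hn0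
    (fun i h1 h2 => hx i h1 (by omega)) ht2 hu s.acc)
  have h := h.seq (run_takes_b x n (q * row + (row % q + 1)) (q - 1 - row % q) {s with
    dat := seg x (q * row + (row % q + 1)) (q - 1 - row % q) ++ D, t1 := [],
    acc := (rseg (fun i => x (q * row + i)) (row % q + 1)).reverse ++ s.acc} hn
    (fun i h1 h2 => hx i (by omega) (by omega)) D hu rfl hb hu2 rfl)
  have h := h.seq (run_revB x n (q * row + (row % q + 1)) (q - 1 - row % q) {s with
    dat := D} hn hn0 (fun i h1 h2 => hx i (by omega) (by omega)) ht2 hu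
    ((rseg (fun i => x (q * row + i)) (row % q + 1)).reverse ++ s.acc))
  have e1 : (rseg (fun i => x (q * row + (row % q + 1) + i)) (q - 1 - row % q)).reverse ++
      ((rseg (fun i => x (q * row + i)) (row % q + 1)).reverse ++ s.acc) =
      (seg (fun k => x (ropIx q k)) (q * row) q).reverse ++ s.acc := by
    rw [rop_row q row x hq, List.reverse_append, List.append_assoc]
  rw [e1] at h
  by_cases hlast : row % q + 1 = q
  · -- end of a group
    have hm : (row + 1) % q = 0 := by
      rw [Nat.add_mod]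
      rcases Nat.lt_or_ge 1 q with h1 | h1
      · rw [Nat.mod_eq_of_lt h1, hlast, Nat.mod_self]
      · have : q = 1 := by omega
        subst this; simp [Nat.mod_one]
    have A := t_moveAll (Ω := Ω) .a .b (by decide) (f := St.st {s with
      dat := D, t1 := [], acc := (seg (fun k => x (ropIx q k)) (q * row) q).reverse ++ s.acc})
      rfl rfl
    simp only [
        upd_arg, upd_dat, upd_acc, upd_t1, upd_t2, upd_t3, upd_res, upd_out, upd_cc, upd_n, upd_s,
        upd_L, upd_q, upd_tau, upd_K, upd_w, upd_z, upd_zb, upd_d, upd_db, upd_e, upd_v, upd_p,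
        upd_i, upd_j, upd_a, upd_b, upd_B, upd_N, upd_m, upd_h, upd_u1, upd_u2, upd_u3, upd_u4,
        upd_u5, upd_u6, upd_x1, upd_x2, upd_x3, upd_x4, st_arg, st_dat, st_acc, st_t1, st_t2,
        st_t3, st_res, st_out, st_cc, st_n, st_s, st_L, st_q, st_tau, st_K, st_w, st_z, st_zb,
        st_d, st_db, st_e, st_v, st_p, st_i, st_j, st_a, st_b, st_B, st_N, st_m, st_h, st_u1,
        st_u2, st_u3, st_u4, st_u5, st_u6, st_x1, st_x2, st_x3, st_x4] at A
    have A := A.seq (t_mv .b .a (by decide) (q - 1) (by simp only [st_b]; congr 1; omega) rfl)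
    simp only [
        upd_arg, upd_dat, upd_acc, upd_t1, upd_t2, upd_t3, upd_res, upd_out, upd_cc, upd_n, upd_s,
        upd_L, upd_q, upd_tau, upd_K, upd_w, upd_z, upd_zb, upd_d, upd_db, upd_e, upd_v, upd_p,
        upd_i, upd_j, upd_a, upd_b, upd_B, upd_N, upd_m, upd_h, upd_u1, upd_u2, upd_u3, upd_u4,
        upd_u5, upd_u6, upd_x1, upd_x2, upd_x3, upd_x4, st_arg, st_dat, st_acc, st_t1, st_t2,
        st_t3, st_res, st_out, st_cc, st_n, st_s, st_L, st_q, st_tau, st_K, st_w, st_z, st_zb,
        st_d, st_db, st_e, st_v, st_p, st_i, st_j, st_a, st_b, st_B, st_N, st_m, st_h, st_u1,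
        st_u2, st_u3, st_u4, st_u5, st_u6, st_x1, st_x2, st_x3, st_x4] at A
    have h := h.seq (Run.ite_false (t := ne .b) (a := mv .b .a) (by
      have hb0 : s.b = 0 := by omega
      simp [ne, tops, hb0]) A)
    refine h.congr ?_ ?_
    · congr 1
      rw [hm]
      clear h0 hd' e1 hx h A hd
      cases s; simp_all
    · have e2 : (row % q + 1) * (5 * n + 6) + 2 + ((row % q + 1) * (7 * n + 4) + 1) +
        ((q - 1 - row % q) * (5 * n + 6) + 2) + ((q - 1 - row % q) * (7 * n + 4) + 1) =
        q * (12 * n + 10) + 6 := by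
        rw [show q - 1 - row % q = 0 by omega, hlast]; ring
      have e3 : q * (12 * n + 10) + 4 * q = q * (12 * n + 14) := by ring
      omega
  · have hm : (row + 1) % q = row % q + 1 := by
      rw [Nat.add_mod, Nat.mod_eq_of_lt (show 1 < q by omega), Nat.mod_eq_of_lt (by omega)]
    obtain ⟨b', hb'⟩ : ∃ b', s.b = b' + 1 := ⟨s.b - 1, by omega⟩
    have A := t_mv (Ω := Ω) .b .a (by decide) (f := St.st {s with
      dat := D, t1 := [], acc := (seg (fun k => x (ropIx q k)) (q * row) q).reverse ++ s.acc})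
      b' (by simp [hb']) rfl
    simp only [
        upd_arg, upd_dat, upd_acc, upd_t1, upd_t2, upd_t3, upd_res, upd_out, upd_cc, upd_n, upd_s,
        upd_L, upd_q, upd_tau, upd_K, upd_w, upd_z, upd_zb, upd_d, upd_db, upd_e, upd_v, upd_p,
        upd_i, upd_j, upd_a, upd_b, upd_B, upd_N, upd_m, upd_h, upd_u1, upd_u2, upd_u3, upd_u4,
        upd_u5, upd_u6, upd_x1, upd_x2, upd_x3, upd_x4, st_arg, st_dat, st_acc, st_t1, st_t2,
        st_t3, st_res, st_out, st_cc, st_n, st_s, st_L, st_q, st_tau, st_K, st_w, st_z, st_zb,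
        st_d, st_db, st_e, st_v, st_p, st_i, st_j, st_a, st_b, st_B, st_N, st_m, st_h, st_u1,
        st_u2, st_u3, st_u4, st_u5, st_u6, st_x1, st_x2, st_x3, st_x4] at A
    have h := h.seq (Run.ite_true (t := ne .b) (b := Cmd.seq (moveAll .a .b) (mv .b .a)) (by
      simp [ne, tops, hb', ticks_succ]) A)
    refine h.congr ?_ ?_
    · congr 1
      rw [hm]
      have hbb : b' = q - 1 - (row % q + 1) := by omega
      subst hbb
      simp only [ht1, ha]
    · have e2 : (row % q + 1) * (5 * n + 6) + 2 + ((row % q + 1) * (7 * n + 4) + 1) +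
        ((q - 1 - row % q) * (5 * n + 6) + 2) + ((q - 1 - row % q) * (7 * n + 4) + 1) =
        ((row % q + 1) + (q - 1 - row % q)) * (12 * n + 10) + 6 := by ring
      rw [← h0] at e2
      have e3 : q * (12 * n + 10) + 4 * q = q * (12 * n + 14) := by ring
      omega

theorem seg_rows (x : ℕ → List Bool) (q m : ℕ) :
    seg (fun row => seg x (q * row) q) 0 m = seg x 0 (m * q) := by
  induction m with
  | zero => simp
  | succ m ih => rw [seg_succ', ih, Nat.add_mul, one_mul, seg_add, zero_add, zero_add, mul_comm]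

/-- The reversals: in row `a` of a group, reverse the first `a + 1` entries and the others. -/
def rop : Cmd W G :=
  Cmd.seq (Cmd.seq (Cmd.seq (Cmd.seq (Cmd.seq (push .tick .a) (copy .q .b .u1)) (pop .b)) (passOf
    rowBody)) (clear .a)) (clear .b)

theorem run_rop (s : St) (q m n : ℕ) (x : ℕ → List Bool) (hq : s.q = q) (hq0 : 0 < q)
    (hn : s.n = n) (hn0 : 0 < n) (hx : ∀ k < m * q, (x k).length = n)
    (hdat : s.dat = seg x 0 (m * q)) (hacc : s.acc = []) (ha : s.a = 0) (hb : s.b = 0)
    (ht1 : s.t1 = []) (ht2 : s.t2 = []) (hu : s.u1 = 0) (hu2 : s.u2 = 0) :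
    Run Ω rop s.st (St.st {s with dat := seg (fun k => x (ropIx q k)) 0 (m * q)})
      (8 * q + m * (q * (12 * n + 14) + 11) + 2 * (m * (q * n)) + 10) := by
  have hbd : ∀ row < m, ∀ i, i < q * row + q → i < m * q := by
    intro row hrow i hi
    calc i < q * row + q := hi
      _ = (row + 1) * q := by ring
      _ ≤ m * q := Nat.mul_le_mul_right _ hrow
  have h := t_push (Ω := Ω) .a (f := s.st) rfl
  simp only [
      upd_arg, upd_dat, upd_acc, upd_t1, upd_t2, upd_t3, upd_res, upd_out, upd_cc, upd_n, upd_s,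
      upd_L, upd_q, upd_tau, upd_K, upd_w, upd_z, upd_zb, upd_d, upd_db, upd_e, upd_v, upd_p,
      upd_i, upd_j, upd_a, upd_b, upd_B, upd_N, upd_m, upd_h, upd_u1, upd_u2, upd_u3, upd_u4,
      upd_u5, upd_u6, upd_x1, upd_x2, upd_x3, upd_x4, st_arg, st_dat, st_acc, st_t1, st_t2, st_t3,
      st_res, st_out, st_cc, st_n, st_s, st_L, st_q, st_tau, st_K, st_w, st_z, st_zb, st_d, st_db,
      st_e, st_v, st_p, st_i, st_j, st_a, st_b, st_B, st_N, st_m, st_h, st_u1, st_u2, st_u3,
      st_u4, st_u5, st_u6, st_x1, st_x2, st_x3, st_x4] at h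
  have h := h.seq (t_copy .q .b .u1 (by decide) rfl rfl (by simp [hu]))
  simp only [
      upd_arg, upd_dat, upd_acc, upd_t1, upd_t2, upd_t3, upd_res, upd_out, upd_cc, upd_n, upd_s,
      upd_L, upd_q, upd_tau, upd_K, upd_w, upd_z, upd_zb, upd_d, upd_db, upd_e, upd_v, upd_p,
      upd_i, upd_j, upd_a, upd_b, upd_B, upd_N, upd_m, upd_h, upd_u1, upd_u2, upd_u3, upd_u4,
      upd_u5, upd_u6, upd_x1, upd_x2, upd_x3, upd_x4, st_arg, st_dat, st_acc, st_t1, st_t2, st_t3,
      st_res, st_out, st_cc, st_n, st_s, st_L, st_q, st_tau, st_K, st_w, st_z, st_zb, st_d, st_db,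
      st_e, st_v, st_p, st_i, st_j, st_a, st_b, st_B, st_N, st_m, st_h, st_u1, st_u2, st_u3,
      st_u4, st_u5, st_u6, st_x1, st_x2, st_x3, st_x4] at h
  have h := h.seq (t_pop .b (q - 1) (by simp only [st_b, hb, hq]; congr 1; omega))
  simp only [
      upd_arg, upd_dat, upd_acc, upd_t1, upd_t2, upd_t3, upd_res, upd_out, upd_cc, upd_n, upd_s,
      upd_L, upd_q, upd_tau, upd_K, upd_w, upd_z, upd_zb, upd_d, upd_db, upd_e, upd_v, upd_p,
      upd_i, upd_j, upd_a, upd_b, upd_B, upd_N, upd_m, upd_h, upd_u1, upd_u2, upd_u3, upd_u4,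
      upd_u5, upd_u6, upd_x1, upd_x2, upd_x3, upd_x4, st_arg, st_dat, st_acc, st_t1, st_t2, st_t3,
      st_res, st_out, st_cc, st_n, st_s, st_L, st_q, st_tau, st_K, st_w, st_z, st_zb, st_d, st_db,
      st_e, st_v, st_p, st_i, st_j, st_a, st_b, st_B, st_N, st_m, st_h, st_u1, st_u2, st_u3,
      st_u4, st_u5, st_u6, st_x1, st_x2, st_x3, st_x4] at h
  have P := run_passOf (Ω := Ω) (body := rowBody)
    (fun row => {s with a := row % q + 1, b := q - 1 - row % q})
    (fun row => seg x (q * row) q) (fun row => seg (fun k => x (ropIx q k)) (q * row) q) m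
    (q * (12 * n + 14) + 10) (q * n)
    (fun row hrow => by
      refine seg_ne_nil hq0 ?_
      intro h0
      have := hx (q * row) (hbd row hrow _ (by omega))
      rw [h0] at this
      simp at this
      omega)
    (fun row hrow => by
      rw [seg_length (n := n)]
      intro k h1 h2
      have hk : k / q = row := by
        rw [Nat.div_eq_iff hq0]
        constructor
        · rw [mul_comm]; omega
        · rw [mul_comm]; omega
      refine hx _ (hbd row hrow _ ?_)
      rw [ropIx, hk, mul_comm row q]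
      have := Nat.mod_lt (row % q + q - k % q) hq0
      omega)
    (fun row hrow D A => run_rowBody {s with
      a := row % q + 1, b := q - 1 - row % q,
      dat := seg x (q * row) q ++ D, acc := A} q row n x hq0 hn hn0
      (fun i h1 h2 => hx i (hbd row hrow _ h2)) rfl rfl ht1 ht2 hu hu2 D rfl)
  simp only [seg_rows] at P
  have h := h.seq (P.cast (by
    congr 1
    simp only [Nat.zero_mod, hdat, hacc, ha, zero_add]
    congr 1) rfl le_rfl)
  have h := h.seq (t_clear .a rfl)
  simp only [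
      upd_arg, upd_dat, upd_acc, upd_t1, upd_t2, upd_t3, upd_res, upd_out, upd_cc, upd_n, upd_s,
      upd_L, upd_q, upd_tau, upd_K, upd_w, upd_z, upd_zb, upd_d, upd_db, upd_e, upd_v, upd_p,
      upd_i, upd_j, upd_a, upd_b, upd_B, upd_N, upd_m, upd_h, upd_u1, upd_u2, upd_u3, upd_u4,
      upd_u5, upd_u6, upd_x1, upd_x2, upd_x3, upd_x4, st_arg, st_dat, st_acc, st_t1, st_t2, st_t3,
      st_res, st_out, st_cc, st_n, st_s, st_L, st_q, st_tau, st_K, st_w, st_z, st_zb, st_d, st_db,
      st_e, st_v, st_p, st_i, st_j, st_a, st_b, st_B, st_N, st_m, st_h, st_u1, st_u2, st_u3,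
      st_u4, st_u5, st_u6, st_x1, st_x2, st_x3, st_x4] at h
  have h := h.seq (t_clear .b rfl)
  simp only [
      upd_arg, upd_dat, upd_acc, upd_t1, upd_t2, upd_t3, upd_res, upd_out, upd_cc, upd_n, upd_s,
      upd_L, upd_q, upd_tau, upd_K, upd_w, upd_z, upd_zb, upd_d, upd_db, upd_e, upd_v, upd_p,
      upd_i, upd_j, upd_a, upd_b, upd_B, upd_N, upd_m, upd_h, upd_u1, upd_u2, upd_u3, upd_u4,
      upd_u5, upd_u6, upd_x1, upd_x2, upd_x3, upd_x4, st_arg, st_dat, st_acc, st_t1, st_t2, st_t3,
      st_res, st_out, st_cc, st_n, st_s, st_L, st_q, st_tau, st_K, st_w, st_z, st_zb, st_d, st_db,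
      st_e, st_v, st_p, st_i, st_j, st_a, st_b, st_B, st_N, st_m, st_h, st_u1, st_u2, st_u3,
      st_u4, st_u5, st_u6, st_x1, st_x2, st_x3, st_x4] at h
  refine h.congr ?_ ?_
  · congr 1
    cases s; simp_all
  · have hr : m % q < q := Nat.mod_lt _ hq0
    have e : m * (q * (12 * n + 14) + 10 + 1) = m * (q * (12 * n + 14) + 11) := by ring
    rw [hq]
    omega

/-! ### from `2 s` to `s` bits -/

/-- Move the complement of a bit. -/
def notStep : Cmd W G := .act fun t x => match x with
  | .dat => .pop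
  | .res => .push (.bit !(gb (t .dat)))
  | _ => .nop

theorem run_notStep (s : St) {x : Bool} {a : List Bool} (h1 : s.dat = x :: a) :
    Run Ω notStep s.st (St.st {s with dat := a, res := (!x) :: s.res}) 1 := by
  refine (Run.act _ _).congr ?_ le_rfl
  funext i
  cases i <;> simp [tops, Op.app, gb, h1]

/-- Complement the carry. -/
def notCc : Cmd W G := .act fun t x => match x with
  | .cc => .rep (.bit !(gb (t .cc)))
  | _ => .nop

theorem run_notCc (s : St) {c : Bool} (h1 : s.cc = [c]) :
    Run Ω notCc s.st (St.st {s with cc := [!c]}) 1 := by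
  refine (Run.act _ _).congr ?_ le_rfl
  funext i
  cases i <;> simp [tops, Op.app, gb, h1]

/-- `x₀ - x₁`, plus one if there is a borrow. -/
def cvL (a b : List Bool) : List Bool × Bool :=
  incL (addL a (b.map not) true).1 (!(addL a (b.map not) true).2)

/-- Reduce one entry. -/
def cvBody : Cmd W G :=
  Cmd.seq (Cmd.seq (Cmd.seq (Cmd.seq (Cmd.seq (Cmd.seq (Cmd.seq (Cmd.seq (Cmd.seq (Cmd.seq (forT
    .n .u1 notStep) (takeN .dat .t1 .n .u1)) (push (.bit true) .cc)) (.loop (ne .n) (Cmd.seq (mv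
    .n .u1) addStep))) (moveAll .u1 .n)) (moveAll .t2 .t1)) notCc) (.loop (ne .n) (Cmd.seq (mv .n
    .u1) incStep))) (moveAll .u1 .n)) (moveAll .t2 .acc)) (pop .cc)

theorem run_cvBody (s : St) (x1 x0 D : List Bool) (h1 : x1.length = s.n) (h0 : x0.length = s.n)
    (hd : s.dat = x1 ++ (x0 ++ D)) (ht1 : s.t1 = []) (ht2 : s.t2 = []) (hres : s.res = [])
    (hcc : s.cc = []) (hu : s.u1 = 0) :
    Run Ω cvBody s.st (St.st {s with dat := D, acc := (cvL x0.reverse x1.reverse).1 ++ s.acc})
      (40 * s.n + 20) := by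
  have h := w_for (Ω := Ω) .n .u1 (by decide) (body := notStep)
    (fun i => {s with dat := x1.drop i ++ (x0 ++ D), res := ((x1.take i).map not).reverse})
    s.n 1 (fun i hi a b => by
      have hi' : i < x1.length := by omega
      have B := run_notStep (Ω := Ω) {s with
        dat := x1.drop i ++ (x0 ++ D), res := ((x1.take i).map not).reverse, n := a, u1 := b}
        (x := x1[i]) (a := x1.drop (i + 1) ++ (x0 ++ D))
        (by simp only []; rw [← List.cons_append, List.getElem_cons_drop])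
      simp only [
          upd_arg, upd_dat, upd_acc, upd_t1, upd_t2, upd_t3, upd_res, upd_out, upd_cc, upd_n,
          upd_s, upd_L, upd_q, upd_tau, upd_K, upd_w, upd_z, upd_zb, upd_d, upd_db, upd_e, upd_v,
          upd_p, upd_i, upd_j, upd_a, upd_b, upd_B, upd_N, upd_m, upd_h, upd_u1, upd_u2, upd_u3,
          upd_u4, upd_u5, upd_u6, upd_x1, upd_x2, upd_x3, upd_x4, st_arg, st_dat, st_acc, st_t1,
          st_t2, st_t3, st_res, st_out, st_cc, st_n, st_s, st_L, st_q, st_tau, st_K, st_w, st_z,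
          st_zb, st_d, st_db, st_e, st_v, st_p, st_i, st_j, st_a, st_b, st_B, st_N, st_m, st_h,
          st_u1, st_u2, st_u3, st_u4, st_u5, st_u6, st_x1, st_x2, st_x3, st_x4]
      refine B.congr ?_ le_rfl
      congr 1
      have e : ((x1.take (i + 1)).map not).reverse = (!x1[i]) :: ((x1.take i).map not).reverse := by
        rw [List.take_add_one, List.map_append, List.reverse_append]; simp [hi']
      rw [e])
  simp only [
      upd_arg, upd_dat, upd_acc, upd_t1, upd_t2, upd_t3, upd_res, upd_out, upd_cc, upd_n, upd_s,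
      upd_L, upd_q, upd_tau, upd_K, upd_w, upd_z, upd_zb, upd_d, upd_db, upd_e, upd_v, upd_p,
      upd_i, upd_j, upd_a, upd_b, upd_B, upd_N, upd_m, upd_h, upd_u1, upd_u2, upd_u3, upd_u4,
      upd_u5, upd_u6, upd_x1, upd_x2, upd_x3, upd_x4, st_arg, st_dat, st_acc, st_t1, st_t2, st_t3,
      st_res, st_out, st_cc, st_n, st_s, st_L, st_q, st_tau, st_K, st_w, st_z, st_zb, st_d, st_db,
      st_e, st_v, st_p, st_i, st_j, st_a, st_b, st_B, st_N, st_m, st_h, st_u1, st_u2, st_u3,
      st_u4, st_u5, st_u6, st_x1, st_x2, st_x3, st_x4] at h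
  have hs : ({s with dat := x1.drop 0 ++ (x0 ++ D), res := ((x1.take 0).map not).reverse,
                     n := s.n, u1 := 0} : St) = s := by
    cases s; simp_all
  rw [hs] at h
  have h := h.seq (w_take .dat .t1 .n .u1 (by decide) x0 D h0 (by simp [← h1]) rfl rfl rfl)
  simp only [
      upd_arg, upd_dat, upd_acc, upd_t1, upd_t2, upd_t3, upd_res, upd_out, upd_cc, upd_n, upd_s,
      upd_L, upd_q, upd_tau, upd_K, upd_w, upd_z, upd_zb, upd_d, upd_db, upd_e, upd_v, upd_p,
      upd_i, upd_j, upd_a, upd_b, upd_B, upd_N, upd_m, upd_h, upd_u1, upd_u2, upd_u3, upd_u4,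
      upd_u5, upd_u6, upd_x1, upd_x2, upd_x3, upd_x4, st_arg, st_dat, st_acc, st_t1, st_t2, st_t3,
      st_res, st_out, st_cc, st_n, st_s, st_L, st_q, st_tau, st_K, st_w, st_z, st_zb, st_d, st_db,
      st_e, st_v, st_p, st_i, st_j, st_a, st_b, st_B, st_N, st_m, st_h, st_u1, st_u2, st_u3,
      st_u4, st_u5, st_u6, st_x1, st_x2, st_x3, st_x4] at h
  have h := h.seq (w_push true .cc rfl)
  simp only [
      upd_arg, upd_dat, upd_acc, upd_t1, upd_t2, upd_t3, upd_res, upd_out, upd_cc, upd_n, upd_s,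
      upd_L, upd_q, upd_tau, upd_K, upd_w, upd_z, upd_zb, upd_d, upd_db, upd_e, upd_v, upd_p,
      upd_i, upd_j, upd_a, upd_b, upd_B, upd_N, upd_m, upd_h, upd_u1, upd_u2, upd_u3, upd_u4,
      upd_u5, upd_u6, upd_x1, upd_x2, upd_x3, upd_x4, st_arg, st_dat, st_acc, st_t1, st_t2, st_t3,
      st_res, st_out, st_cc, st_n, st_s, st_L, st_q, st_tau, st_K, st_w, st_z, st_zb, st_d, st_db,
      st_e, st_v, st_p, st_i, st_j, st_a, st_b, st_B, st_N, st_m, st_h, st_u1, st_u2, st_u3,
      st_u4, st_u5, st_u6, st_x1, st_x2, st_x3, st_x4] at h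
  obtain ⟨c1, hc1⟩ : ∃ c1, c1 = x1.reverse.map not := ⟨_, rfl⟩
  have hl : x0.reverse.length = c1.length := by simp [hc1]; omega
  have hal := addL_length x0.reverse c1 true hl
  have h := h.seq ((run_addLoop x0.reverse c1 [] true hl {s with
      dat := D, t1 := x0.reverse, res := c1, cc := [true], u1 := 0}
      rfl (by simp) rfl (by simp [h0])).cast (by
        congr 1
        simp [← h1, ht1, hcc, hc1]) rfl le_rfl)
  simp only [
      upd_arg, upd_dat, upd_acc, upd_t1, upd_t2, upd_t3, upd_res, upd_out, upd_cc, upd_n, upd_s,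
      upd_L, upd_q, upd_tau, upd_K, upd_w, upd_z, upd_zb, upd_d, upd_db, upd_e, upd_v, upd_p,
      upd_i, upd_j, upd_a, upd_b, upd_B, upd_N, upd_m, upd_h, upd_u1, upd_u2, upd_u3, upd_u4,
      upd_u5, upd_u6, upd_x1, upd_x2, upd_x3, upd_x4, st_arg, st_dat, st_acc, st_t1, st_t2, st_t3,
      st_res, st_out, st_cc, st_n, st_s, st_L, st_q, st_tau, st_K, st_w, st_z, st_zb, st_d, st_db,
      st_e, st_v, st_p, st_i, st_j, st_a, st_b, st_B, st_N, st_m, st_h, st_u1, st_u2, st_u3,
      st_u4, st_u5, st_u6, st_x1, st_x2, st_x3, st_x4] at h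
  have h := h.seq (t_moveAll .u1 .n (by decide) rfl rfl)
  simp only [
      upd_arg, upd_dat, upd_acc, upd_t1, upd_t2, upd_t3, upd_res, upd_out, upd_cc, upd_n, upd_s,
      upd_L, upd_q, upd_tau, upd_K, upd_w, upd_z, upd_zb, upd_d, upd_db, upd_e, upd_v, upd_p,
      upd_i, upd_j, upd_a, upd_b, upd_B, upd_N, upd_m, upd_h, upd_u1, upd_u2, upd_u3, upd_u4,
      upd_u5, upd_u6, upd_x1, upd_x2, upd_x3, upd_x4, st_arg, st_dat, st_acc, st_t1, st_t2, st_t3,
      st_res, st_out, st_cc, st_n, st_s, st_L, st_q, st_tau, st_K, st_w, st_z, st_zb, st_d, st_db,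
      st_e, st_v, st_p, st_i, st_j, st_a, st_b, st_B, st_N, st_m, st_h, st_u1, st_u2, st_u3,
      st_u4, st_u5, st_u6, st_x1, st_x2, st_x3, st_x4] at h
  have h := h.seq (w_moveAll .t2 .t1 (by decide) rfl rfl)
  simp only [
      upd_arg, upd_dat, upd_acc, upd_t1, upd_t2, upd_t3, upd_res, upd_out, upd_cc, upd_n, upd_s,
      upd_L, upd_q, upd_tau, upd_K, upd_w, upd_z, upd_zb, upd_d, upd_db, upd_e, upd_v, upd_p,
      upd_i, upd_j, upd_a, upd_b, upd_B, upd_N, upd_m, upd_h, upd_u1, upd_u2, upd_u3, upd_u4,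
      upd_u5, upd_u6, upd_x1, upd_x2, upd_x3, upd_x4, st_arg, st_dat, st_acc, st_t1, st_t2, st_t3,
      st_res, st_out, st_cc, st_n, st_s, st_L, st_q, st_tau, st_K, st_w, st_z, st_zb, st_d, st_db,
      st_e, st_v, st_p, st_i, st_j, st_a, st_b, st_B, st_N, st_m, st_h, st_u1, st_u2, st_u3,
      st_u4, st_u5, st_u6, st_x1, st_x2, st_x3, st_x4] at h
  have h := h.seq (run_notCc _ rfl)
  simp only [
      upd_arg, upd_dat, upd_acc, upd_t1, upd_t2, upd_t3, upd_res, upd_out, upd_cc, upd_n, upd_s,
      upd_L, upd_q, upd_tau, upd_K, upd_w, upd_z, upd_zb, upd_d, upd_db, upd_e, upd_v, upd_p,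
      upd_i, upd_j, upd_a, upd_b, upd_B, upd_N, upd_m, upd_h, upd_u1, upd_u2, upd_u3, upd_u4,
      upd_u5, upd_u6, upd_x1, upd_x2, upd_x3, upd_x4, st_arg, st_dat, st_acc, st_t1, st_t2, st_t3,
      st_res, st_out, st_cc, st_n, st_s, st_L, st_q, st_tau, st_K, st_w, st_z, st_zb, st_d, st_db,
      st_e, st_v, st_p, st_i, st_j, st_a, st_b, st_B, st_N, st_m, st_h, st_u1, st_u2, st_u3,
      st_u4, st_u5, st_u6, st_x1, st_x2, st_x3, st_x4] at h
  have h := h.seq (run_incLoop (addL x0.reverse c1 true).1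
    (!(addL x0.reverse c1 true).2) _ (by simp [ht2]) rfl
    (by simp [hal]))
  simp only [
      upd_arg, upd_dat, upd_acc, upd_t1, upd_t2, upd_t3, upd_res, upd_out, upd_cc, upd_n, upd_s,
      upd_L, upd_q, upd_tau, upd_K, upd_w, upd_z, upd_zb, upd_d, upd_db, upd_e, upd_v, upd_p,
      upd_i, upd_j, upd_a, upd_b, upd_B, upd_N, upd_m, upd_h, upd_u1, upd_u2, upd_u3, upd_u4,
      upd_u5, upd_u6, upd_x1, upd_x2, upd_x3, upd_x4, st_arg, st_dat, st_acc, st_t1, st_t2, st_t3,
      st_res, st_out, st_cc, st_n, st_s, st_L, st_q, st_tau, st_K, st_w, st_z, st_zb, st_d, st_db,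
      st_e, st_v, st_p, st_i, st_j, st_a, st_b, st_B, st_N, st_m, st_h, st_u1, st_u2, st_u3,
      st_u4, st_u5, st_u6, st_x1, st_x2, st_x3, st_x4] at h
  have h := h.seq (t_moveAll .u1 .n (by decide) rfl rfl)
  simp only [
      upd_arg, upd_dat, upd_acc, upd_t1, upd_t2, upd_t3, upd_res, upd_out, upd_cc, upd_n, upd_s,
      upd_L, upd_q, upd_tau, upd_K, upd_w, upd_z, upd_zb, upd_d, upd_db, upd_e, upd_v, upd_p,
      upd_i, upd_j, upd_a, upd_b, upd_B, upd_N, upd_m, upd_h, upd_u1, upd_u2, upd_u3, upd_u4,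
      upd_u5, upd_u6, upd_x1, upd_x2, upd_x3, upd_x4, st_arg, st_dat, st_acc, st_t1, st_t2, st_t3,
      st_res, st_out, st_cc, st_n, st_s, st_L, st_q, st_tau, st_K, st_w, st_z, st_zb, st_d, st_db,
      st_e, st_v, st_p, st_i, st_j, st_a, st_b, st_B, st_N, st_m, st_h, st_u1, st_u2, st_u3,
      st_u4, st_u5, st_u6, st_x1, st_x2, st_x3, st_x4] at h
  have h := h.seq (w_moveAll .t2 .acc (by decide) rfl rfl)
  simp only [
      upd_arg, upd_dat, upd_acc, upd_t1, upd_t2, upd_t3, upd_res, upd_out, upd_cc, upd_n, upd_s,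
      upd_L, upd_q, upd_tau, upd_K, upd_w, upd_z, upd_zb, upd_d, upd_db, upd_e, upd_v, upd_p,
      upd_i, upd_j, upd_a, upd_b, upd_B, upd_N, upd_m, upd_h, upd_u1, upd_u2, upd_u3, upd_u4,
      upd_u5, upd_u6, upd_x1, upd_x2, upd_x3, upd_x4, st_arg, st_dat, st_acc, st_t1, st_t2, st_t3,
      st_res, st_out, st_cc, st_n, st_s, st_L, st_q, st_tau, st_K, st_w, st_z, st_zb, st_d, st_db,
      st_e, st_v, st_p, st_i, st_j, st_a, st_b, st_B, st_N, st_m, st_h, st_u1, st_u2, st_u3,
      st_u4, st_u5, st_u6, st_x1, st_x2, st_x3, st_x4] at h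
  have h := h.seq (w_pop .cc _ [] rfl)
  simp only [
      upd_arg, upd_dat, upd_acc, upd_t1, upd_t2, upd_t3, upd_res, upd_out, upd_cc, upd_n, upd_s,
      upd_L, upd_q, upd_tau, upd_K, upd_w, upd_z, upd_zb, upd_d, upd_db, upd_e, upd_v, upd_p,
      upd_i, upd_j, upd_a, upd_b, upd_B, upd_N, upd_m, upd_h, upd_u1, upd_u2, upd_u3, upd_u4,
      upd_u5, upd_u6, upd_x1, upd_x2, upd_x3, upd_x4, st_arg, st_dat, st_acc, st_t1, st_t2, st_t3,
      st_res, st_out, st_cc, st_n, st_s, st_L, st_q, st_tau, st_K, st_w, st_z, st_zb, st_d, st_db,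
      st_e, st_v, st_p, st_i, st_j, st_a, st_b, st_B, st_N, st_m, st_h, st_u1, st_u2, st_u3,
      st_u4, st_u5, st_u6, st_x1, st_x2, st_x3, st_x4] at h
  refine h.congr ?_ ?_
  · congr 1
    rw [cvL, ← hc1]
    simp only [hal, List.length_reverse, h0, ht1, ht2, hres, hcc, hu, List.append_nil,
      List.reverse_reverse, zero_add, add_zero]
  · simp only [hal, incL_length, List.length_append, List.length_reverse, ht2, List.length_nil,
      h0, List.append_nil]
    omega

/-- The reduction of one entry, as a function. -/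
def cvW (n : ℕ) (l : List Bool) : List Bool :=
  (cvL (l.drop n).reverse (l.take n).reverse).1.reverse

/-- The reduction of all entries. -/
def cvt : Cmd W G := passOf cvBody

theorem cvW_length {n : ℕ} {l : List Bool} (hl : l.length = 2 * n) : (cvW n l).length = n := by
  rw [cvW, List.length_reverse, cvL, incL_length, addL_length]
  · simp; omega
  · simp; omega

theorem run_cvt (s : St) (m n : ℕ) (x : ℕ → List Bool) (hn : s.n = n) (hn0 : 0 < n)
    (hx : ∀ k < m, (x k).length = 2 * n) (hdat : s.dat = seg x 0 m) (hacc : s.acc = [])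
    (ht1 : s.t1 = []) (ht2 : s.t2 = []) (hres : s.res = [])
    (hcc : s.cc = []) (hu : s.u1 = 0) :
    Run Ω cvt s.st (St.st {s with dat := seg (fun k => cvW n (x k)) 0 m})
      (m * (40 * n + 21) + 2 * (m * n) + 2) := by
  refine (run_passOf (Ω := Ω) (fun _ => s) x (fun k => cvW n (x k)) m
    (40 * n + 20) n ?_ ?_ ?_).cast ?_ ?_ le_rfl
  · intro k hk h
    have := hx k hk
    simp [h] at this
    omega
  · intro k hk
    exact cvW_length (hx k hk)
  · intro k hk D A
    have hl := hx k hk
    refine (run_cvBody (Ω := Ω) {s with dat := x k ++ D, acc := A} ((x k).take n) ((x k).drop n) D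
      (by simp [hn]; omega) (by simp [hn]; omega)
      (by simp only []; rw [← List.append_assoc, List.take_append_drop]) ht1 ht2 hres hcc
      hu).congr ?_ (by simp only [hn]; omega)
    congr 1
    simp [cvW]
  · congr 1
    cases s; simp_all
  · congr 1
    cases s; simp_all

theorem lv_map_not (l : List Bool) : lv (l.map not) + lv l + 1 = 2 ^ l.length := by
  induction l with
  | nil => simp [lv]
  | cons a l ih =>
    simp only [List.map_cons, lv, List.length_cons, pow_succ]
    have : (!a).toNat + a.toNat = 1 := by cases a <;> rfl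
    omega

theorem bin_val (l : List Bool) : bin l.length (val l) = l := by
  induction l with
  | nil => rfl
  | cons a l ih =>
    have h1 : ∀ k z, bin (k + 1) z = z.testBit k :: bin k z := by
      intro k z
      rw [bin, List.range_succ_eq_map, List.map_cons, List.map_map, bin]
      congr 1
      refine List.map_congr_left fun i _ => ?_
      simp only [Function.comp]
      congr 1
      omega
    have h2 := val_lt l
    rw [List.length_cons, h1, val_cons]
    have h3 : bin l.length (a.toNat * 2 ^ l.length + val l) = bin l.length (val l) := by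
      unfold bin
      refine List.map_congr_left fun i hi => ?_
      rw [List.mem_range] at hi
      rw [mul_comm, Nat.testBit_two_pow_mul_add _ h2, if_pos (by omega)]
    have h4 : (a.toNat * 2 ^ l.length + val l).testBit l.length = a := by
      rw [mul_comm, Nat.testBit_two_pow_mul_add _ h2, if_neg (by omega), Nat.sub_self]
      cases a <;> rfl
    rw [h3, h4, ih]

/-- The reduction is correct if the entry is congruent to a number of `n` bits. -/
theorem cvW_spec {n X : ℕ} {l : List Bool} (hl : l.length = 2 * n) (hX : X < 2 ^ n)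
    (h : val l ≡ X [MOD (2 ^ n + 1)]) : cvW n l = bin n X := by
  have hlen := cvW_length hl
  rw [← bin_val (cvW n l), hlen]
  congr 1
  rw [cvW, val_reverse, cvL]
  have hsplit : val l = val (l.take n) * 2 ^ n + val (l.drop n) := by
    conv_lhs => rw [← List.take_append_drop n l, val_append]
    congr 3
    simp; omega
  have l1 : (l.take n).length = n := by simp; omega
  have l0 : (l.drop n).length = n := by simp; omega
  have b1 := val_lt (l.take n)
  have b0 := val_lt (l.drop n)
  rw [l1] at b1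
  rw [l0] at b0
  have hl2 : (l.drop n).reverse.length = ((l.take n).reverse.map not).length := by
    simp; omega
  have a1 := addL_val (l.drop n).reverse ((l.take n).reverse.map not) true hl2
  have a2 := lv_map_not (l.take n).reverse
  have a3 := incL_val (addL (l.drop n).reverse ((l.take n).reverse.map not) true).1
    (!(addL (l.drop n).reverse ((l.take n).reverse.map not) true).2)
  have a4 := addL_length (l.drop n).reverse ((l.take n).reverse.map not) true hl2
  have a5 := lv_lt (incL (addL (l.drop n).reverse ((l.take n).reverse.map not) true).1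
    (!(addL (l.drop n).reverse ((l.take n).reverse.map not) true).2)).1
  have a6 := lv_lt (addL (l.drop n).reverse ((l.take n).reverse.map not) true).1
  rw [incL_length] at a5
  rw [a4] at a3 a5 a6
  simp only [List.length_reverse, l0, l1, lv_reverse, Bool.toNat_true] at a1 a2 a3 a5 a6
  set x1 := val (l.take n)
  set x0 := val (l.drop n)
  set c := (addL (l.drop n).reverse ((l.take n).reverse.map not) true).2
  set S := lv (addL (l.drop n).reverse ((l.take n).reverse.map not) true).1
  set T := lv (incL (addL (l.drop n).reverse ((l.take n).reverse.map not) true).1 (!c)).1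
  set c' := (incL (addL (l.drop n).reverse ((l.take n).reverse.map not) true).1 (!c)).2
  set P := 2 ^ n
  have key : x0 + (P + 1) ≡ X + x1 [MOD (P + 1)] := by
    have e1 : val l + x1 = x1 * (P + 1) + x0 := by rw [hsplit]; ring
    have e2 : val l + x1 ≡ X + x1 [MOD (P + 1)] := h.add_right _
    rw [e1] at e2
    have e3 : x0 + (P + 1) ≡ x1 * (P + 1) + x0 [MOD (P + 1)] := by
      unfold Nat.ModEq
      rw [Nat.add_mod_right, Nat.mul_add_mod_self_right]
    exact e3.trans e2
  have key2 : X + x1 = x0 ∨ X + x1 = x0 + (P + 1) := by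
    rcases le_total (X + x1) (x0 + (P + 1)) with hle | hle
    · obtain ⟨k, hk⟩ := (Nat.modEq_iff_dvd' hle).1 key.symm
      have hk2 : k < 2 := by
        by_contra hk2
        have : (P + 1) * 2 ≤ (P + 1) * k := Nat.mul_le_mul_left _ (by omega)
        omega
      interval_cases k <;> omega
    · obtain ⟨k, hk⟩ := (Nat.modEq_iff_dvd' hle).1 key
      have hk2 : k < 1 := by
        by_contra hk2
        have : (P + 1) * 1 ≤ (P + 1) * k := Nat.mul_le_mul_left _ (by omega)
        omega
      interval_cases k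
      omega
  rcases hc : c with _ | _ <;> rcases hc' : c' with _ | _ <;>
    simp only [hc, hc', Bool.toNat_true, Bool.toNat_false, mul_one, mul_zero, add_zero,
      Bool.not_false, Bool.not_true] at * <;> omega

/-! ### evens first -/

/-- One block. -/
def usBody : Cmd W G :=
  Cmd.seq (Cmd.seq (Cmd.seq (Cmd.seq (forT .B .u1 (Cmd.seq (mv .dat .t1) (mv .dat .t2))) (moveAll
    .t1 .t3)) (moveAll .t3 .acc)) (moveAll .t2 .t3)) (moveAll .t3 .acc)

theorem run_usBody (s : St) (b : ℕ) (g : ℕ → Bool) (D : List Bool) (hb : s.B = b)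
    (hd : s.dat = (List.range (2 * b)).map g ++ D) (ht1 : s.t1 = []) (ht2 : s.t2 = [])
    (ht3 : s.t3 = []) (hu : s.u1 = 0) :
    Run Ω usBody s.st (St.st {s with
      dat := D,
      acc := ((List.range b).map (fun i => g (2 * i)) ++
        (List.range b).map (fun i => g (2 * i + 1))).reverse ++ s.acc}) (14 * b + 6) := by
  have h := w_for (Ω := Ω) .B .u1 (by decide) (body := Cmd.seq (mv .dat .t1) (mv .dat .t2))
    (fun i => {s with dat := (List.range' (2 * i) (2 * b - 2 * i)).map g ++ D,
                      t1 := ((List.range i).map (fun i => g (2 * i))).reverse,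
                      t2 := ((List.range i).map (fun i => g (2 * i + 1))).reverse})
    b 2 (fun i hi x y => by
      have e : (List.range' (2 * i) (2 * b - 2 * i)).map g ++ D = g (2 * i) :: (g (2 * i + 1) ::
          ((List.range' (2 * (i + 1)) (2 * b - 2 * (i + 1))).map g ++ D)) := by
        rw [show 2 * b - 2 * i = (2 * b - 2 * (i + 1)) + 1 + 1 by omega, List.range'_succ,
          List.range'_succ]
        simp only [List.map_cons, List.cons_append]
        rfl
      have B := w_mv (Ω := Ω) .dat .t1 (by decide) (f := St.st {s with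
        dat := (List.range' (2 * i) (2 * b - 2 * i)).map g ++ D,
        t1 := ((List.range i).map (fun i => g (2 * i))).reverse,
        t2 := ((List.range i).map (fun i => g (2 * i + 1))).reverse, B := x, u1 := y})
        _ _ (by rw [st_dat, e]) rfl
      simp only [
          upd_arg, upd_dat, upd_acc, upd_t1, upd_t2, upd_t3, upd_res, upd_out, upd_cc, upd_n,
          upd_s, upd_L, upd_q, upd_tau, upd_K, upd_w, upd_z, upd_zb, upd_d, upd_db, upd_e, upd_v,
          upd_p, upd_i, upd_j, upd_a, upd_b, upd_B, upd_N, upd_m, upd_h, upd_u1, upd_u2, upd_u3,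
          upd_u4, upd_u5, upd_u6, upd_x1, upd_x2, upd_x3, upd_x4, st_arg, st_dat, st_acc, st_t1,
          st_t2, st_t3, st_res, st_out, st_cc, st_n, st_s, st_L, st_q, st_tau, st_K, st_w, st_z,
          st_zb, st_d, st_db, st_e, st_v, st_p, st_i, st_j, st_a, st_b, st_B, st_N, st_m, st_h,
          st_u1, st_u2, st_u3, st_u4, st_u5, st_u6, st_x1, st_x2, st_x3, st_x4] at B
      have B := B.seq (w_mv .dat .t2 (by decide) _ _ rfl rfl)
      simp only [
          upd_arg, upd_dat, upd_acc, upd_t1, upd_t2, upd_t3, upd_res, upd_out, upd_cc, upd_n,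
          upd_s, upd_L, upd_q, upd_tau, upd_K, upd_w, upd_z, upd_zb, upd_d, upd_db, upd_e, upd_v,
          upd_p, upd_i, upd_j, upd_a, upd_b, upd_B, upd_N, upd_m, upd_h, upd_u1, upd_u2, upd_u3,
          upd_u4, upd_u5, upd_u6, upd_x1, upd_x2, upd_x3, upd_x4, st_arg, st_dat, st_acc, st_t1,
          st_t2, st_t3, st_res, st_out, st_cc, st_n, st_s, st_L, st_q, st_tau, st_K, st_w, st_z,
          st_zb, st_d, st_db, st_e, st_v, st_p, st_i, st_j, st_a, st_b, st_B, st_N, st_m, st_h,
          st_u1, st_u2, st_u3, st_u4, st_u5, st_u6, st_x1, st_x2, st_x3, st_x4] at B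
      simp only [
          upd_arg, upd_dat, upd_acc, upd_t1, upd_t2, upd_t3, upd_res, upd_out, upd_cc, upd_n,
          upd_s, upd_L, upd_q, upd_tau, upd_K, upd_w, upd_z, upd_zb, upd_d, upd_db, upd_e, upd_v,
          upd_p, upd_i, upd_j, upd_a, upd_b, upd_B, upd_N, upd_m, upd_h, upd_u1, upd_u2, upd_u3,
          upd_u4, upd_u5, upd_u6, upd_x1, upd_x2, upd_x3, upd_x4, st_arg, st_dat, st_acc, st_t1,
          st_t2, st_t3, st_res, st_out, st_cc, st_n, st_s, st_L, st_q, st_tau, st_K, st_w, st_z,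
          st_zb, st_d, st_db, st_e, st_v, st_p, st_i, st_j, st_a, st_b, st_B, st_N, st_m, st_h,
          st_u1, st_u2, st_u3, st_u4, st_u5, st_u6, st_x1, st_x2, st_x3, st_x4]
      refine B.congr ?_ le_rfl
      congr 1
      simp only [List.range_succ, List.map_append, List.reverse_append]
      rfl)
  simp only [
      upd_arg, upd_dat, upd_acc, upd_t1, upd_t2, upd_t3, upd_res, upd_out, upd_cc, upd_n, upd_s,
      upd_L, upd_q, upd_tau, upd_K, upd_w, upd_z, upd_zb, upd_d, upd_db, upd_e, upd_v, upd_p,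
      upd_i, upd_j, upd_a, upd_b, upd_B, upd_N, upd_m, upd_h, upd_u1, upd_u2, upd_u3, upd_u4,
      upd_u5, upd_u6, upd_x1, upd_x2, upd_x3, upd_x4, st_arg, st_dat, st_acc, st_t1, st_t2, st_t3,
      st_res, st_out, st_cc, st_n, st_s, st_L, st_q, st_tau, st_K, st_w, st_z, st_zb, st_d, st_db,
      st_e, st_v, st_p, st_i, st_j, st_a, st_b, st_B, st_N, st_m, st_h, st_u1, st_u2, st_u3,
      st_u4, st_u5, st_u6, st_x1, st_x2, st_x3, st_x4] at h
  have hs : ({s with dat := (List.range' (2 * 0) (2 * b - 2 * 0)).map g ++ D,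
                     t1 := ((List.range 0).map (fun i => g (2 * i))).reverse,
                     t2 := ((List.range 0).map (fun i => g (2 * i + 1))).reverse,
                     B := b, u1 := 0} : St) = s := by
    cases s
    simp only [St.mk.injEq]
    simp_all [List.range_eq_range']
  rw [hs] at h
  have h := h.seq (w_moveAll .t1 .t3 (by decide) rfl rfl)
  simp only [
      upd_arg, upd_dat, upd_acc, upd_t1, upd_t2, upd_t3, upd_res, upd_out, upd_cc, upd_n, upd_s,
      upd_L, upd_q, upd_tau, upd_K, upd_w, upd_z, upd_zb, upd_d, upd_db, upd_e, upd_v, upd_p,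
      upd_i, upd_j, upd_a, upd_b, upd_B, upd_N, upd_m, upd_h, upd_u1, upd_u2, upd_u3, upd_u4,
      upd_u5, upd_u6, upd_x1, upd_x2, upd_x3, upd_x4, st_arg, st_dat, st_acc, st_t1, st_t2, st_t3,
      st_res, st_out, st_cc, st_n, st_s, st_L, st_q, st_tau, st_K, st_w, st_z, st_zb, st_d, st_db,
      st_e, st_v, st_p, st_i, st_j, st_a, st_b, st_B, st_N, st_m, st_h, st_u1, st_u2, st_u3,
      st_u4, st_u5, st_u6, st_x1, st_x2, st_x3, st_x4] at h
  have h := h.seq (w_moveAll .t3 .acc (by decide) rfl rfl)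
  simp only [
      upd_arg, upd_dat, upd_acc, upd_t1, upd_t2, upd_t3, upd_res, upd_out, upd_cc, upd_n, upd_s,
      upd_L, upd_q, upd_tau, upd_K, upd_w, upd_z, upd_zb, upd_d, upd_db, upd_e, upd_v, upd_p,
      upd_i, upd_j, upd_a, upd_b, upd_B, upd_N, upd_m, upd_h, upd_u1, upd_u2, upd_u3, upd_u4,
      upd_u5, upd_u6, upd_x1, upd_x2, upd_x3, upd_x4, st_arg, st_dat, st_acc, st_t1, st_t2, st_t3,
      st_res, st_out, st_cc, st_n, st_s, st_L, st_q, st_tau, st_K, st_w, st_z, st_zb, st_d, st_db,
      st_e, st_v, st_p, st_i, st_j, st_a, st_b, st_B, st_N, st_m, st_h, st_u1, st_u2, st_u3,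
      st_u4, st_u5, st_u6, st_x1, st_x2, st_x3, st_x4] at h
  have h := h.seq (w_moveAll .t2 .t3 (by decide) rfl rfl)
  simp only [
      upd_arg, upd_dat, upd_acc, upd_t1, upd_t2, upd_t3, upd_res, upd_out, upd_cc, upd_n, upd_s,
      upd_L, upd_q, upd_tau, upd_K, upd_w, upd_z, upd_zb, upd_d, upd_db, upd_e, upd_v, upd_p,
      upd_i, upd_j, upd_a, upd_b, upd_B, upd_N, upd_m, upd_h, upd_u1, upd_u2, upd_u3, upd_u4,
      upd_u5, upd_u6, upd_x1, upd_x2, upd_x3, upd_x4, st_arg, st_dat, st_acc, st_t1, st_t2, st_t3,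
      st_res, st_out, st_cc, st_n, st_s, st_L, st_q, st_tau, st_K, st_w, st_z, st_zb, st_d, st_db,
      st_e, st_v, st_p, st_i, st_j, st_a, st_b, st_B, st_N, st_m, st_h, st_u1, st_u2, st_u3,
      st_u4, st_u5, st_u6, st_x1, st_x2, st_x3, st_x4] at h
  have h := h.seq (w_moveAll .t3 .acc (by decide) rfl rfl)
  simp only [
      upd_arg, upd_dat, upd_acc, upd_t1, upd_t2, upd_t3, upd_res, upd_out, upd_cc, upd_n, upd_s,
      upd_L, upd_q, upd_tau, upd_K, upd_w, upd_z, upd_zb, upd_d, upd_db, upd_e, upd_v, upd_p,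
      upd_i, upd_j, upd_a, upd_b, upd_B, upd_N, upd_m, upd_h, upd_u1, upd_u2, upd_u3, upd_u4,
      upd_u5, upd_u6, upd_x1, upd_x2, upd_x3, upd_x4, st_arg, st_dat, st_acc, st_t1, st_t2, st_t3,
      st_res, st_out, st_cc, st_n, st_s, st_L, st_q, st_tau, st_K, st_w, st_z, st_zb, st_d, st_db,
      st_e, st_v, st_p, st_i, st_j, st_a, st_b, st_B, st_N, st_m, st_h, st_u1, st_u2, st_u3,
      st_u4, st_u5, st_u6, st_x1, st_x2, st_x3, st_x4] at h
  refine h.congr ?_ ?_
  · congr 1
    simp [ht1, ht2, ht3, hb, hu]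
  · simp [ht3]; omega

/-- One pass: in every block of `2 b` bits, the bits of even index first. -/
def unsh : Cmd W G := passOf usBody

theorem run_unsh (s : St) (b m : ℕ) (f : ℕ → Bool) (hb : s.B = b) (hb0 : 0 < b)
    (hdat : s.dat = seg (fun k => (List.range (2 * b)).map fun t => f (k * (2 * b) + t)) 0 m)
    (hacc : s.acc = []) (ht1 : s.t1 = []) (ht2 : s.t2 = []) (ht3 : s.t3 = []) (hu : s.u1 = 0) :
    Run Ω unsh s.st (St.st {s with
      dat := seg (fun k => (List.range b).map (fun i => f (k * (2 * b) + 2 * i)) ++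
        (List.range b).map (fun i => f (k * (2 * b) + (2 * i + 1)))) 0 m})
      (25 * (m * b) + 2) := by
  refine (run_passOf (Ω := Ω) (fun _ => s)
    (fun k => (List.range (2 * b)).map fun t => f (k * (2 * b) + t))
    (fun k => (List.range b).map (fun i => f (k * (2 * b) + 2 * i)) ++
        (List.range b).map (fun i => f (k * (2 * b) + (2 * i + 1)))) m
    (14 * b + 6) (2 * b) ?_ ?_ ?_).cast ?_ ?_ ?_
  · intro k hk h
    have := congrArg List.length h
    simp at this
    omega
  · intro k hk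
    simp; omega
  · intro k hk D A
    exact run_usBody {s with dat := _, acc := A} b (fun t => f (k * (2 * b) + t)) D hb rfl ht1 ht2
      ht3 hu
  · congr 1
    cases s; simp_all
  · congr 1
    cases s; simp_all
  · have h1 : m ≤ m * b := Nat.le_mul_of_pos_right _ hb0
    have h2 : m * (14 * b + 6 + 1) = 14 * (m * b) + 7 * m := by ring
    have h3 : m * (2 * b) = 2 * (m * b) := by ring
    omega

end Vale.Agent.P338
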