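import Vale.Agent.Lib.P338.St

/-! Generic macros on words and unary registers. -/

namespace Vale.Agent.P338

open Function

@[simp] theorem ticks_zero : ticks 0 = [] := rfl

theorem ticks_succ (k : ℕ) : ticks (k + 1) = G.tick :: ticks k := rfl

theorem ticks_add (k m : ℕ) : ticks (k + m) = ticks k ++ ticks m := by
  simp only [ticks, List.replicate_add]

theorem ticks_append_comm (k m : ℕ) : (ticks k) ++ (ticks m) = ticks (k + m) := (ticks_add k m).symm

@[simp] theorem ticks_length (k : ℕ) : (ticks k).length = k := by simp [ticks]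

@[simp] theorem ticks_reverse (k : ℕ) : (ticks k).reverse = ticks k := by simp [ticks]

section gen
variable {ι : Type} [DecidableEq ι] {Ω : (ι → List G) → (ι → List G) → ℕ → Prop}

omit [DecidableEq ι] in
theorem Run.cast {c : Cmd ι G} {f f' g g' : ι → List G} {n n' : ℕ} (h : Run Ω c f g n)
    (hf : f' = f) (hg : g = g') (hn : n ≤ n') : Run Ω c f' g' n' := by
  subst hf hg; exact h.mono hn

/-! ### words -/

theorem runW_mv {i j : ι} (hij : [i, j].Nodup) {f : ι → List G} {a : Bool} {x : List Bool}
    {y : List G} (hi : f i = bw (a :: x)) (hj : f j = y) :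
    Run Ω (mv i j) f (update (update f i (bw x)) j (G.bit a :: y)) 1 := by
  subst hj
  exact run_mv (by simpa using hij) (by simpa using hi)

theorem runW_moveAll {i j : ι} (hij : [i, j].Nodup) {f : ι → List G} {x y : List Bool}
    (hi : f i = bw x) (hj : f j = bw y) :
    Run Ω (moveAll i j) f (update (update f i (bw [])) j (bw (x.reverse ++ y)))
      (2 * x.length + 1) := by
  refine (run_moveAll (by simpa using hij) f).congr ?_ ?_
  · simp [hi, hj]
  · simp [hi]

theorem runW_moveAll' {i j : ι} (hij : [i, j].Nodup) {f : ι → List G} {x : List Bool} {y : List G}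
    (hi : f i = bw x) (hj : f j = y) :
    Run Ω (moveAll i j) f (update (update f i (bw [])) j (bw x.reverse ++ y))
      (2 * x.length + 1) := by
  refine (run_moveAll (by simpa using hij) f).congr ?_ ?_
  · simp [hi, hj]
  · simp [hi]

theorem runW_push (a : Bool) {i : ι} {f : ι → List G} {x : List Bool} (hi : f i = bw x) :
    Run Ω (push (G.bit a) i) f (update f i (bw (a :: x))) 1 := by
  refine (run_push _ i f).congr ?_ le_rfl
  simp [hi]

theorem runW_pop {i : ι} {f : ι → List G} {a : Bool} {x : List Bool} (hi : f i = bw (a :: x)) :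
    Run Ω (pop i) f (update f i (bw x)) 1 := by
  refine (run_pop i f).congr ?_ le_rfl
  simp [hi]

theorem runW_clear {i : ι} {f : ι → List G} {x : List Bool} (hi : f i = bw x) :
    Run Ω (clear i) f (update f i (bw [])) (2 * x.length + 1) := by
  refine (run_clear i f).congr ?_ ?_
  · simp
  · simp [hi]

/-! ### unary registers -/

theorem runT_mv {i j : ι} (hij : [i, j].Nodup) {f : ι → List G} {k m : ℕ}
    (hi : f i = ticks (k + 1)) (hj : f j = ticks m) :
    Run Ω (mv i j) f (update (update f i (ticks k)) j (ticks (m + 1))) 1 := by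
  refine (run_mv (by simpa using hij) (a := G.tick) (l := ticks k)
    (by simpa [ticks_succ] using hi)).congr ?_ le_rfl
  simp [hj, ticks_succ]

theorem runT_moveAll {i j : ι} (hij : [i, j].Nodup) {f : ι → List G} {k m : ℕ}
    (hi : f i = ticks k) (hj : f j = ticks m) :
    Run Ω (moveAll i j) f (update (update f i (ticks 0)) j (ticks (k + m))) (2 * k + 1) := by
  refine (run_moveAll (by simpa using hij) f).congr ?_ ?_
  · simp [hi, hj, ticks_add]
  · simp [hi]

theorem runT_clear {i : ι} {f : ι → List G} {k : ℕ} (hi : f i = ticks k) :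
    Run Ω (clear i) f (update f i (ticks 0)) (2 * k + 1) := by
  refine (run_clear i f).congr ?_ ?_
  · simp
  · simp [hi]

theorem runT_push {i : ι} {f : ι → List G} {k : ℕ} (hi : f i = ticks k) :
    Run Ω (push G.tick i) f (update f i (ticks (k + 1))) 1 := by
  refine (run_push _ i f).congr ?_ le_rfl
  simp [hi, ticks_succ]

theorem runT_pop {i : ι} {f : ι → List G} {k : ℕ} (hi : f i = ticks (k + 1)) :
    Run Ω (pop i) f (update f i (ticks k)) 1 := by
  refine (run_pop i f).congr ?_ le_rfl
  simp [hi, ticks_succ]

theorem runT_copy {i j k : ι} (h : [i, j, k].Nodup) {f : ι → List G} {a b : ℕ}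
    (hi : f i = ticks a) (hj : f j = ticks b) (hk : f k = ticks 0) :
    Run Ω (copy i j k) f (update f j (ticks (a + b))) (4 * a + 2) := by
  simp only [List.nodup_cons, List.mem_cons, List.not_mem_nil, or_false, not_or,
    List.nodup_nil, and_true, not_false_eq_true] at h
  refine (run_copy h.1.1 h.1.2 h.2 (by simpa using hk)).congr ?_ ?_
  · simp [hi, hj, ticks_add]
  · simp [hi]

/-! ### the `for` loop over a unary register -/

/-- Run `body` once for every tick of the register `R`, using the auxiliary register `U`. -/
def forT (R U : ι) (body : Cmd ι G) : Cmd ι G :=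
  .seq (.loop (ne R) (.seq (mv R U) body)) (moveAll U R)

theorem run_forT {R U : ι} (hRU : [R, U].Nodup) {body : Cmd ι G} (Φ : ℕ → ι → List G) (k c : ℕ)
    (hb : ∀ m < k, ∀ a b, Run Ω body (update (update (Φ m) R (ticks a)) U (ticks b))
      (update (update (Φ (m + 1)) R (ticks a)) U (ticks b)) c) :
    Run Ω (forT R U body) (update (update (Φ 0) R (ticks k)) U (ticks 0))
      (update (update (Φ k) R (ticks k)) U (ticks 0)) (k * (c + 4) + 2) := by
  have hne : R ≠ U := by simpa using hRU
  have h := Run.loop_iter (Ω := Ω) (t := ne R) (a := .seq (mv R U) body)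
    (fun m => update (update (Φ m) R (ticks (k - m))) U (ticks m)) k (c + 1)
    (fun m hm => by
      obtain ⟨j, hj⟩ : ∃ j, k - m = j + 1 := ⟨k - m - 1, by omega⟩
      simp [ne, tops, hne, hj, ticks_succ])
    (by simp [ne, tops, hne])
    (fun m hm => by
      obtain ⟨j, hj⟩ : ∃ j, k - m = j + 1 := ⟨k - m - 1, by omega⟩
      have h1 : Run Ω (mv R U) (update (update (Φ m) R (ticks (k - m))) U (ticks m))
          (update (update (Φ m) R (ticks (k - (m + 1)))) U (ticks (m + 1))) 1 := by
        refine (runT_mv hRU (k := j) (m := m) (by simp [hne, hj]) (by simp)).congr ?_ le_rfl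
        have : k - (m + 1) = j := by omega
        rw [this]
        funext x
        by_cases hx : x = R
        · subst hx; simp [hne]
        · by_cases hy : x = U
          · subst hy; simp
          · simp [hx, hy]
      exact (h1.seq (hb m hm _ _)).mono (by omega))
  refine (h.seq (runT_moveAll (i := U) (j := R) (by simpa using hne.symm) (k := k) (m := 0)
    (by simp) (by simp [hne]))).congr ?_ ?_
  · funext x
    by_cases hx : x = R
    · subst hx; simp [hne]
    · by_cases hy : x = U
      · subst hy; simp [hx]
      · simp [hx, hy]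
  · ring_nf; omega

/-- Variant of `run_forT`: for the states as they are. -/
theorem run_forT' {R U : ι} (hRU : [R, U].Nodup) {body : Cmd ι G} (Φ : ℕ → ι → List G) (k c : ℕ)
    {f g : ι → List G} (hf : f = update (update (Φ 0) R (ticks k)) U (ticks 0))
    (hg : g = update (update (Φ k) R (ticks k)) U (ticks 0))
    (hb : ∀ m < k, ∀ a b, Run Ω body (update (update (Φ m) R (ticks a)) U (ticks b))
      (update (update (Φ (m + 1)) R (ticks a)) U (ticks b)) c) :
    Run Ω (forT R U body) f g (k * (c + 4) + 2) := by
  subst hf hg
  exact run_forT hRU Φ k c hb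

/-- Move `|R|` symbols from `i` to `j`. -/
def takeN (i j R U : ι) : Cmd ι G := forT R U (mv i j)

theorem runW_take' {i j R U : ι} (h : [i, j, R, U].Nodup) {f : ι → List G} {k : ℕ}
    {x y : List Bool} {z : List G} (hx : x.length = k) (hi : f i = bw (x ++ y)) (hj : f j = z)
    (hR : f R = ticks k) (hU : f U = ticks 0) :
    Run Ω (takeN i j R U) f (update (update f i (bw y)) j (bw x.reverse ++ z)) (5 * k + 2) := by
  simp only [List.nodup_cons, List.mem_cons, List.not_mem_nil, or_false, not_or,
    List.nodup_nil, and_true, not_false_eq_true] at h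
  obtain ⟨⟨hij, hiR, hiU⟩, ⟨hjR, hjU⟩, hRU⟩ := h
  refine (run_forT' (R := R) (U := U) (by simpa using hRU) (k := k) (c := 1)
    (fun m => update (update f i (bw (x.drop m ++ y))) j (bw (x.take m).reverse ++ z))
    ?_ ?_ ?_).mono (by omega)
  · funext u
    by_cases h1 : u = U
    · subst h1; simp [hU]
    · by_cases h2 : u = R
      · subst h2; simp [hRU, hR]
      · by_cases h3 : u = j
        · subst h3; simp [h1, h2, hj]
        · by_cases h4 : u = i
          · subst h4; simp [h1, h2, h3, hi]
          · simp [h1, h2, h3, h4]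
  · funext u
    by_cases h1 : u = U
    · subst h1; simp [hU, Ne.symm hiU, Ne.symm hjU]
    · by_cases h2 : u = R
      · subst h2; simp [hRU, hR, Ne.symm hiR, Ne.symm hjR]
      · by_cases h3 : u = j
        · subst h3; simp [h1, h2, ← hx]
        · by_cases h4 : u = i
          · subst h4; simp [h1, h2, h3, ← hx]
          · simp [h1, h2, h3, h4]
  · intro m hm a b
    have hm' : m < x.length := by omega
    refine (runW_mv (i := i) (j := j) (by simpa using hij) (a := x[m]) (x := x.drop (m + 1) ++ y)
      (y := bw (x.take m).reverse ++ z) ?_ ?_).congr ?_ le_rfl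
    · rw [update_of_ne hiU, update_of_ne hiR, update_of_ne hij, update_self, ← List.cons_append,
        List.getElem_cons_drop]
    · simp [hjR, hjU]
    · have h2 : (x.take (m + 1)).reverse = x[m] :: (x.take m).reverse := by
        rw [List.take_add_one, List.reverse_append]; simp [hm']
      funext u
      by_cases h1 : u = U
      · subst h1; simp [Ne.symm hiU, Ne.symm hjU]
      · by_cases h2' : u = R
        · subst h2'; simp [hRU, Ne.symm hiR, Ne.symm hjR]
        · by_cases h3 : u = j
          · subst h3
            simp only [update_self, ne_eq, h1, not_false_eq_true, update_of_ne, h2', h2]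
            simp
          · by_cases h4 : u = i
            · subst h4; simp [h1, h2', h3]
            · simp [h1, h2', h3, h4]

theorem runW_take {i j R U : ι} (h : [i, j, R, U].Nodup) {f : ι → List G} {k : ℕ}
    {x y z : List Bool} (hx : x.length = k) (hi : f i = bw (x ++ y)) (hj : f j = bw z)
    (hR : f R = ticks k) (hU : f U = ticks 0) :
    Run Ω (takeN i j R U) f (update (update f i (bw y)) j (bw (x.reverse ++ z))) (5 * k + 2) := by
  have := runW_take' (Ω := Ω) h hx hi hj hR hU
  rwa [bw, bw, ← List.map_append] at this

/-- Remove `|R|` symbols from `i`. -/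
def dropN (i R U : ι) : Cmd ι G := forT R U (pop i)

theorem runW_drop {i R U : ι} (h : [i, R, U].Nodup) {f : ι → List G} {k : ℕ}
    {x y : List Bool} (hx : x.length = k) (hi : f i = bw (x ++ y))
    (hR : f R = ticks k) (hU : f U = ticks 0) :
    Run Ω (dropN i R U) f (update f i (bw y)) (5 * k + 2) := by
  simp only [List.nodup_cons, List.mem_cons, List.not_mem_nil, or_false, not_or,
    List.nodup_nil, and_true, not_false_eq_true] at h
  obtain ⟨⟨hiR, hiU⟩, hRU⟩ := h
  refine (run_forT' (R := R) (U := U) (by simpa using hRU) (k := k) (c := 1)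
    (fun m => update f i (bw (x.drop m ++ y)))
    ?_ ?_ ?_).mono (by omega)
  · funext u
    by_cases h1 : u = U
    · subst h1; simp [hU]
    · by_cases h2 : u = R
      · subst h2; simp [hRU, hR]
      · by_cases h4 : u = i
        · subst h4; simp [h1, h2, hi]
        · simp [h1, h2, h4]
  · funext u
    by_cases h1 : u = U
    · subst h1; simp [hU, Ne.symm hiU]
    · by_cases h2 : u = R
      · subst h2; simp [hRU, hR, Ne.symm hiR]
      · by_cases h4 : u = i
        · subst h4; simp [h1, h2, ← hx]
        · simp [h1, h2, h4]
  · intro m hm a b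
    have hm' : m < x.length := by omega
    refine (runW_pop (i := i) (a := x[m]) (x := x.drop (m + 1) ++ y) ?_).congr ?_ le_rfl
    · rw [update_of_ne hiU, update_of_ne hiR, update_self, ← List.cons_append,
        List.getElem_cons_drop]
    · funext u
      by_cases h1 : u = U
      · subst h1; simp [Ne.symm hiU]
      · by_cases h2' : u = R
        · subst h2'; simp [hRU, Ne.symm hiR]
        · by_cases h4 : u = i
          · subst h4; simp [h1, h2']
          · simp [h1, h2', h4]

/-- Push `|R|` copies of the symbol `a` to `i`. -/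
def pushN (a : G) (i R U : ι) : Cmd ι G := forT R U (push a i)

theorem run_pushN (a : G) {i R U : ι} (h : [i, R, U].Nodup) {f : ι → List G} {k : ℕ} {l : List G}
    (hi : f i = l) (hR : f R = ticks k) (hU : f U = ticks 0) :
    Run Ω (pushN a i R U) f (update f i (List.replicate k a ++ l)) (5 * k + 2) := by
  simp only [List.nodup_cons, List.mem_cons, List.not_mem_nil, or_false, not_or,
    List.nodup_nil, and_true, not_false_eq_true] at h
  obtain ⟨⟨hiR, hiU⟩, hRU⟩ := h
  refine (run_forT' (R := R) (U := U) (by simpa using hRU) (k := k) (c := 1)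
    (fun m => update f i (List.replicate m a ++ l))
    ?_ ?_ ?_).mono (by omega)
  · funext u
    by_cases h1 : u = U
    · subst h1; simp [hU]
    · by_cases h2 : u = R
      · subst h2; simp [hRU, hR]
      · by_cases h4 : u = i
        · subst h4; simp [h1, h2, hi]
        · simp [h1, h2, h4]
  · funext u
    by_cases h1 : u = U
    · subst h1; simp [hU, Ne.symm hiU]
    · by_cases h2 : u = R
      · subst h2; simp [hRU, hR, Ne.symm hiR]
      · by_cases h4 : u = i
        · subst h4; simp [h1, h2]
        · simp [h1, h2, h4]
  · intro m hm c b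
    refine (run_push a i _).congr ?_ le_rfl
    funext u
    by_cases h1 : u = U
    · subst h1; simp [Ne.symm hiU]
    · by_cases h2' : u = R
      · subst h2'; simp [hRU, Ne.symm hiR]
      · by_cases h4 : u = i
        · subst h4; simp [h1, h2', List.replicate_succ]
        · simp [h1, h2', h4]

theorem runW_pushN (a : Bool) {i R U : ι} (h : [i, R, U].Nodup) {f : ι → List G} {k : ℕ}
    {l : List Bool} (hi : f i = bw l) (hR : f R = ticks k) (hU : f U = ticks 0) :
    Run Ω (pushN (G.bit a) i R U) f (update f i (bw (List.replicate k a ++ l))) (5 * k + 2) := by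
  refine (run_pushN (G.bit a) h hi hR hU).congr ?_ le_rfl
  simp

end gen

end Vale.Agent.P338
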