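import Vale.Agent.Lib.P338.WLib

/-! Addition modulo `2 ^ n - 1` and reduction of a product slot. -/

set_option linter.constructorNameAsVariable false

namespace Vale.Agent.P338

open Function

/-- value of a word with the least significant bit first -/
def lv : List Bool → ℕ
  | [] => 0
  | a :: l => a.toNat + 2 * lv l

theorem lv_append (a b : List Bool) : lv (a ++ b) = lv a + 2 ^ a.length * lv b := by
  induction a with
  | nil => simp [lv]
  | cons x a ih => simp only [List.cons_append, lv, ih, List.length_cons, pow_succ]; ring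

theorem lv_lt (a : List Bool) : lv a < 2 ^ a.length := by
  induction a with
  | nil => simp [lv]
  | cons x a ih =>
    simp only [lv, List.length_cons, pow_succ]
    have : x.toNat ≤ 1 := Bool.toNat_le x
    omega

theorem foldl_val (x : List Bool) (a : ℕ) :
    x.foldl (fun a b => 2 * a + b.toNat) a = a * 2 ^ x.length + val x := by
  induction x generalizing a with
  | nil => simp [val]
  | cons b x ih =>
    simp only [List.foldl_cons, List.length_cons, val]
    rw [ih, ih (2 * 0 + b.toNat)]
    ring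

theorem val_append (x y : List Bool) : val (x ++ y) = val x * 2 ^ y.length + val y := by
  rw [val, List.foldl_append, foldl_val]; rfl

@[simp] theorem val_nil : val [] = 0 := rfl

@[simp] theorem val_singleton (b : Bool) : val [b] = b.toNat := by simp [val]

theorem val_cons (b : Bool) (x : List Bool) : val (b :: x) = b.toNat * 2 ^ x.length + val x := by
  rw [← List.singleton_append, val_append]; simp

theorem val_reverse (x : List Bool) : val x.reverse = lv x := by
  induction x with
  | nil => rfl
  | cons b x ih => rw [List.reverse_cons, val_append, ih, lv]; simp; ring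

theorem lv_reverse (x : List Bool) : lv x.reverse = val x := by
  rw [← val_reverse, List.reverse_reverse]

theorem val_lt (x : List Bool) : val x < 2 ^ x.length := by
  rw [← lv_reverse]; simpa using lv_lt x.reverse

/-- majority -/
def maj (x y z : Bool) : Bool := (x && y) || (x && z) || (y && z)

/-- binary addition, least significant bit first -/
def addL : List Bool → List Bool → Bool → List Bool × Bool
  | x :: a, y :: b, c => ((x ^^ y ^^ c) :: (addL a b (maj x y c)).1, (addL a b (maj x y c)).2)
  | _, _, c => ([], c)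

theorem addL_length (a b : List Bool) (c : Bool) (h : a.length = b.length) :
    (addL a b c).1.length = a.length := by
  induction a generalizing b c with
  | nil => simp [addL]
  | cons x a ih =>
    cases b with
    | nil => simp at h
    | cons y b => simp [addL, ih b _ (by simpa using h)]

theorem addL_val (a b : List Bool) (c : Bool) (h : a.length = b.length) :
    lv (addL a b c).1 + 2 ^ a.length * (addL a b c).2.toNat = lv a + lv b + c.toNat := by
  induction a generalizing b c with
  | nil =>
    cases b with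
    | nil => simp [addL, lv]
    | cons y b => simp at h
  | cons x a ih =>
    cases b with
    | nil => simp at h
    | cons y b =>
      have := ih b (maj x y c) (by simpa using h)
      simp only [addL, lv, List.length_cons, pow_succ]
      have h2 := (by decide : ∀ x y c : Bool, (x ^^ y ^^ c).toNat + 2 * (maj x y c).toNat =
        x.toNat + y.toNat + c.toNat) x y c
      have h3 : 2 ^ a.length * 2 * (addL a b (maj x y c)).2.toNat =
        2 * (2 ^ a.length * (addL a b (maj x y c)).2.toNat) := by ring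
      rw [h3]
      omega

/-- adding a carry, least significant bit first -/
def incL : List Bool → Bool → List Bool × Bool
  | x :: a, c => ((x ^^ c) :: (incL a (x && c)).1, (incL a (x && c)).2)
  | _, c => ([], c)

theorem incL_length (a : List Bool) (c : Bool) : (incL a c).1.length = a.length := by
  induction a generalizing c with
  | nil => simp [incL]
  | cons x a ih => simp [incL, ih]

theorem incL_val (a : List Bool) (c : Bool) :
    lv (incL a c).1 + 2 ^ a.length * (incL a c).2.toNat = lv a + c.toNat := by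
  induction a generalizing c with
  | nil => simp [incL, lv]
  | cons x a ih =>
    have := ih (x && c)
    simp only [incL, lv, List.length_cons, pow_succ]
    have h2 := (by decide : ∀ x c : Bool, (x ^^ c).toNat + 2 * (x && c).toNat =
      x.toNat + c.toNat) x c
    have h3 : 2 ^ a.length * 2 * (incL a (x && c)).2.toNat =
      2 * (2 ^ a.length * (incL a (x && c)).2.toNat) := by ring
    rw [h3]
    omega

/-- addition modulo `2 ^ n - 1` (end-around carry) -/
def eacL (a b : List Bool) : List Bool := (incL (addL a b false).1 (addL a b false).2).1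

theorem eacL_length (a b : List Bool) (h : a.length = b.length) :
    (eacL a b).length = a.length := by rw [eacL, incL_length, addL_length _ _ _ h]

theorem eacL_val (a b : List Bool) (h : a.length = b.length) :
    lv (eacL a b) ≡ lv a + lv b [MOD (2 ^ a.length - 1)] := by
  have h1 := addL_val a b false h
  have h2 := incL_val (addL a b false).1 (addL a b false).2
  have h3 := lv_lt (incL (addL a b false).1 (addL a b false).2).1
  have h4 := lv_lt a
  have h5 := lv_lt b
  rw [← h] at h5
  have hl := addL_length a b false h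
  have h6 := lv_lt (addL a b false).1
  rw [hl] at h6
  rw [incL_length, hl] at h3
  rw [hl] at h2
  rw [eacL]
  simp only [Bool.toNat_false, add_zero] at h1
  set S := lv (addL a b false).1
  set c := (addL a b false).2
  set T := lv (incL (addL a b false).1 c).1
  set c' := (incL (addL a b false).1 c).2
  have hp : 0 < 2 ^ a.length := by positivity
  have key : lv a + lv b = T + (2 ^ a.length - 1) * c.toNat := by
    rcases hc : c with _ | _ <;> rcases hc' : c' with _ | _ <;>
      simp only [hc, hc', Bool.toNat_true, Bool.toNat_false, mul_one, mul_zero, add_zero] at *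
      <;> omega
  rw [key]
  exact (Nat.modEq_iff_dvd' (by omega)).2 ⟨c.toNat, by omega⟩

/-- Reading a bit. -/
def gb : Option G → Bool
  | some (.bit b) => b
  | _ => false

variable {Ω : (W → List G) → (W → List G) → ℕ → Prop}

/-- One step of the adder. -/
def addStep : Cmd W G := .act fun t x => match x with
  | .t1 => .pop
  | .res => .pop
  | .t2 => .push (.bit (gb (t .t1) ^^ gb (t .res) ^^ gb (t .cc)))
  | .cc => .rep (.bit (maj (gb (t .t1)) (gb (t .res)) (gb (t .cc))))
  | _ => .nop

theorem run_addStep (s : St) {x y c : Bool} {a b : List Bool} (h1 : s.t1 = x :: a)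
    (h2 : s.res = y :: b) (h3 : s.cc = [c]) :
    Run Ω addStep s.st (St.st {s with t1 := a, res := b, t2 := (x ^^ y ^^ c) :: s.t2,
                                      cc := [maj x y c]}) 1 := by
  refine (Run.act _ _).congr ?_ le_rfl
  funext i
  cases i <;> simp [tops, Op.app, gb, h1, h2, h3]

/-- One step of the incrementer. -/
def incStep : Cmd W G := .act fun t x => match x with
  | .t1 => .pop
  | .t2 => .push (.bit (gb (t .t1) ^^ gb (t .cc)))
  | .cc => .rep (.bit (gb (t .t1) && gb (t .cc)))
  | _ => .nop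

theorem run_incStep (s : St) {x c : Bool} {a : List Bool} (h1 : s.t1 = x :: a)
    (h3 : s.cc = [c]) :
    Run Ω incStep s.st (St.st {s with t1 := a, t2 := (x ^^ c) :: s.t2, cc := [x && c]}) 1 := by
  refine (Run.act _ _).congr ?_ le_rfl
  funext i
  cases i <;> simp [tops, Op.app, gb, h1, h3]

theorem run_addLoop (a b R : List Bool) (c : Bool) (h : a.length = b.length) (s : St)
    (h1 : s.t1 = a) (h2 : s.res = b ++ R) (h3 : s.cc = [c]) (hn : s.n = a.length) :
    Run Ω (.loop (ne .n) (Cmd.seq (mv .n .u1) addStep)) s.st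
      (St.st {s with t1 := [], res := R, cc := [(addL a b c).2],
                     t2 := (addL a b c).1.reverse ++ s.t2, n := 0, u1 := s.u1 + a.length})
      (3 * a.length + 1) := by
  induction a generalizing b c s with
  | nil =>
    have hb : b = [] := List.eq_nil_of_length_eq_zero (by simpa using h.symm)
    subst hb
    refine (Run.loop_done ?_).congr ?_ ?_
    · simp [ne, tops, hn]
    · congr 1; cases s; simp_all [addL]
    · omega
  | cons x a ih =>
    cases b with
    | nil => simp at h
    | cons y b =>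
      have hn' : s.n = a.length + 1 := by simpa using hn
      have A := t_mv (Ω := Ω) .n .u1 (by decide) a.length (f := s.st) (by simp [hn']) rfl
      simp only [
          upd_arg, upd_dat, upd_acc, upd_t1, upd_t2, upd_t3, upd_res, upd_out, upd_cc, upd_n,
          upd_s, upd_L, upd_q, upd_tau, upd_K, upd_w, upd_z, upd_zb, upd_d, upd_db, upd_e, upd_v,
          upd_p, upd_i, upd_j, upd_a, upd_b, upd_B, upd_N, upd_m, upd_h, upd_u1, upd_u2, upd_u3,
          upd_u4, upd_u5, upd_u6, upd_x1, upd_x2, upd_x3, upd_x4, st_arg, st_dat, st_acc, st_t1,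
          st_t2, st_t3, st_res, st_out, st_cc, st_n, st_s, st_L, st_q, st_tau, st_K, st_w, st_z,
          st_zb, st_d, st_db, st_e, st_v, st_p, st_i, st_j, st_a, st_b, st_B, st_N, st_m, st_h,
          st_u1, st_u2, st_u3, st_u4, st_u5, st_u6, st_x1, st_x2, st_x3, st_x4] at A
      have A := A.seq (run_addStep _ (x := x) (y := y) (c := c) (a := a) (b := b ++ R) h1
        (by simpa using h2) h3)
      simp only [
          upd_arg, upd_dat, upd_acc, upd_t1, upd_t2, upd_t3, upd_res, upd_out, upd_cc, upd_n,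
          upd_s, upd_L, upd_q, upd_tau, upd_K, upd_w, upd_z, upd_zb, upd_d, upd_db, upd_e, upd_v,
          upd_p, upd_i, upd_j, upd_a, upd_b, upd_B, upd_N, upd_m, upd_h, upd_u1, upd_u2, upd_u3,
          upd_u4, upd_u5, upd_u6, upd_x1, upd_x2, upd_x3, upd_x4, st_arg, st_dat, st_acc, st_t1,
          st_t2, st_t3, st_res, st_out, st_cc, st_n, st_s, st_L, st_q, st_tau, st_K, st_w, st_z,
          st_zb, st_d, st_db, st_e, st_v, st_p, st_i, st_j, st_a, st_b, st_B, st_N, st_m, st_h,
          st_u1, st_u2, st_u3, st_u4, st_u5, st_u6, st_x1, st_x2, st_x3, st_x4] at A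
      have B := ih b (maj x y c) (by simpa using h) {s with
        n := a.length, u1 := s.u1 + 1, t1 := a, res := b ++ R, t2 := (x ^^ y ^^ c) :: s.t2,
        cc := [maj x y c]} rfl rfl rfl rfl
      refine (Run.loop_step ?_ A B).congr ?_ ?_
      · simp [ne, tops, hn', ticks_succ]
      · congr 1
        simp only [addL, List.reverse_cons, List.append_assoc, List.singleton_append,
          List.length_cons]
        congr 1; omega
      · simp; omega

theorem run_incLoop (a : List Bool) (c : Bool) (s : St)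
    (h1 : s.t1 = a) (h3 : s.cc = [c]) (hn : s.n = a.length) :
    Run Ω (.loop (ne .n) (Cmd.seq (mv .n .u1) incStep)) s.st
      (St.st {s with t1 := [], cc := [(incL a c).2],
                     t2 := (incL a c).1.reverse ++ s.t2, n := 0, u1 := s.u1 + a.length})
      (3 * a.length + 1) := by
  induction a generalizing c s with
  | nil =>
    refine (Run.loop_done ?_).congr ?_ ?_
    · simp [ne, tops, hn]
    · congr 1; cases s; simp_all [incL]
    · omega
  | cons x a ih =>
    have hn' : s.n = a.length + 1 := by simpa using hn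
    have A := t_mv (Ω := Ω) .n .u1 (by decide) a.length (f := s.st) (by simp [hn']) rfl
    simp only [
        upd_arg, upd_dat, upd_acc, upd_t1, upd_t2, upd_t3, upd_res, upd_out, upd_cc, upd_n, upd_s,
        upd_L, upd_q, upd_tau, upd_K, upd_w, upd_z, upd_zb, upd_d, upd_db, upd_e, upd_v, upd_p,
        upd_i, upd_j, upd_a, upd_b, upd_B, upd_N, upd_m, upd_h, upd_u1, upd_u2, upd_u3, upd_u4,
        upd_u5, upd_u6, upd_x1, upd_x2, upd_x3, upd_x4, st_arg, st_dat, st_acc, st_t1, st_t2,
        st_t3, st_res, st_out, st_cc, st_n, st_s, st_L, st_q, st_tau, st_K, st_w, st_z, st_zb,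
        st_d, st_db, st_e, st_v, st_p, st_i, st_j, st_a, st_b, st_B, st_N, st_m, st_h, st_u1,
        st_u2, st_u3, st_u4, st_u5, st_u6, st_x1, st_x2, st_x3, st_x4] at A
    have A := A.seq (run_incStep _ (x := x) (c := c) (a := a) h1 h3)
    simp only [
        upd_arg, upd_dat, upd_acc, upd_t1, upd_t2, upd_t3, upd_res, upd_out, upd_cc, upd_n, upd_s,
        upd_L, upd_q, upd_tau, upd_K, upd_w, upd_z, upd_zb, upd_d, upd_db, upd_e, upd_v, upd_p,
        upd_i, upd_j, upd_a, upd_b, upd_B, upd_N, upd_m, upd_h, upd_u1, upd_u2, upd_u3, upd_u4,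
        upd_u5, upd_u6, upd_x1, upd_x2, upd_x3, upd_x4, st_arg, st_dat, st_acc, st_t1, st_t2,
        st_t3, st_res, st_out, st_cc, st_n, st_s, st_L, st_q, st_tau, st_K, st_w, st_z, st_zb,
        st_d, st_db, st_e, st_v, st_p, st_i, st_j, st_a, st_b, st_B, st_N, st_m, st_h, st_u1,
        st_u2, st_u3, st_u4, st_u5, st_u6, st_x1, st_x2, st_x3, st_x4] at A
    have B := ih (x && c) {s with
      n := a.length, u1 := s.u1 + 1, t1 := a, t2 := (x ^^ c) :: s.t2,
      cc := [x && c]} rfl rfl rfl
    refine (Run.loop_step ?_ A B).congr ?_ ?_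
    · simp [ne, tops, hn', ticks_succ]
    · congr 1
      simp only [incL, List.reverse_cons, List.append_assoc, List.singleton_append,
        List.length_cons]
      congr 1; omega
    · simp; omega

/-- Add the next `n` bits of `res` to the word on `t1`, modulo `2 ^ n - 1`. -/
def adde : Cmd W G :=
  Cmd.seq (Cmd.seq (Cmd.seq (Cmd.seq (Cmd.seq (Cmd.seq (Cmd.seq (push (.bit false) .cc) (.loop (ne
    .n) (Cmd.seq (mv .n .u1) addStep))) (moveAll .u1 .n)) (moveAll .t2 .t1)) (.loop (ne .n)
    (Cmd.seq (mv .n .u1) incStep))) (moveAll .u1 .n)) (moveAll .t2 .t1)) (pop .cc)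

theorem run_adde (s : St) (a b R : List Bool) (h : a.length = b.length)
    (h1 : s.t1 = a) (h2 : s.res = b ++ R) (hn : s.n = a.length) (hc : s.cc = []) (ht2 : s.t2 = [])
    (hu : s.u1 = 0) :
    Run Ω adde s.st (St.st {s with t1 := eacL a b, res := R}) (14 * a.length + 8) := by
  have A := w_push (Ω := Ω) false .cc (f := s.st) (x := []) (by simp [hc])
  simp only [
      upd_arg, upd_dat, upd_acc, upd_t1, upd_t2, upd_t3, upd_res, upd_out, upd_cc, upd_n, upd_s,
      upd_L, upd_q, upd_tau, upd_K, upd_w, upd_z, upd_zb, upd_d, upd_db, upd_e, upd_v, upd_p,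
      upd_i, upd_j, upd_a, upd_b, upd_B, upd_N, upd_m, upd_h, upd_u1, upd_u2, upd_u3, upd_u4,
      upd_u5, upd_u6, upd_x1, upd_x2, upd_x3, upd_x4, st_arg, st_dat, st_acc, st_t1, st_t2, st_t3,
      st_res, st_out, st_cc, st_n, st_s, st_L, st_q, st_tau, st_K, st_w, st_z, st_zb, st_d, st_db,
      st_e, st_v, st_p, st_i, st_j, st_a, st_b, st_B, st_N, st_m, st_h, st_u1, st_u2, st_u3,
      st_u4, st_u5, st_u6, st_x1, st_x2, st_x3, st_x4] at A
  have A := A.seq (run_addLoop a b R false h _ h1 h2 rfl hn)
  simp only [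
      upd_arg, upd_dat, upd_acc, upd_t1, upd_t2, upd_t3, upd_res, upd_out, upd_cc, upd_n, upd_s,
      upd_L, upd_q, upd_tau, upd_K, upd_w, upd_z, upd_zb, upd_d, upd_db, upd_e, upd_v, upd_p,
      upd_i, upd_j, upd_a, upd_b, upd_B, upd_N, upd_m, upd_h, upd_u1, upd_u2, upd_u3, upd_u4,
      upd_u5, upd_u6, upd_x1, upd_x2, upd_x3, upd_x4, st_arg, st_dat, st_acc, st_t1, st_t2, st_t3,
      st_res, st_out, st_cc, st_n, st_s, st_L, st_q, st_tau, st_K, st_w, st_z, st_zb, st_d, st_db,
      st_e, st_v, st_p, st_i, st_j, st_a, st_b, st_B, st_N, st_m, st_h, st_u1, st_u2, st_u3,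
      st_u4, st_u5, st_u6, st_x1, st_x2, st_x3, st_x4] at A
  have A := A.seq (t_moveAll .u1 .n (by decide) rfl rfl)
  simp only [
      upd_arg, upd_dat, upd_acc, upd_t1, upd_t2, upd_t3, upd_res, upd_out, upd_cc, upd_n, upd_s,
      upd_L, upd_q, upd_tau, upd_K, upd_w, upd_z, upd_zb, upd_d, upd_db, upd_e, upd_v, upd_p,
      upd_i, upd_j, upd_a, upd_b, upd_B, upd_N, upd_m, upd_h, upd_u1, upd_u2, upd_u3, upd_u4,
      upd_u5, upd_u6, upd_x1, upd_x2, upd_x3, upd_x4, st_arg, st_dat, st_acc, st_t1, st_t2, st_t3,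
      st_res, st_out, st_cc, st_n, st_s, st_L, st_q, st_tau, st_K, st_w, st_z, st_zb, st_d, st_db,
      st_e, st_v, st_p, st_i, st_j, st_a, st_b, st_B, st_N, st_m, st_h, st_u1, st_u2, st_u3,
      st_u4, st_u5, st_u6, st_x1, st_x2, st_x3, st_x4] at A
  have A := A.seq (w_moveAll .t2 .t1 (by decide) rfl rfl)
  simp only [
      upd_arg, upd_dat, upd_acc, upd_t1, upd_t2, upd_t3, upd_res, upd_out, upd_cc, upd_n, upd_s,
      upd_L, upd_q, upd_tau, upd_K, upd_w, upd_z, upd_zb, upd_d, upd_db, upd_e, upd_v, upd_p,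
      upd_i, upd_j, upd_a, upd_b, upd_B, upd_N, upd_m, upd_h, upd_u1, upd_u2, upd_u3, upd_u4,
      upd_u5, upd_u6, upd_x1, upd_x2, upd_x3, upd_x4, st_arg, st_dat, st_acc, st_t1, st_t2, st_t3,
      st_res, st_out, st_cc, st_n, st_s, st_L, st_q, st_tau, st_K, st_w, st_z, st_zb, st_d, st_db,
      st_e, st_v, st_p, st_i, st_j, st_a, st_b, st_B, st_N, st_m, st_h, st_u1, st_u2, st_u3,
      st_u4, st_u5, st_u6, st_x1, st_x2, st_x3, st_x4] at A
  have A := A.seq (run_incLoop (addL a b false).1 (addL a b false).2 _ (by simp [ht2]) rfl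
    (by simp [hu, addL_length _ _ _ h]))
  simp only [
      upd_arg, upd_dat, upd_acc, upd_t1, upd_t2, upd_t3, upd_res, upd_out, upd_cc, upd_n, upd_s,
      upd_L, upd_q, upd_tau, upd_K, upd_w, upd_z, upd_zb, upd_d, upd_db, upd_e, upd_v, upd_p,
      upd_i, upd_j, upd_a, upd_b, upd_B, upd_N, upd_m, upd_h, upd_u1, upd_u2, upd_u3, upd_u4,
      upd_u5, upd_u6, upd_x1, upd_x2, upd_x3, upd_x4, st_arg, st_dat, st_acc, st_t1, st_t2, st_t3,
      st_res, st_out, st_cc, st_n, st_s, st_L, st_q, st_tau, st_K, st_w, st_z, st_zb, st_d, st_db,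
      st_e, st_v, st_p, st_i, st_j, st_a, st_b, st_B, st_N, st_m, st_h, st_u1, st_u2, st_u3,
      st_u4, st_u5, st_u6, st_x1, st_x2, st_x3, st_x4] at A
  have A := A.seq (t_moveAll .u1 .n (by decide) rfl rfl)
  simp only [
      upd_arg, upd_dat, upd_acc, upd_t1, upd_t2, upd_t3, upd_res, upd_out, upd_cc, upd_n, upd_s,
      upd_L, upd_q, upd_tau, upd_K, upd_w, upd_z, upd_zb, upd_d, upd_db, upd_e, upd_v, upd_p,
      upd_i, upd_j, upd_a, upd_b, upd_B, upd_N, upd_m, upd_h, upd_u1, upd_u2, upd_u3, upd_u4,
      upd_u5, upd_u6, upd_x1, upd_x2, upd_x3, upd_x4, st_arg, st_dat, st_acc, st_t1, st_t2, st_t3,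
      st_res, st_out, st_cc, st_n, st_s, st_L, st_q, st_tau, st_K, st_w, st_z, st_zb, st_d, st_db,
      st_e, st_v, st_p, st_i, st_j, st_a, st_b, st_B, st_N, st_m, st_h, st_u1, st_u2, st_u3,
      st_u4, st_u5, st_u6, st_x1, st_x2, st_x3, st_x4] at A
  have A := A.seq (w_moveAll .t2 .t1 (by decide) rfl rfl)
  simp only [
      upd_arg, upd_dat, upd_acc, upd_t1, upd_t2, upd_t3, upd_res, upd_out, upd_cc, upd_n, upd_s,
      upd_L, upd_q, upd_tau, upd_K, upd_w, upd_z, upd_zb, upd_d, upd_db, upd_e, upd_v, upd_p,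
      upd_i, upd_j, upd_a, upd_b, upd_B, upd_N, upd_m, upd_h, upd_u1, upd_u2, upd_u3, upd_u4,
      upd_u5, upd_u6, upd_x1, upd_x2, upd_x3, upd_x4, st_arg, st_dat, st_acc, st_t1, st_t2, st_t3,
      st_res, st_out, st_cc, st_n, st_s, st_L, st_q, st_tau, st_K, st_w, st_z, st_zb, st_d, st_db,
      st_e, st_v, st_p, st_i, st_j, st_a, st_b, st_B, st_N, st_m, st_h, st_u1, st_u2, st_u3,
      st_u4, st_u5, st_u6, st_x1, st_x2, st_x3, st_x4] at A
  have A := A.seq (w_pop .cc (incL (addL a b false).1 (addL a b false).2).2 [] rfl)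
  simp only [
      upd_arg, upd_dat, upd_acc, upd_t1, upd_t2, upd_t3, upd_res, upd_out, upd_cc, upd_n, upd_s,
      upd_L, upd_q, upd_tau, upd_K, upd_w, upd_z, upd_zb, upd_d, upd_db, upd_e, upd_v, upd_p,
      upd_i, upd_j, upd_a, upd_b, upd_B, upd_N, upd_m, upd_h, upd_u1, upd_u2, upd_u3, upd_u4,
      upd_u5, upd_u6, upd_x1, upd_x2, upd_x3, upd_x4, st_arg, st_dat, st_acc, st_t1, st_t2, st_t3,
      st_res, st_out, st_cc, st_n, st_s, st_L, st_q, st_tau, st_K, st_w, st_z, st_zb, st_d, st_db,
      st_e, st_v, st_p, st_i, st_j, st_a, st_b, st_B, st_N, st_m, st_h, st_u1, st_u2, st_u3,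
      st_u4, st_u5, st_u6, st_x1, st_x2, st_x3, st_x4] at A
  refine A.congr ?_ ?_
  · congr 1
    cases s
    simp_all [eacL, addL_length _ _ _ h]
  · simp [ht2, hu, addL_length _ _ _ h, incL_length]; omega

/-- Reduction modulo `2 ^ n - 1` of a word of length `4 * n`, least significant bit first. -/
def redL (n : ℕ) (c : List Bool) : List Bool :=
  eacL (eacL (eacL (eacL (List.replicate n false) (c.take n)) ((c.drop n).take n))
    ((c.drop (2 * n)).take n)) (c.drop (3 * n))

theorem lv_replicate (n : ℕ) : lv (List.replicate n false) = 0 := by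
  induction n with
  | zero => rfl
  | succ n ih => simp [List.replicate_succ, lv, ih]

theorem val_replicate (n : ℕ) : val (List.replicate n false) = 0 := by
  rw [← lv_reverse]; simp [lv_replicate]

theorem redL_spec (n : ℕ) (c : List Bool) (hc : c.length = 4 * n) :
    (redL n c).length = n ∧ lv (redL n c) ≡ lv c [MOD (2 ^ n - 1)] := by
  have l0 : (List.replicate n false).length = (c.take n).length := by simp; omega
  have e0 := eacL_length _ _ l0
  rw [List.length_replicate] at e0
  have l1 : (eacL (List.replicate n false) (c.take n)).length = ((c.drop n).take n).length := by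
    rw [e0]; simp; omega
  have e1 := eacL_length _ _ l1
  rw [e0] at e1
  have l2 : (eacL (eacL (List.replicate n false) (c.take n)) ((c.drop n).take n)).length =
      ((c.drop (2 * n)).take n).length := by
    rw [e1]; simp; omega
  have e2 := eacL_length _ _ l2
  rw [e1] at e2
  have l3 : (eacL (eacL (eacL (List.replicate n false) (c.take n)) ((c.drop n).take n))
      ((c.drop (2 * n)).take n)).length = (c.drop (3 * n)).length := by
    rw [e2]; simp; omega
  have e3 := eacL_length _ _ l3
  rw [e2] at e3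
  refine ⟨e3, ?_⟩
  have v0 := eacL_val _ _ l0
  have v1 := eacL_val _ _ l1
  have v2 := eacL_val _ _ l2
  have v3 := eacL_val _ _ l3
  rw [List.length_replicate, lv_replicate, zero_add] at v0
  rw [e0] at v1
  rw [e1] at v2
  rw [e2] at v3
  have hp : (2 ^ n : ℕ) ≡ 1 [MOD (2 ^ n - 1)] := by
    have : 1 ≤ 2 ^ n := Nat.one_le_two_pow
    exact ((Nat.modEq_iff_dvd' this).2 ⟨1, by simp⟩).symm
  have d1 : c = c.take n ++ ((c.drop n).take n ++ ((c.drop (2 * n)).take n ++ c.drop (3 * n))) := by
    conv_lhs => rw [← List.take_append_drop n c]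
    congr 1
    conv_lhs => rw [← List.take_append_drop n (c.drop n)]
    rw [List.drop_drop, show n + n = 2 * n by ring]
    congr 1
    conv_lhs => rw [← List.take_append_drop n (c.drop (2 * n))]
    rw [List.drop_drop, show 2 * n + n = 3 * n by ring]
  have vc : lv c ≡ lv (c.take n) + (lv ((c.drop n).take n) + (lv ((c.drop (2 * n)).take n) +
      lv (c.drop (3 * n)))) [MOD (2 ^ n - 1)] := by
    conv_lhs => rw [d1]
    rw [lv_append, lv_append, lv_append]
    rw [show (c.take n).length = n by simp; omega, show ((c.drop n).take n).length = n by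
      simp; omega, show ((c.drop (2 * n)).take n).length = n by simp; omega]
    refine Nat.ModEq.add_left _ ?_
    conv_rhs => rw [← one_mul (lv ((c.drop n).take n) + _)]
    refine hp.mul ?_
    refine Nat.ModEq.add_left _ ?_
    conv_rhs => rw [← one_mul (lv ((c.drop (2 * n)).take n) + _)]
    refine hp.mul ?_
    refine Nat.ModEq.add_left _ ?_
    conv_rhs => rw [← one_mul (lv (c.drop (3 * n)))]
    exact hp.mul_right _
  refine (v3.trans ?_).trans vc.symm
  calc _ ≡ (lv (c.take n) + lv ((c.drop n).take n) + lv ((c.drop (2 * n)).take n)) +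
      lv (c.drop (3 * n)) [MOD (2 ^ n - 1)] := by
        refine Nat.ModEq.add_right _ (v2.trans ?_)
        refine Nat.ModEq.add_right _ (v1.trans ?_)
        exact Nat.ModEq.add_right _ v0
    _ = _ := by ring

/-- Reduce the first `4 * n` bits of `res` modulo `2 ^ n - 1` and put the result on `dat`. -/
def red : Cmd W G :=
  Cmd.seq (Cmd.seq (Cmd.seq (Cmd.seq (Cmd.seq (pushN (.bit false) .t1 .n .u1) adde) adde) adde)
    adde) (moveAll .t1 .dat)

theorem run_red (s : St) (n : ℕ) (hn : s.n = n) (c R : List Bool) (hc' : c.length = 4 * n)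
    (h2 : s.res = c ++ R)
    (h1 : s.t1 = []) (hc : s.cc = []) (ht2 : s.t2 = []) (hu : s.u1 = 0) :
    Run Ω red s.st (St.st {s with res := R, dat := (redL n c).reverse ++ s.dat})
      (63 * n + 35) := by
  have l0 : (List.replicate n false).length = (c.take n).length := by simp; omega
  have e0 := eacL_length _ _ l0
  rw [List.length_replicate] at e0
  have l1 : (eacL (List.replicate n false) (c.take n)).length = ((c.drop n).take n).length := by
    rw [e0]; simp; omega
  have e1 := eacL_length _ _ l1
  rw [e0] at e1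
  have l2 : (eacL (eacL (List.replicate n false) (c.take n)) ((c.drop n).take n)).length =
      ((c.drop (2 * n)).take n).length := by
    rw [e1]; simp; omega
  have e2 := eacL_length _ _ l2
  rw [e1] at e2
  have l3 : (eacL (eacL (eacL (List.replicate n false) (c.take n)) ((c.drop n).take n))
      ((c.drop (2 * n)).take n)).length = (c.drop (3 * n)).length := by
    rw [e2]; simp; omega
  have e3 := eacL_length _ _ l3
  rw [e2] at e3
  have A := w_pushN (Ω := Ω) false .t1 .n .u1 (by decide) (f := s.st) rfl rfl (by simp [hu])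
  simp only [
      upd_arg, upd_dat, upd_acc, upd_t1, upd_t2, upd_t3, upd_res, upd_out, upd_cc, upd_n, upd_s,
      upd_L, upd_q, upd_tau, upd_K, upd_w, upd_z, upd_zb, upd_d, upd_db, upd_e, upd_v, upd_p,
      upd_i, upd_j, upd_a, upd_b, upd_B, upd_N, upd_m, upd_h, upd_u1, upd_u2, upd_u3, upd_u4,
      upd_u5, upd_u6, upd_x1, upd_x2, upd_x3, upd_x4, st_arg, st_dat, st_acc, st_t1, st_t2, st_t3,
      st_res, st_out, st_cc, st_n, st_s, st_L, st_q, st_tau, st_K, st_w, st_z, st_zb, st_d, st_db,
      st_e, st_v, st_p, st_i, st_j, st_a, st_b, st_B, st_N, st_m, st_h, st_u1, st_u2, st_u3,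
      st_u4, st_u5, st_u6, st_x1, st_x2, st_x3, st_x4] at A
  have A := A.seq (run_adde _ (List.replicate n false) (c.take n)
    (c.drop n ++ R) l0 (by simp [h1, hn]) (by
      show s.res = _
      rw [h2, ← List.append_assoc, List.take_append_drop]) (by simp [hn]) hc ht2 hu)
  simp only [
      upd_arg, upd_dat, upd_acc, upd_t1, upd_t2, upd_t3, upd_res, upd_out, upd_cc, upd_n, upd_s,
      upd_L, upd_q, upd_tau, upd_K, upd_w, upd_z, upd_zb, upd_d, upd_db, upd_e, upd_v, upd_p,
      upd_i, upd_j, upd_a, upd_b, upd_B, upd_N, upd_m, upd_h, upd_u1, upd_u2, upd_u3, upd_u4,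
      upd_u5, upd_u6, upd_x1, upd_x2, upd_x3, upd_x4, st_arg, st_dat, st_acc, st_t1, st_t2, st_t3,
      st_res, st_out, st_cc, st_n, st_s, st_L, st_q, st_tau, st_K, st_w, st_z, st_zb, st_d, st_db,
      st_e, st_v, st_p, st_i, st_j, st_a, st_b, st_B, st_N, st_m, st_h, st_u1, st_u2, st_u3,
      st_u4, st_u5, st_u6, st_x1, st_x2, st_x3, st_x4] at A
  have A := A.seq (run_adde _ (eacL (List.replicate n false) (c.take n))
    ((c.drop n).take n) (c.drop (2 * n) ++ R) l1 rfl (by
      show c.drop n ++ R = _
      rw [two_mul, ← List.drop_drop, ← List.append_assoc, List.take_append_drop])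
    (by rw [e0, hn]) hc ht2 hu)
  simp only [
      upd_arg, upd_dat, upd_acc, upd_t1, upd_t2, upd_t3, upd_res, upd_out, upd_cc, upd_n, upd_s,
      upd_L, upd_q, upd_tau, upd_K, upd_w, upd_z, upd_zb, upd_d, upd_db, upd_e, upd_v, upd_p,
      upd_i, upd_j, upd_a, upd_b, upd_B, upd_N, upd_m, upd_h, upd_u1, upd_u2, upd_u3, upd_u4,
      upd_u5, upd_u6, upd_x1, upd_x2, upd_x3, upd_x4, st_arg, st_dat, st_acc, st_t1, st_t2, st_t3,
      st_res, st_out, st_cc, st_n, st_s, st_L, st_q, st_tau, st_K, st_w, st_z, st_zb, st_d, st_db,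
      st_e, st_v, st_p, st_i, st_j, st_a, st_b, st_B, st_N, st_m, st_h, st_u1, st_u2, st_u3,
      st_u4, st_u5, st_u6, st_x1, st_x2, st_x3, st_x4] at A
  have A := A.seq (run_adde _ (eacL (eacL (List.replicate n false) (c.take n)) ((c.drop n).take n))
    ((c.drop (2 * n)).take n) (c.drop (3 * n) ++ R) l2 rfl (by
      show c.drop (2 * n) ++ R = _
      rw [show 3 * n = 2 * n + n by ring, ← List.drop_drop, ← List.append_assoc,
        List.take_append_drop]) (by rw [e1, hn]) hc ht2 hu)
  simp only [
      upd_arg, upd_dat, upd_acc, upd_t1, upd_t2, upd_t3, upd_res, upd_out, upd_cc, upd_n, upd_s,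
      upd_L, upd_q, upd_tau, upd_K, upd_w, upd_z, upd_zb, upd_d, upd_db, upd_e, upd_v, upd_p,
      upd_i, upd_j, upd_a, upd_b, upd_B, upd_N, upd_m, upd_h, upd_u1, upd_u2, upd_u3, upd_u4,
      upd_u5, upd_u6, upd_x1, upd_x2, upd_x3, upd_x4, st_arg, st_dat, st_acc, st_t1, st_t2, st_t3,
      st_res, st_out, st_cc, st_n, st_s, st_L, st_q, st_tau, st_K, st_w, st_z, st_zb, st_d, st_db,
      st_e, st_v, st_p, st_i, st_j, st_a, st_b, st_B, st_N, st_m, st_h, st_u1, st_u2, st_u3,
      st_u4, st_u5, st_u6, st_x1, st_x2, st_x3, st_x4] at A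
  have A := A.seq (run_adde _ (eacL (eacL (eacL (List.replicate n false) (c.take n))
    ((c.drop n).take n)) ((c.drop (2 * n)).take n)) (c.drop (3 * n)) R l3 rfl rfl (by rw [e2, hn])
    hc ht2 hu)
  simp only [
      upd_arg, upd_dat, upd_acc, upd_t1, upd_t2, upd_t3, upd_res, upd_out, upd_cc, upd_n, upd_s,
      upd_L, upd_q, upd_tau, upd_K, upd_w, upd_z, upd_zb, upd_d, upd_db, upd_e, upd_v, upd_p,
      upd_i, upd_j, upd_a, upd_b, upd_B, upd_N, upd_m, upd_h, upd_u1, upd_u2, upd_u3, upd_u4,
      upd_u5, upd_u6, upd_x1, upd_x2, upd_x3, upd_x4, st_arg, st_dat, st_acc, st_t1, st_t2, st_t3,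
      st_res, st_out, st_cc, st_n, st_s, st_L, st_q, st_tau, st_K, st_w, st_z, st_zb, st_d, st_db,
      st_e, st_v, st_p, st_i, st_j, st_a, st_b, st_B, st_N, st_m, st_h, st_u1, st_u2, st_u3,
      st_u4, st_u5, st_u6, st_x1, st_x2, st_x3, st_x4] at A
  have A := A.seq (w_moveAll .t1 .dat (by decide) rfl rfl)
  simp only [
      upd_arg, upd_dat, upd_acc, upd_t1, upd_t2, upd_t3, upd_res, upd_out, upd_cc, upd_n, upd_s,
      upd_L, upd_q, upd_tau, upd_K, upd_w, upd_z, upd_zb, upd_d, upd_db, upd_e, upd_v, upd_p,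
      upd_i, upd_j, upd_a, upd_b, upd_B, upd_N, upd_m, upd_h, upd_u1, upd_u2, upd_u3, upd_u4,
      upd_u5, upd_u6, upd_x1, upd_x2, upd_x3, upd_x4, st_arg, st_dat, st_acc, st_t1, st_t2, st_t3,
      st_res, st_out, st_cc, st_n, st_s, st_L, st_q, st_tau, st_K, st_w, st_z, st_zb, st_d, st_db,
      st_e, st_v, st_p, st_i, st_j, st_a, st_b, st_B, st_N, st_m, st_h, st_u1, st_u2, st_u3,
      st_u4, st_u5, st_u6, st_x1, st_x2, st_x3, st_x4] at A
  refine A.congr ?_ ?_
  · congr 1
    simp [redL, h1]
  · simp only [List.length_replicate, e0, e1, e2, e3]; omega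

end Vale.Agent.P338
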