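import Vale.Agent.Lib.P338.WLib

/-! Module SETUP of P338: the set-up phase of the transposition program. -/

set_option linter.constructorNameAsVariable false

namespace Vale.Agent.P338

open Function

namespace Setup

variable {Ω : (W → List G) → (W → List G) → ℕ → Prop}

/-! ### the square root -/

theorem split4 (l : List Bool) (k : ℕ) (h : 2 * k + 1 ≤ l.length) :
    ∃ (a : Bool) (x y z : List Bool), l = a :: (x ++ (y ++ z)) ∧ x.length = k ∧ y.length = k := by
  cases l with
  | nil => simp at h
  | cons a l =>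
    rw [List.length_cons] at h
    refine ⟨a, l.take k, (l.drop k).take k, (l.drop k).drop k, ?_, ?_, ?_⟩
    · rw [List.take_append_drop, List.take_append_drop]
    · rw [List.length_take]; omega
    · rw [List.length_take, List.length_drop]; omega

/-- move `2 * m + 1` bits and increment `m` -/
def sqBody : Cmd W G :=
  .seq (.seq (.seq (mv .dat .acc) (takeN .dat .acc .m .u1)) (takeN .dat .acc .m .u1))
    (push G.tick .m)

theorem run_sqBody (s : St) (k : ℕ) (a : Bool) (x y z : List Bool) (hx : x.length = k)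
    (hy : y.length = k) (hd : s.dat = a :: (x ++ (y ++ z))) (hm : s.m = k) (hu : s.u1 = 0) :
    Run Ω sqBody s.st (St.st {s with dat := z, acc := y.reverse ++ (x.reverse ++ (a :: s.acc)),
                                     m := k + 1}) (10 * k + 6) := by
  have h := runW_mv (Ω := Ω) (i := W.dat) (j := W.acc) (by decide) (f := s.st) (a := a)
    (x := x ++ (y ++ z)) (y := bw s.acc) (by rw [st_dat, hd]) rfl
  rw [show (G.bit a :: bw s.acc : List G) = bw (a :: s.acc) from rfl] at h
  simp only [upd_dat, upd_acc] at h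
  have h := h.seq (runW_take (i := W.dat) (j := W.acc) (R := W.m) (U := W.u1) (by decide)
    (k := k) (x := x) (y := y ++ z) (z := a :: s.acc) hx rfl rfl (by simp [hm]) (by simp [hu]))
  simp only [upd_dat, upd_acc] at h
  have h := h.seq (runW_take (i := W.dat) (j := W.acc) (R := W.m) (U := W.u1) (by decide)
    (k := k) (x := y) (y := z) (z := x.reverse ++ (a :: s.acc)) hy rfl rfl (by simp [hm])
    (by simp [hu]))
  simp only [upd_dat, upd_acc] at h
  have h := h.seq (runT_push (i := W.m) (k := k) (by simp [hm]))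
  simp only [upd_m] at h
  exact h.congr rfl (by omega)

/-- the loop -/
def sqLoop : Cmd W G := .loop (ne .dat) sqBody

theorem sq_step (v : List Bool) (k : ℕ) {a : Bool} {x y z : List Bool}
    (h : v.drop (k * k) = a :: (x ++ (y ++ z))) (hx : x.length = k) (hy : y.length = k) :
    v.drop ((k + 1) * (k + 1)) = z ∧ (v.take ((k + 1) * (k + 1))).reverse =
      y.reverse ++ (x.reverse ++ (a :: (v.take (k * k)).reverse)) := by
  have e : (k + 1) * (k + 1) = k * k + (1 + (k + k)) := by ring
  have e2 : a :: (x ++ (y ++ z)) = (a :: (x ++ y)) ++ z := by simp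
  have e3 : (a :: (x ++ y)).length = 1 + (k + k) := by simp [hx, hy]; omega
  constructor
  · rw [e, ← List.drop_drop, h, e2, ← e3, List.drop_left]
  · rw [e, List.take_add, h, e2, ← e3, List.take_left]
    simp

theorem run_sqLoop (s : St) (v : List Bool) (m : ℕ) (hv : v.length = m * m) (hu : s.u1 = 0) :
    Run Ω sqLoop (St.st {s with dat := v, acc := [], m := 0})
      (St.st {s with dat := [], acc := v.reverse, m := m}) (m * (10 * m + 7) + 1) := by
  have h := Run.loop_iter (Ω := Ω) (t := ne .dat) (a := sqBody)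
    (fun k => St.st {s with dat := v.drop (k * k), acc := (v.take (k * k)).reverse, m := k}) m
    (10 * m + 6)
    (fun k hk => by
      obtain ⟨a, x, y, z, h, -, -⟩ := split4 (v.drop (k * k)) k (by
        rw [List.length_drop, hv]
        have : (k + 1) * (k + 1) ≤ m * m := Nat.mul_le_mul hk hk
        have e : (k + 1) * (k + 1) = k * k + (1 + (k + k)) := by ring
        omega)
      simp [ne, tops, h])
    (by simp [ne, tops, ← hv])
    (fun k hk => by
      obtain ⟨a, x, y, z, h, hx, hy⟩ := split4 (v.drop (k * k)) k (by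
        rw [List.length_drop, hv]
        have : (k + 1) * (k + 1) ≤ m * m := Nat.mul_le_mul hk hk
        have e : (k + 1) * (k + 1) = k * k + (1 + (k + k)) := by ring
        omega)
      obtain ⟨e1, e2⟩ := sq_step v k h hx hy
      rw [h, e1, e2]
      exact (run_sqBody {s with dat := a :: (x ++ (y ++ z)), acc := (v.take (k * k)).reverse,
                                m := k} k a x y z hx hy rfl rfl hu).mono (by omega))
  refine h.cast ?_ ?_ ?_
  · simp
  · simp [← hv]
  · ring_nf; omega

/-! ### powers of four -/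

theorem runT_pop' {i : W} {f : W → List G} {k : ℕ} (hi : f i = ticks k) :
    Run Ω (pop i) f (update f i (ticks (k - 1))) 1 := by
  refine (run_pop i f).congr ?_ le_rfl
  rw [hi]
  cases k <;> simp [ticks_succ]

/-- `N ← N - 3`, `B ← B + 3` -/
def p4Inner : Cmd W G :=
  .seq (.seq (.seq (.seq (.seq (pop .N) (pop .N)) (pop .N)) (push G.tick .B)) (push G.tick .B))
    (push G.tick .B)

theorem run_p4Inner (s : St) : Run Ω p4Inner s.st (St.st {s with N := s.N - 3, B := s.B + 3})
    6 := by
  have h := runT_pop' (Ω := Ω) (i := W.N) (f := s.st) rfl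
  simp only [upd_N] at h
  have h := h.seq (runT_pop' (i := W.N) rfl)
  simp only [upd_N] at h
  have h := h.seq (runT_pop' (i := W.N) rfl)
  simp only [upd_N] at h
  have h := h.seq (runT_push (i := W.B) rfl)
  simp only [upd_B] at h
  have h := h.seq (runT_push (i := W.B) rfl)
  simp only [upd_B] at h
  have h := h.seq (runT_push (i := W.B) rfl)
  simp only [upd_B] at h
  refine h.congr ?_ (by omega)
  rfl

/-- `B ← 4 * B`, `N ← N - 3 * B`, `h ← h + 1` -/
def p4Body : Cmd W G :=
  .seq (.seq (.seq (copy .B .a .u1) (forT .a .u1 p4Inner)) (clear .a)) (push G.tick .h)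

theorem run_p4Body (s : St) (ha : s.a = 0) (hu : s.u1 = 0) :
    Run Ω p4Body s.st (St.st {s with B := 4 * s.B, N := s.N - 3 * s.B, h := s.h + 1})
      (16 * s.B + 6) := by
  have h := runT_copy (Ω := Ω) (i := W.B) (j := W.a) (k := W.u1) (by decide) (f := s.st)
    (a := s.B) (b := s.a) rfl rfl (by simp [hu])
  simp only [upd_a] at h
  have hf := run_forT (Ω := Ω) (R := W.a) (U := W.u1) (by decide) (body := p4Inner)
    (fun k => St.st {s with N := s.N - 3 * k, B := s.B + 3 * k}) s.B 6 (fun k _ x y => by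
      simp only [upd_a, upd_u1]
      refine (run_p4Inner _).congr ?_ le_rfl
      congr 1)
  simp only [upd_a, upd_u1] at hf
  have h := h.seq (Run.cast hf (by
    congr 1
    simp [ha, hu]) rfl le_rfl)
  have h := h.seq (runT_clear (i := W.a) (k := s.B) rfl)
  simp only [upd_a] at h
  have h := h.seq (runT_push (i := W.h) (k := s.h) rfl)
  simp only [upd_h] at h
  refine h.congr ?_ (by omega)
  congr 1
  simp [ha, hu]
  omega

/-- the loop -/
def p4Loop : Cmd W G := .loop (ne .N) p4Body

theorem run_p4Loop (s : St) (m H : ℕ) (hm : 1 ≤ m) (hH : m ≤ 4 ^ H) (hH' : ∀ k < H, 4 ^ k < m)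
    (ha : s.a = 0) (hu : s.u1 = 0) :
    Run Ω p4Loop (St.st {s with B := 1, N := m - 1, h := 0})
      (St.st {s with B := 4 ^ H, N := 0, h := H}) (m * (16 * m + 7) + 1) := by
  have h := Run.loop_iter (Ω := Ω) (t := ne .N) (a := p4Body)
    (fun k => St.st {s with B := 4 ^ k, N := m - 4 ^ k, h := k}) H (16 * m + 6)
    (fun k hk => by
      have := hH' k hk
      obtain ⟨j, hj⟩ : ∃ j, m - 4 ^ k = j + 1 := ⟨m - 4 ^ k - 1, by omega⟩
      simp [ne, tops, hj, ticks_succ])
    (by
      have : m - 4 ^ H = 0 := by omega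
      simp [ne, tops, this])
    (fun k hk => by
      have := hH' k hk
      refine (run_p4Body {s with B := 4 ^ k, N := m - 4 ^ k, h := k} ha hu).congr ?_ ?_
      · congr 1
        simp only [pow_succ]
        congr 1 <;> omega
      · simp only
        omega)
  have hHm : H ≤ m := by
    rcases Nat.eq_zero_or_pos H with h0 | h0
    · omega
    · have h1 := hH' (H - 1) (by omega)
      have h2 : H - 1 < 4 ^ (H - 1) := Nat.lt_pow_self (by norm_num)
      omega
  refine h.cast ?_ ?_ ?_
  · simp
  · have : m - 4 ^ H = 0 := by omega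
    simp [this]
  · have : H * (16 * m + 6 + 1) ≤ m * (16 * m + 7) := Nat.mul_le_mul hHm (by omega)
    omega

theorem exists_H (m : ℕ) : ∃ H, m ≤ 4 ^ H ∧ ∀ k < H, 4 ^ k < m := by
  have h : ∃ H, m ≤ 4 ^ H := ⟨m, (Nat.lt_pow_self (by norm_num)).le⟩
  classical
  exact ⟨Nat.find h, Nat.find_spec h, fun k hk => not_le.1 (Nat.find_min h hk)⟩

/-! ### comparison -/

/-- `a ← B - m` -/
def cmp : Cmd W G := .seq (copy .B .a .u1) (forT .m .u1 (pop .a))

theorem run_cmp (s : St) (ha : s.a = 0) (hu : s.u1 = 0) :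
    Run Ω cmp s.st (St.st {s with a := s.B - s.m}) (4 * s.B + 5 * s.m + 4) := by
  have h := runT_copy (Ω := Ω) (i := W.B) (j := W.a) (k := W.u1) (by decide) (f := s.st)
    (a := s.B) (b := s.a) rfl rfl (by simp [hu])
  simp only [upd_a] at h
  have hf := run_forT (Ω := Ω) (R := W.m) (U := W.u1) (by decide) (body := pop .a)
    (fun k => St.st {s with a := s.B - k}) s.m 1 (fun k _ x y => by
      simp only [upd_m, upd_u1]
      refine (runT_pop' (i := W.a) (k := s.B - k) rfl).congr ?_ le_rfl
      simp only [upd_a]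
      congr 1)
  simp only [upd_m, upd_u1] at hf
  have h := h.seq (Run.cast hf (by
    congr 1
    simp [ha, hu]) rfl le_rfl)
  refine h.congr ?_ (by omega)
  congr 1
  simp [hu]

/-! ### the odd part -/

/-- move `tau` to `x1` (half) and `x2` (parity) -/
def splitBody : Cmd W G :=
  .seq (pop .tau) (.ite (ne .x2) (.seq (pop .x2) (push G.tick .x1)) (push G.tick .x2))

/-- the loop -/
def split : Cmd W G := .loop (ne .tau) splitBody

theorem run_split (s : St) (t : ℕ) :
    Run Ω split (St.st {s with tau := t, x1 := 0, x2 := 0})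
      (St.st {s with tau := 0, x1 := t / 2, x2 := t % 2}) (5 * t + 1) := by
  have h := Run.loop_iter (Ω := Ω) (t := ne .tau) (a := splitBody)
    (fun k => St.st {s with tau := t - k, x1 := k / 2, x2 := k % 2}) t 4
    (fun k hk => by
      obtain ⟨j, hj⟩ : ∃ j, t - k = j + 1 := ⟨t - k - 1, by omega⟩
      simp [ne, tops, hj, ticks_succ])
    (by simp [ne, tops])
    (fun k hk => by
      obtain ⟨j, hj⟩ : ∃ j, t - k = j + 1 := ⟨t - k - 1, by omega⟩
      have hj' : t - (k + 1) = j := by omega
      rw [hj, hj']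
      have h := runT_pop (Ω := Ω) (i := W.tau) (k := j)
        (f := St.st {s with tau := j + 1, x1 := k / 2, x2 := k % 2}) rfl
      simp only [upd_tau] at h
      rcases Nat.mod_two_eq_zero_or_one k with hk0 | hk1
      · rw [hk0] at h ⊢
        have h2 := runT_push (Ω := Ω) (i := W.x2) (k := 0)
          (f := St.st {s with tau := j, x1 := k / 2, x2 := 0}) rfl
        simp only [upd_x2] at h2
        refine (h.seq (Run.ite_false (by simp [ne, tops]) h2)).congr ?_ (by omega)
        congr 2 <;> omega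
      · rw [hk1] at h ⊢
        have h3 := runT_pop (Ω := Ω) (i := W.x2) (k := 0)
          (f := St.st {s with tau := j, x1 := k / 2, x2 := 1}) rfl
        simp only [upd_x2] at h3
        have h3 := h3.seq (runT_push (i := W.x1) (k := k / 2) rfl)
        simp only [upd_x1] at h3
        refine (h.seq (Run.ite_true (by simp [ne, tops, ticks_succ]) h3)).congr ?_ (by omega)
        congr 2 <;> omega)
  refine h.cast ?_ ?_ ?_
  · simp
  · simp
  · omega

/-- double `K`, halve `tau` -/
def oddBody : Cmd W G :=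
  .seq (.seq (.seq (copy .K .a .u1) (moveAll .a .K)) (moveAll .x1 .tau)) split

/-- the test for the loop: `x2` empty -/
def em (i : W) : (W → Option G) → Bool := fun t => (t i).isNone

theorem run_oddBody (s : St) (K t : ℕ) (ha : s.a = 0) (hu : s.u1 = 0) :
    Run Ω oddBody (St.st {s with K := K, tau := 0, x1 := t, x2 := 0})
      (St.st {s with K := 2 * K, tau := 0, x1 := t / 2, x2 := t % 2}) (6 * K + 7 * t + 5) := by
  have h := runT_copy (Ω := Ω) (i := W.K) (j := W.a) (k := W.u1) (by decide)
    (f := St.st {s with K := K, tau := 0, x1 := t, x2 := 0})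
    (a := K) (b := 0) rfl (by simp [ha]) (by simp [hu])
  simp only [upd_a] at h
  have h := h.seq (runT_moveAll (i := W.a) (j := W.K) (by decide) (k := K + 0) (m := K) rfl rfl)
  simp only [upd_a, upd_K] at h
  have h := h.seq (runT_moveAll (i := W.x1) (j := W.tau) (by decide) (k := t) (m := 0) rfl rfl)
  simp only [upd_x1, upd_tau] at h
  have h2 := run_split (Ω := Ω) {s with K := K + (K + 0), a := 0} (t + 0)
  have h := h.seq (Run.cast h2 (by congr 1) rfl le_rfl)
  refine h.congr ?_ (by omega)
  congr 1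
  simp [ha]
  omega

/-- from `h ≥ 1` (in `h`): `K` and `tau` -/
def oddPart : Cmd W G :=
  .seq (.seq (.seq (.seq (.seq (.seq (.seq (push G.tick .K) (copy .h .tau .u1)) (moveAll .h .tau))
    split) (.loop (em .x2) oddBody)) (copy .x1 .tau .u1)) (moveAll .x1 .tau)) (moveAll .x2 .tau)

theorem div_even {t k : ℕ} (hk : k < padicValNat 2 t) : t / 2 ^ k % 2 = 0 := by
  obtain ⟨o, ho⟩ := pow_padicValNat_dvd (p := 2) (n := t)
  obtain ⟨j, hj⟩ : ∃ j, padicValNat 2 t = k + (j + 1) := ⟨padicValNat 2 t - k - 1, by omega⟩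
  rw [hj] at ho
  have : t / 2 ^ k = 2 * (2 ^ j * o) := by
    rw [ho, pow_add, mul_assoc, Nat.mul_div_cancel_left _ (by positivity)]
    ring
  omega

theorem div_odd {t : ℕ} (ht : t ≠ 0) : t / 2 ^ padicValNat 2 t % 2 = 1 := by
  obtain ⟨o, ho⟩ := pow_padicValNat_dvd (p := 2) (n := t)
  have h1 : t / 2 ^ padicValNat 2 t = o := Nat.div_eq_of_eq_mul_right (by positivity) ho
  rw [h1]
  by_contra hcon
  apply pow_succ_padicValNat_not_dvd (p := 2) ht
  obtain ⟨o', rfl⟩ : 2 ∣ o := by omega
  refine ⟨o', ?_⟩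
  conv_lhs => rw [ho]
  ring

theorem run_oddLoop (s : St) (t : ℕ) (ht : t ≠ 0) (ha : s.a = 0) (hu : s.u1 = 0) :
    Run Ω (.loop (em .x2) oddBody) (St.st {s with K := 1, tau := 0, x1 := t / 2, x2 := t % 2})
      (St.st {s with K := 2 ^ padicValNat 2 t, tau := 0, x1 := t / 2 ^ padicValNat 2 t / 2,
                     x2 := 1}) (t * (10 * t + 6) + 1) := by
  set v := padicValNat 2 t with hv
  have h2v : 2 ^ v ≤ t := Nat.le_of_dvd (by omega) pow_padicValNat_dvd
  have hvt : v ≤ t := (Nat.lt_pow_self (by norm_num)).le.trans h2v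
  have h := Run.loop_iter (Ω := Ω) (t := em .x2) (a := oddBody)
    (fun k => St.st {s with K := 2 ^ k, tau := 0, x1 := t / 2 ^ k / 2, x2 := t / 2 ^ k % 2}) v
    (10 * t + 5)
    (fun k hk => by simp [em, tops, div_even hk])
    (by simp [em, tops, hv, div_odd ht, ticks_succ])
    (fun k hk => by
      have h1 := run_oddBody (Ω := Ω) s (2 ^ k) (t / 2 ^ k / 2) ha hu
      rw [div_even hk]
      have e1 : t / 2 ^ k / 2 = t / 2 ^ (k + 1) := by
        rw [Nat.div_div_eq_div_mul, pow_succ]
      refine h1.congr ?_ ?_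
      · rw [e1, pow_succ, mul_comm (2 ^ k) 2]
      · have e2 : 2 ^ k ≤ 2 ^ v := Nat.pow_le_pow_right (by norm_num) hk.le
        have e3 : t / 2 ^ k / 2 ≤ t / 2 := Nat.div_le_div_right (Nat.div_le_self _ _)
        omega)
  refine h.cast ?_ ?_ ?_
  · simp
  · simp only [hv, div_odd ht]
  · have := Nat.mul_le_mul_right (10 * t + 6) hvt
    have e : v * (10 * t + 5 + 1) = v * (10 * t + 6) := by ring
    omega

theorem run_oddPart (s : St) (H : ℕ) (hH : 1 ≤ H) (hh : s.h = H) (hK : s.K = 0) (ht : s.tau = 0)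
    (hx1 : s.x1 = 0) (hx2 : s.x2 = 0) (ha : s.a = 0) (hu : s.u1 = 0) :
    Run Ω oddPart s.st
      (St.st {s with K := 2 ^ padicValNat 2 (2 * H), tau := 2 * H / 2 ^ padicValNat 2 (2 * H),
                     h := 0}) (40 * (H * H) + 40 * H + 20) := by
  have h := runT_push (Ω := Ω) (i := W.K) (k := 0) (f := s.st) (by simp [hK])
  simp only [upd_K] at h
  have h := h.seq (runT_copy (i := W.h) (j := W.tau) (k := W.u1) (by decide)
    (a := H) (b := 0) (by simp [hh]) (by simp [ht]) (by simp [hu]))
  simp only [upd_tau] at h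
  have h := h.seq (runT_moveAll (i := W.h) (j := W.tau) (by decide) (k := H) (m := H + 0)
    (by simp [hh]) rfl)
  simp only [upd_h, upd_tau] at h
  have h2 := run_split (Ω := Ω) {s with K := 1, h := 0} (2 * H)
  have h := h.seq (Run.cast h2 (by
    congr 1
    simp [hx1, hx2]
    omega) rfl le_rfl)
  have h3 := run_oddLoop (Ω := Ω) {s with K := 1, h := 0} (2 * H) (by omega) ha hu
  have h := h.seq h3
  set o := 2 * H / 2 ^ padicValNat 2 (2 * H) with ho
  have hodd : o % 2 = 1 := div_odd (by omega)
  have ho' : o ≤ 2 * H := Nat.div_le_self _ _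
  have h := h.seq (runT_copy (i := W.x1) (j := W.tau) (k := W.u1) (by decide)
    (a := o / 2) (b := 0) rfl rfl (by simp [hu]))
  simp only [upd_tau] at h
  have h := h.seq (runT_moveAll (i := W.x1) (j := W.tau) (by decide) (k := o / 2) (m := o / 2 + 0)
    rfl rfl)
  simp only [upd_x1, upd_tau] at h
  have h := h.seq (runT_moveAll (i := W.x2) (j := W.tau) (by decide) (k := 1)
    (m := o / 2 + (o / 2 + 0)) rfl rfl)
  simp only [upd_x2, upd_tau] at h
  refine h.congr ?_ ?_
  · congr 1
    simp [hx1, hx2]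
    omega
  · have : 2 * H * (10 * (2 * H) + 6) = 40 * (H * H) + 12 * H := by ring
    omega

/-! ### the powers of two -/

/-- `q ← 2 * q` -/
def dbl : Cmd W G := .seq (copy .q .a .u2) (moveAll .a .q)

theorem run_dbl (s : St) (ha : s.a = 0) (hu : s.u2 = 0) :
    Run Ω dbl s.st (St.st {s with q := 2 * s.q}) (6 * s.q + 3) := by
  have h := runT_copy (Ω := Ω) (i := W.q) (j := W.a) (k := W.u2) (by decide)
    (f := s.st) (a := s.q) (b := 0) rfl (by simp [ha]) (by simp [hu])
  simp only [upd_a] at h
  have h := h.seq (runT_moveAll (i := W.a) (j := W.q) (by decide) (k := s.q + 0) (m := s.q)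
    rfl rfl)
  simp only [upd_a, upd_q] at h
  refine h.congr ?_ (by omega)
  congr 1
  simp [ha]
  omega

/-- `q ← 2 ^ tau` and `L ← q * q` -/
def qPart : Cmd W G :=
  .seq (.seq (.seq (.seq (push G.tick .q) (forT .tau .u1 dbl)) (copy .q .a .u1))
    (forT .a .u1 (copy .q .L .u2))) (clear .a)

theorem run_qPart (s : St) (ha : s.a = 0) (hq : s.q = 0) (hL : s.L = 0) (hu : s.u1 = 0)
    (hu2 : s.u2 = 0) :
    Run Ω qPart s.st (St.st {s with q := 2 ^ s.tau, L := 2 ^ s.tau * 2 ^ s.tau})
      (s.tau * (6 * 2 ^ s.tau + 7) + 4 * (2 ^ s.tau * 2 ^ s.tau) + 12 * 2 ^ s.tau + 8) := by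
  have h := runT_push (Ω := Ω) (i := W.q) (k := 0) (f := s.st) (by simp [hq])
  simp only [upd_q] at h
  have hf := run_forT (Ω := Ω) (R := W.tau) (U := W.u1) (by decide) (body := dbl)
    (fun k => St.st {s with q := 2 ^ k}) s.tau (6 * 2 ^ s.tau + 3) (fun k hk x y => by
      simp only [upd_tau, upd_u1]
      refine (run_dbl _ (by simp [ha]) (by simp [hu2])).congr ?_ ?_
      · congr 1
        simp [pow_succ, mul_comm]
      · have : 2 ^ k ≤ 2 ^ s.tau := Nat.pow_le_pow_right (by norm_num) hk.le
        simp only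
        omega)
  simp only [upd_tau, upd_u1] at hf
  have h := h.seq (Run.cast hf (by
    congr 1
    simp [hu]) rfl le_rfl)
  set Q := 2 ^ s.tau with hQ
  have h := h.seq (runT_copy (i := W.q) (j := W.a) (k := W.u1) (by decide)
    (a := Q) (b := 0) rfl (by simp [ha]) (by simp))
  simp only [upd_a] at h
  have hg := run_forT (Ω := Ω) (R := W.a) (U := W.u1) (by decide) (body := copy .q .L .u2)
    (fun k => St.st {s with q := Q, L := k * Q}) Q (4 * Q + 2) (fun k hk x y => by
      simp only [upd_a, upd_u1]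
      refine (runT_copy (i := W.q) (j := W.L) (k := W.u2) (by decide) (a := Q) (b := k * Q)
        rfl rfl (by simp [hu2])).congr ?_ le_rfl
      simp only [upd_L]
      congr 1
      simp
      ring)
  simp only [upd_a, upd_u1] at hg
  have h := h.seq (Run.cast hg (by
    congr 1
    simp [hL]) rfl le_rfl)
  have h := h.seq (runT_clear (i := W.a) (k := Q) rfl)
  simp only [upd_a] at h
  refine h.congr ?_ ?_
  · congr 1
    simp [ha, hu]
  · have : Q * (4 * Q + 2 + 4) = 4 * (Q * Q) + 6 * Q := by ring
    have e2 : s.tau * (6 * Q + 3 + 4) = s.tau * (6 * Q + 7) := by ring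
    omega

/-! ### the whole phase -/

/-- the first part -/
def first : Cmd W G :=
  .seq (.seq (.seq (.seq (.seq (.seq (.seq sqLoop (moveAll .acc .t1)) (moveAll .t1 .dat))
    (push G.tick .B)) (copy .m .N .u1)) (pop .N)) p4Loop) cmp

theorem run_first (m H : ℕ) (w : List Bool) (hm : 1 ≤ m) (hw : w.length = m * m)
    (hH : m ≤ 4 ^ H) (hH' : ∀ k < H, 4 ^ k < m) :
    Run Ω first (St.st {E with dat := w.reverse})
      (St.st {E with dat := w, m := m, B := 4 ^ H, h := H, a := 4 ^ H - m})
      (30 * (m * m) + 27 * m + 12 + 4 * 4 ^ H) := by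
  have h := run_sqLoop (Ω := Ω) E w.reverse m (by simpa using hw) rfl
  rw [List.reverse_reverse] at h
  have h := h.seq (runW_moveAll (i := W.acc) (j := W.t1) (by decide) (x := w) (y := []) rfl rfl)
  simp only [upd_acc, upd_t1] at h
  have h := h.seq (runW_moveAll (i := W.t1) (j := W.dat) (by decide) (x := w.reverse ++ [])
    (y := []) rfl rfl)
  simp only [upd_dat, upd_t1] at h
  have h := h.seq (runT_push (i := W.B) (k := 0) rfl)
  simp only [upd_B] at h
  have h := h.seq (runT_copy (i := W.m) (j := W.N) (k := W.u1) (by decide)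
    (a := m) (b := 0) rfl rfl rfl)
  simp only [upd_N] at h
  have h := h.seq (runT_pop' (i := W.N) (k := m + 0) rfl)
  simp only [upd_N] at h
  have h4 := run_p4Loop (Ω := Ω) {E with dat := (w.reverse ++ []).reverse ++ [], m := m} m H hm hH
    hH' rfl rfl
  have h := h.seq (Run.cast h4 rfl rfl le_rfl)
  have h := h.seq (run_cmp _ rfl rfl)
  refine h.congr ?_ ?_
  · congr 1
    simp
  · have e1 : m * (10 * m + 7) = 10 * (m * m) + 7 * m := by ring
    have e2 : m * (16 * m + 7) = 16 * (m * m) + 7 * m := by ring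
    simp only [List.length_append, List.length_reverse, hw, List.length_nil]
    omega

/-- is `m = 4 ^ h` with `h ≥ 1`? -/
def test : (W → Option G) → Bool := fun t => (t .a).isNone && (t .h).isSome

/-- the fast case -/
def fast : Cmd W G := .seq (.seq (.seq (clear .B) oddPart) qPart) (push G.tick .x4)

/-- the slow case -/
def slow : Cmd W G := .seq (.seq (clear .a) (clear .B)) (clear .h)

/-- the program -/
def prog : Cmd W G := .seq first (.ite test fast slow)

end Setup

/-- the state after the set-up phase in the fast case `m = 4 ^ h`, `h ≥ 1`: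
`K = 2 ^ (2-adic valuation of 2 * h)`, `tau = 2 * h / K`, `q = 2 ^ tau`, `L = q * q`. -/
@[reducible] def fastSt (w : List Bool) (m h : ℕ) : St :=
  {E with dat := w, m := m, x4 := 1, K := 2 ^ padicValNat 2 (2 * h),
          tau := 2 * h / 2 ^ padicValNat 2 (2 * h),
          q := 2 ^ (2 * h / 2 ^ padicValNat 2 (2 * h)),
          L := 2 ^ (2 * h / 2 ^ padicValNat 2 (2 * h)) * 2 ^ (2 * h / 2 ^ padicValNat 2 (2 * h))}

open Setup in
/-- The set-up phase. -/
theorem exists_setup : ∃ (setup : Cmd W G) (C : ℕ), ∀ (m : ℕ) (w : List Bool), 1 ≤ m →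
    w.length = m * m →
    (∀ h, 1 ≤ h → m = 4 ^ h →
      Run noOracle setup (St.st {E with dat := w.reverse}) (St.st (fastSt w m h)) (C * (m * m))) ∧
    ((∀ h, 1 ≤ h → m ≠ 4 ^ h) → ∃ k,
      Run noOracle setup (St.st {E with dat := w.reverse})
        (St.st {E with dat := w, m := m}) k) := by
  refine ⟨prog, 300, fun m w hm hw => ⟨fun h hh hmh => ?_, fun hne => ?_⟩⟩
  · have h1 := run_first (Ω := noOracle) m h w hm hw hmh.le (fun k hk => by
      rw [hmh]
      exact Nat.pow_lt_pow_right (by norm_num) hk)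
    set v := padicValNat 2 (2 * h) with hv
    set τ := 2 * h / 2 ^ v with hτ
    -- sizes
    have hhm : h ≤ m := by rw [hmh]; exact (Nat.lt_pow_self (by norm_num)).le
    have hτh : τ ≤ 2 * h := Nat.div_le_self _ _
    have hτm : τ ≤ m := by
      have h2 : 2 * h ≤ 4 ^ h := by
        have : 2 * h ≤ 2 ^ (2 * h) := (Nat.lt_pow_self (by norm_num)).le
        rwa [pow_mul] at this
      omega
    have hqm : 2 ^ τ ≤ m := by
      rw [hmh, show (4 : ℕ) = 2 ^ 2 by norm_num, ← pow_mul]
      exact Nat.pow_le_pow_right (by norm_num) hτh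
    -- the fast branch
    have g1 := runT_clear (Ω := noOracle) (i := W.B) (k := m)
      (f := St.st {E with dat := w, m := m, B := m, h := h, a := 0}) rfl
    simp only [upd_B] at g1
    have g2 := g1.seq (run_oddPart {E with dat := w, m := m, B := 0, h := h, a := 0} h hh rfl rfl
      rfl rfl rfl rfl rfl)
    have g3 := g2.seq (run_qPart {E with dat := w, m := m, K := 2 ^ v, tau := τ} rfl rfl rfl rfl
      rfl)
    have g4 := g3.seq (runT_push (i := W.x4) (k := 0) rfl)
    simp only [upd_x4] at g4
    have h2 := h1.seq (Run.cast (Run.ite_true (t := test) (b := slow) ?_ g4) ?_ rfl le_rfl)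
    · refine h2.congr rfl ?_
      have e1 : h * h ≤ m * m := Nat.mul_le_mul hhm hhm
      have e2 : τ * (6 * 2 ^ τ + 7) ≤ m * (6 * m + 7) := Nat.mul_le_mul hτm (by omega)
      have e3 : 2 ^ τ * 2 ^ τ ≤ m * m := Nat.mul_le_mul hqm hqm
      have e4 : m * (6 * m + 7) = 6 * (m * m) + 7 * m := by ring
      have e5 : m ≤ m * m := Nat.le_mul_of_pos_left m hm
      rw [← hmh]
      omega
    · obtain ⟨j, hj⟩ : ∃ j, h = j + 1 := ⟨h - 1, by omega⟩
      simp [test, tops, hj, ticks_succ]
    · rw [← hmh]
      congr 1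
      simp
  · obtain ⟨H, hH, hH'⟩ := exists_H m
    have h1 := run_first (Ω := noOracle) m H w hm hw hH hH'
    have g1 := runT_clear (Ω := noOracle) (i := W.a) (k := 4 ^ H - m)
      (f := St.st {E with dat := w, m := m, B := 4 ^ H, h := H, a := 4 ^ H - m}) rfl
    simp only [upd_a] at g1
    have g2 := g1.seq (runT_clear (i := W.B) (k := 4 ^ H) rfl)
    simp only [upd_B] at g2
    have g3 := g2.seq (runT_clear (i := W.h) (k := H) rfl)
    simp only [upd_h] at g3
    refine ⟨_, h1.seq (Run.ite_false ?_ g3)⟩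
    by_cases hc : m = 4 ^ H
    · have : H = 0 := by
        by_contra h0
        exact hne H (by omega) hc
      subst this
      simp [test, tops]
    · obtain ⟨j, hj⟩ : ∃ j, 4 ^ H - m = j + 1 := ⟨4 ^ H - m - 1, by omega⟩
      simp [test, tops, hj, ticks_succ]

end Vale.Agent.P338
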