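import Vale.Agent.Lib.P338.Assembly
import Vale.Agent.Lib.P338.Setup
import Vale.Agent.Lib.P338.Main
import Vale.Agent.Lib.P338.Final

/-! The reduction of matrix transposition to integer multiplication. -/

namespace Vale.Agent.P338

/-- The reduction, for matrices of size `4 ^ h`. -/
theorem reduction_four (A : Machine) (hA : A.Multiplies) :
    ∃ (B : Machine) (C : ℕ), B.Transposes ∧ ∀ h T : ℕ, 1 ≤ h →
      (∀ ν, 32 * 16 ^ h ≤ ν → ν ≤ 48 * 16 ^ h → A.mulTime ν ≤ T) →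
      B.transTime (4 ^ h) ≤ C * ((51000 * (2 ^ padicValNat 2 (2 * h)) ^ 2 + 1) * (T + 16 ^ h) +
        16 ^ h * (2 * h / 2 ^ padicValNat 2 (2 * h))) :=
  reduction_of (fun κ => 51000 * (2 ^ κ) ^ 2) fastSt (fun _ _ _ => rfl) exists_setup
    (exists_main' fastSt fun _ _ _ => rfl) A hA

/-- The reduction, for matrices of size `n = 2 ^ (K * r)`, where `K = 2 ^ k` and `r` is odd. -/
theorem reduction (A : Machine) (hA : A.Multiplies) :
    ∃ (B : Machine) (C : ℕ), B.Transposes ∧ ∀ k r n T : ℕ, 1 ≤ k → Odd r → n = 2 ^ (2 ^ k * r) →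
      (∀ ν, 32 * n ^ 2 ≤ ν → ν ≤ 48 * n ^ 2 → A.mulTime ν ≤ T) →
      B.transTime n ≤ C * ((2 ^ k) ^ 2 * (T + n ^ 2) + n ^ 2 * r) := by
  obtain ⟨B, C, hB, h⟩ := reduction_four A hA
  refine ⟨B, C * 51001, hB, ?_⟩
  rintro k r n T hk hr rfl hT
  obtain ⟨j, rfl⟩ : ∃ j, k = j + 1 := ⟨k - 1, by omega⟩
  have hr0 : 1 ≤ r := hr.pos
  have e0 : 2 ^ (2 ^ (j + 1) * r) = 4 ^ (2 ^ j * r) := by
    rw [show (4 : ℕ) = 2 ^ 2 by norm_num, ← pow_mul]
    congr 1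
    ring
  have e1 : (4 ^ (2 ^ j * r)) ^ 2 = 16 ^ (2 ^ j * r) := by
    rw [← pow_mul, mul_comm _ 2, pow_mul]
    norm_num
  have e2 : padicValNat 2 (2 * (2 ^ j * r)) = j + 1 := by
    rw [show 2 * (2 ^ j * r) = 2 ^ (j + 1) * r by ring,
      padicValNat.mul (by positivity) (by omega), padicValNat.prime_pow,
      padicValNat.eq_zero_of_not_dvd (by
        have := hr.not_two_dvd_nat
        exact this), add_zero]
  have e3 : 2 * (2 ^ j * r) / 2 ^ (j + 1) = r := by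
    rw [show 2 * (2 ^ j * r) = 2 ^ (j + 1) * r by ring,
      Nat.mul_div_cancel_left _ (by positivity)]
  rw [e0, e1] at hT ⊢
  have h1 := h (2 ^ j * r) T (by
    have : 1 ≤ 2 ^ j := Nat.one_le_pow _ _ (by norm_num)
    exact Nat.mul_pos this hr0) hT
  rw [e2, e3] at h1
  refine h1.trans ?_
  rw [mul_assoc]
  refine Nat.mul_le_mul_left _ ?_
  have h2 : 1 ≤ (2 ^ (j + 1)) ^ 2 := Nat.one_le_pow _ _ (by positivity)
  have h3 : (51000 * (2 ^ (j + 1)) ^ 2 + 1) * (T + 16 ^ (2 ^ j * r)) ≤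
      (51001 * (2 ^ (j + 1)) ^ 2) * (T + 16 ^ (2 ^ j * r)) :=
    Nat.mul_le_mul_right _ (by omega)
  calc _ ≤ (51001 * (2 ^ (j + 1)) ^ 2) * (T + 16 ^ (2 ^ j * r)) +
        51001 * (16 ^ (2 ^ j * r) * r) := Nat.add_le_add h3 (Nat.le_mul_of_pos_left _ (by norm_num))
    _ = _ := by ring

/-- The lower bound. -/
theorem lower (hyp : ∀ B : Machine, B.Transposes → ∃ c : ℝ, 0 < c ∧ ∃ N : ℕ, ∀ n ≥ N,
      c * (n : ℝ) ^ 2 * Real.log n ≤ B.transTime n)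
    (A : Machine) (hA : A.Multiplies) :
    ∃ c : ℝ, 0 < c ∧ ∃ C N : ℕ, ∀ n ≥ N, ∃ ν, ν ≤ n ∧ n ≤ C * ν ∧
      c * (n : ℝ) * Real.log n ≤ A.mulTime ν := by
  refine final (fun A hA => ?_) hyp A hA
  obtain ⟨B, C, hB, h⟩ := reduction_four A hA
  refine ⟨B, fun κ => C * (51000 * (2 ^ κ) ^ 2 + 1), C, hB, fun h' T h1 h2 => ?_⟩
  refine (h h' T h1 h2).trans (le_of_eq ?_)
  ring

end Vale.Agent.P338
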