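import Vale.Agent.Lib.P338.Macros

/-! The concrete state of the transposition program: words (lists of bits), the argument of the
oracle, and unary registers. Generated file. -/

namespace Vale.Agent.P338

open Function

/-- Names of the stacks. -/
inductive W
  | arg
  | dat
  | acc
  | t1
  | t2
  | t3
  | res
  | out
  | cc
  | n
  | s
  | L
  | q
  | tau
  | K
  | w
  | z
  | zb
  | d
  | db
  | e
  | v
  | p
  | i
  | j
  | a
  | b
  | B
  | N
  | m
  | h
  | u1
  | u2
  | u3
  | u4
  | u5
  | u6
  | x1
  | x2
  | x3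
  | x4
  deriving DecidableEq

/-- The stacks as a list. -/
def W.all : List W := [.arg, .dat, .acc, .t1, .t2, .t3, .res, .out, .cc, .n, .s, .L, .q, .tau, .K, .w, .z, .zb, .d, .db, .e, .v, .p, .i, .j, .a, .b, .B, .N, .m, .h, .u1, .u2, .u3, .u4, .u5, .u6, .x1, .x2, .x3, .x4]

instance : Fintype W := ⟨⟨W.all, by decide⟩, by intro x; cases x <;> decide⟩

/-- The state. -/
structure St where
  arg : List G
  dat : List Bool
  acc : List Bool
  t1 : List Bool
  t2 : List Bool
  t3 : List Bool
  res : List Bool
  out : List Bool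
  cc : List Bool
  n : ℕ
  s : ℕ
  L : ℕ
  q : ℕ
  tau : ℕ
  K : ℕ
  w : ℕ
  z : ℕ
  zb : ℕ
  d : ℕ
  db : ℕ
  e : ℕ
  v : ℕ
  p : ℕ
  i : ℕ
  j : ℕ
  a : ℕ
  b : ℕ
  B : ℕ
  N : ℕ
  m : ℕ
  h : ℕ
  u1 : ℕ
  u2 : ℕ
  u3 : ℕ
  u4 : ℕ
  u5 : ℕ
  u6 : ℕ
  x1 : ℕ
  x2 : ℕ
  x3 : ℕ
  x4 : ℕ

/-- A unary number. -/
def ticks (k : ℕ) : List G := List.replicate k G.tick

/-- A word. -/
abbrev bw (l : List Bool) : List G := l.map G.bit

/-- The empty state. -/
@[reducible] def E : St where
  arg := []
  dat := []
  acc := []
  t1 := []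
  t2 := []
  t3 := []
  res := []
  out := []
  cc := []
  n := 0
  s := 0
  L := 0
  q := 0
  tau := 0
  K := 0
  w := 0
  z := 0
  zb := 0
  d := 0
  db := 0
  e := 0
  v := 0
  p := 0
  i := 0
  j := 0
  a := 0
  b := 0
  B := 0
  N := 0
  m := 0
  h := 0
  u1 := 0
  u2 := 0
  u3 := 0
  u4 := 0
  u5 := 0
  u6 := 0
  x1 := 0
  x2 := 0
  x3 := 0
  x4 := 0

/-- The stacks of a state. -/
def St.st (s : St) : W → List G
  | .arg => s.arg
  | .dat => bw s.dat
  | .acc => bw s.acc
  | .t1 => bw s.t1
  | .t2 => bw s.t2
  | .t3 => bw s.t3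
  | .res => bw s.res
  | .out => bw s.out
  | .cc => bw s.cc
  | .n => ticks s.n
  | .s => ticks s.s
  | .L => ticks s.L
  | .q => ticks s.q
  | .tau => ticks s.tau
  | .K => ticks s.K
  | .w => ticks s.w
  | .z => ticks s.z
  | .zb => ticks s.zb
  | .d => ticks s.d
  | .db => ticks s.db
  | .e => ticks s.e
  | .v => ticks s.v
  | .p => ticks s.p
  | .i => ticks s.i
  | .j => ticks s.j
  | .a => ticks s.a
  | .b => ticks s.b
  | .B => ticks s.B
  | .N => ticks s.N
  | .m => ticks s.m
  | .h => ticks s.h
  | .u1 => ticks s.u1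
  | .u2 => ticks s.u2
  | .u3 => ticks s.u3
  | .u4 => ticks s.u4
  | .u5 => ticks s.u5
  | .u6 => ticks s.u6
  | .x1 => ticks s.x1
  | .x2 => ticks s.x2
  | .x3 => ticks s.x3
  | .x4 => ticks s.x4

@[simp] theorem st_arg (s : St) : s.st .arg = s.arg := rfl
@[simp] theorem st_dat (s : St) : s.st .dat = bw s.dat := rfl
@[simp] theorem st_acc (s : St) : s.st .acc = bw s.acc := rfl
@[simp] theorem st_t1 (s : St) : s.st .t1 = bw s.t1 := rfl
@[simp] theorem st_t2 (s : St) : s.st .t2 = bw s.t2 := rfl
@[simp] theorem st_t3 (s : St) : s.st .t3 = bw s.t3 := rfl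
@[simp] theorem st_res (s : St) : s.st .res = bw s.res := rfl
@[simp] theorem st_out (s : St) : s.st .out = bw s.out := rfl
@[simp] theorem st_cc (s : St) : s.st .cc = bw s.cc := rfl
@[simp] theorem st_n (s : St) : s.st .n = ticks s.n := rfl
@[simp] theorem st_s (s : St) : s.st .s = ticks s.s := rfl
@[simp] theorem st_L (s : St) : s.st .L = ticks s.L := rfl
@[simp] theorem st_q (s : St) : s.st .q = ticks s.q := rfl
@[simp] theorem st_tau (s : St) : s.st .tau = ticks s.tau := rfl
@[simp] theorem st_K (s : St) : s.st .K = ticks s.K := rfl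
@[simp] theorem st_w (s : St) : s.st .w = ticks s.w := rfl
@[simp] theorem st_z (s : St) : s.st .z = ticks s.z := rfl
@[simp] theorem st_zb (s : St) : s.st .zb = ticks s.zb := rfl
@[simp] theorem st_d (s : St) : s.st .d = ticks s.d := rfl
@[simp] theorem st_db (s : St) : s.st .db = ticks s.db := rfl
@[simp] theorem st_e (s : St) : s.st .e = ticks s.e := rfl
@[simp] theorem st_v (s : St) : s.st .v = ticks s.v := rfl
@[simp] theorem st_p (s : St) : s.st .p = ticks s.p := rfl
@[simp] theorem st_i (s : St) : s.st .i = ticks s.i := rfl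
@[simp] theorem st_j (s : St) : s.st .j = ticks s.j := rfl
@[simp] theorem st_a (s : St) : s.st .a = ticks s.a := rfl
@[simp] theorem st_b (s : St) : s.st .b = ticks s.b := rfl
@[simp] theorem st_B (s : St) : s.st .B = ticks s.B := rfl
@[simp] theorem st_N (s : St) : s.st .N = ticks s.N := rfl
@[simp] theorem st_m (s : St) : s.st .m = ticks s.m := rfl
@[simp] theorem st_h (s : St) : s.st .h = ticks s.h := rfl
@[simp] theorem st_u1 (s : St) : s.st .u1 = ticks s.u1 := rfl
@[simp] theorem st_u2 (s : St) : s.st .u2 = ticks s.u2 := rfl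
@[simp] theorem st_u3 (s : St) : s.st .u3 = ticks s.u3 := rfl
@[simp] theorem st_u4 (s : St) : s.st .u4 = ticks s.u4 := rfl
@[simp] theorem st_u5 (s : St) : s.st .u5 = ticks s.u5 := rfl
@[simp] theorem st_u6 (s : St) : s.st .u6 = ticks s.u6 := rfl
@[simp] theorem st_x1 (s : St) : s.st .x1 = ticks s.x1 := rfl
@[simp] theorem st_x2 (s : St) : s.st .x2 = ticks s.x2 := rfl
@[simp] theorem st_x3 (s : St) : s.st .x3 = ticks s.x3 := rfl
@[simp] theorem st_x4 (s : St) : s.st .x4 = ticks s.x4 := rfl

@[simp] theorem upd_arg (s : St) (l : List G) : update s.st .arg l = St.st { s with arg := l } := by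
  funext x; cases x <;> rfl
@[simp] theorem upd_dat (s : St) (l : List Bool) :
    update s.st .dat (bw l) = St.st { s with dat := l } := by
  funext x; cases x <;> rfl
@[simp] theorem upd_acc (s : St) (l : List Bool) :
    update s.st .acc (bw l) = St.st { s with acc := l } := by
  funext x; cases x <;> rfl
@[simp] theorem upd_t1 (s : St) (l : List Bool) :
    update s.st .t1 (bw l) = St.st { s with t1 := l } := by
  funext x; cases x <;> rfl
@[simp] theorem upd_t2 (s : St) (l : List Bool) :
    update s.st .t2 (bw l) = St.st { s with t2 := l } := by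
  funext x; cases x <;> rfl
@[simp] theorem upd_t3 (s : St) (l : List Bool) :
    update s.st .t3 (bw l) = St.st { s with t3 := l } := by
  funext x; cases x <;> rfl
@[simp] theorem upd_res (s : St) (l : List Bool) :
    update s.st .res (bw l) = St.st { s with res := l } := by
  funext x; cases x <;> rfl
@[simp] theorem upd_out (s : St) (l : List Bool) :
    update s.st .out (bw l) = St.st { s with out := l } := by
  funext x; cases x <;> rfl
@[simp] theorem upd_cc (s : St) (l : List Bool) :
    update s.st .cc (bw l) = St.st { s with cc := l } := by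
  funext x; cases x <;> rfl
@[simp] theorem upd_n (s : St) (l : ℕ) :
    update s.st .n (ticks l) = St.st { s with n := l } := by
  funext x; cases x <;> rfl
@[simp] theorem upd_s (s : St) (l : ℕ) :
    update s.st .s (ticks l) = St.st { s with s := l } := by
  funext x; cases x <;> rfl
@[simp] theorem upd_L (s : St) (l : ℕ) :
    update s.st .L (ticks l) = St.st { s with L := l } := by
  funext x; cases x <;> rfl
@[simp] theorem upd_q (s : St) (l : ℕ) :
    update s.st .q (ticks l) = St.st { s with q := l } := by
  funext x; cases x <;> rfl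
@[simp] theorem upd_tau (s : St) (l : ℕ) :
    update s.st .tau (ticks l) = St.st { s with tau := l } := by
  funext x; cases x <;> rfl
@[simp] theorem upd_K (s : St) (l : ℕ) :
    update s.st .K (ticks l) = St.st { s with K := l } := by
  funext x; cases x <;> rfl
@[simp] theorem upd_w (s : St) (l : ℕ) :
    update s.st .w (ticks l) = St.st { s with w := l } := by
  funext x; cases x <;> rfl
@[simp] theorem upd_z (s : St) (l : ℕ) :
    update s.st .z (ticks l) = St.st { s with z := l } := by
  funext x; cases x <;> rfl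
@[simp] theorem upd_zb (s : St) (l : ℕ) :
    update s.st .zb (ticks l) = St.st { s with zb := l } := by
  funext x; cases x <;> rfl
@[simp] theorem upd_d (s : St) (l : ℕ) :
    update s.st .d (ticks l) = St.st { s with d := l } := by
  funext x; cases x <;> rfl
@[simp] theorem upd_db (s : St) (l : ℕ) :
    update s.st .db (ticks l) = St.st { s with db := l } := by
  funext x; cases x <;> rfl
@[simp] theorem upd_e (s : St) (l : ℕ) :
    update s.st .e (ticks l) = St.st { s with e := l } := by
  funext x; cases x <;> rfl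
@[simp] theorem upd_v (s : St) (l : ℕ) :
    update s.st .v (ticks l) = St.st { s with v := l } := by
  funext x; cases x <;> rfl
@[simp] theorem upd_p (s : St) (l : ℕ) :
    update s.st .p (ticks l) = St.st { s with p := l } := by
  funext x; cases x <;> rfl
@[simp] theorem upd_i (s : St) (l : ℕ) :
    update s.st .i (ticks l) = St.st { s with i := l } := by
  funext x; cases x <;> rfl
@[simp] theorem upd_j (s : St) (l : ℕ) :
    update s.st .j (ticks l) = St.st { s with j := l } := by
  funext x; cases x <;> rfl
@[simp] theorem upd_a (s : St) (l : ℕ) :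
    update s.st .a (ticks l) = St.st { s with a := l } := by
  funext x; cases x <;> rfl
@[simp] theorem upd_b (s : St) (l : ℕ) :
    update s.st .b (ticks l) = St.st { s with b := l } := by
  funext x; cases x <;> rfl
@[simp] theorem upd_B (s : St) (l : ℕ) :
    update s.st .B (ticks l) = St.st { s with B := l } := by
  funext x; cases x <;> rfl
@[simp] theorem upd_N (s : St) (l : ℕ) :
    update s.st .N (ticks l) = St.st { s with N := l } := by
  funext x; cases x <;> rfl
@[simp] theorem upd_m (s : St) (l : ℕ) :
    update s.st .m (ticks l) = St.st { s with m := l } := by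
  funext x; cases x <;> rfl
@[simp] theorem upd_h (s : St) (l : ℕ) :
    update s.st .h (ticks l) = St.st { s with h := l } := by
  funext x; cases x <;> rfl
@[simp] theorem upd_u1 (s : St) (l : ℕ) :
    update s.st .u1 (ticks l) = St.st { s with u1 := l } := by
  funext x; cases x <;> rfl
@[simp] theorem upd_u2 (s : St) (l : ℕ) :
    update s.st .u2 (ticks l) = St.st { s with u2 := l } := by
  funext x; cases x <;> rfl
@[simp] theorem upd_u3 (s : St) (l : ℕ) :
    update s.st .u3 (ticks l) = St.st { s with u3 := l } := by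
  funext x; cases x <;> rfl
@[simp] theorem upd_u4 (s : St) (l : ℕ) :
    update s.st .u4 (ticks l) = St.st { s with u4 := l } := by
  funext x; cases x <;> rfl
@[simp] theorem upd_u5 (s : St) (l : ℕ) :
    update s.st .u5 (ticks l) = St.st { s with u5 := l } := by
  funext x; cases x <;> rfl
@[simp] theorem upd_u6 (s : St) (l : ℕ) :
    update s.st .u6 (ticks l) = St.st { s with u6 := l } := by
  funext x; cases x <;> rfl
@[simp] theorem upd_x1 (s : St) (l : ℕ) :
    update s.st .x1 (ticks l) = St.st { s with x1 := l } := by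
  funext x; cases x <;> rfl
@[simp] theorem upd_x2 (s : St) (l : ℕ) :
    update s.st .x2 (ticks l) = St.st { s with x2 := l } := by
  funext x; cases x <;> rfl
@[simp] theorem upd_x3 (s : St) (l : ℕ) :
    update s.st .x3 (ticks l) = St.st { s with x3 := l } := by
  funext x; cases x <;> rfl
@[simp] theorem upd_x4 (s : St) (l : ℕ) :
    update s.st .x4 (ticks l) = St.st { s with x4 := l } := by
  funext x; cases x <;> rfl

end Vale.Agent.P338
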