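import Vale.Agent.Lib.P338.Defs

/-!
# Structured programs on finitely many stacks

`Cmd ι Γ`: programs acting on a family of stacks `ι → List Γ` (top of the stack = head of the
list).  `Exec Ω c s s' n`: started in state `s`, the program `c` ends in state `s'` at cost `n`;
the command `call` is given its meaning by the relation `Ω`.
-/

namespace Vale.Agent.P338

/-- Operations on one stack. -/
inductive Op (Γ : Type)
  | nop | pop | push (a : Γ) | rep (a : Γ)

/-- Effect of an operation on a stack. -/
def Op.app {Γ : Type} : Op Γ → List Γ → List Γ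
  | .nop, l => l
  | .pop, l => l.tail
  | .push a, l => a :: l
  | .rep a, l => a :: l.tail

/-- Structured stack programs. -/
inductive Cmd (ι Γ : Type)
  | skip
  | call
  | act (f : (ι → Option Γ) → ι → Op Γ)
  | seq (a b : Cmd ι Γ)
  | ite (t : (ι → Option Γ) → Bool) (a b : Cmd ι Γ)
  | loop (t : (ι → Option Γ) → Bool) (a : Cmd ι Γ)

/-- The tops of the stacks. -/
def tops {ι Γ : Type} (s : ι → List Γ) : ι → Option Γ := fun i => (s i).head?

/-- Cost semantics. -/
inductive Exec {ι Γ : Type} (Ω : (ι → List Γ) → (ι → List Γ) → ℕ → Prop) :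
    Cmd ι Γ → (ι → List Γ) → (ι → List Γ) → ℕ → Prop
  | skip (s) : Exec Ω .skip s s 0
  | call (s s' n) : Ω s s' n → Exec Ω .call s s' n
  | act (f s) : Exec Ω (.act f) s (fun i => (f (tops s) i).app (s i)) 1
  | seq (a b s s₁ s₂ n m) : Exec Ω a s s₁ n → Exec Ω b s₁ s₂ m → Exec Ω (.seq a b) s s₂ (n + m)
  | ite_true (t a b s s' n) : t (tops s) = true → Exec Ω a s s' n →
      Exec Ω (.ite t a b) s s' (n + 1)
  | ite_false (t a b s s' n) : t (tops s) = false → Exec Ω b s s' n →
      Exec Ω (.ite t a b) s s' (n + 1)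
  | loop_done (t a s) : t (tops s) = false → Exec Ω (.loop t a) s s 1
  | loop_step (t a s s₁ s₂ n m) : t (tops s) = true → Exec Ω a s s₁ n →
      Exec Ω (.loop t a) s₁ s₂ m → Exec Ω (.loop t a) s s₂ (n + m + 1)

/-- `Run Ω c s s' n`: the program ends in `s'` at cost at most `n`. -/
def Run {ι Γ : Type} (Ω : (ι → List Γ) → (ι → List Γ) → ℕ → Prop) (c : Cmd ι Γ)
    (s s' : ι → List Γ) (n : ℕ) : Prop := ∃ k, k ≤ n ∧ Exec Ω c s s' k

/-- The empty oracle. -/
def noOracle {ι Γ : Type} : (ι → List Γ) → (ι → List Γ) → ℕ → Prop := fun _ _ _ => False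

end Vale.Agent.P338

namespace Vale.Agent.P338

/-- The small alphabet of the algorithm. -/
inductive G
  | bit (b : Bool) | sep | tick
  deriving DecidableEq

instance : Fintype G :=
  ⟨{G.bit true, G.bit false, G.sep, G.tick}, by intro x; rcases x with (_ | _) | _ | _ <;> simp⟩

/-- A state on `ι`-stacks over `Γ` seen as a state on `ι ⊕ κ`-stacks over `Γ ⊕ Δ`, the new stacks
being empty. -/
def lift {ι κ Γ Δ : Type} (f : ι → List Γ) : ι ⊕ κ → List (Γ ⊕ Δ) :=
  Sum.elim (fun i => (f i).map Sum.inl) (fun _ => [])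

/-- The oracle that multiplies at the cost `C * (M.mulTime n + n)`: the stack `arg` holds `x#y`, the
product is put (least significant bit on top) on the stack `res`. -/
def mulOracle {ι : Type} [DecidableEq ι] (M : Machine) (C : ℕ) (arg res : ι) :
    (ι → List G) → (ι → List G) → ℕ → Prop := fun f f' k =>
  ∃ (x y : List Bool) (n : ℕ), 1 ≤ n ∧ x.length = n ∧ y.length = n ∧
    f arg = x.map G.bit ++ G.sep :: y.map G.bit ∧ f res = [] ∧
    f' = Function.update (Function.update f arg []) res
      ((bin (2 * n) (val x * val y)).reverse.map G.bit) ∧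
    k = C * (M.mulTime n + n)

end Vale.Agent.P338
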