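import Vale.Agent.Lib.P338.Trans2

/-! The transform: the whole program. -/

set_option linter.constructorNameAsVariable false

namespace Vale.Agent.P338

open Function

variable (Mach : Machine) (C : ℕ)

theorem sm_zero {n w : ℕ} (hw : 0 < w) : sm n 0 w = n - w := by
  unfold sm; rw [if_neg (by omega)]; omega

theorem trans_cost (n L M ss z1 d1 y1 y2 y3 y4 y5 y6 c Q : ℕ) (hn : 1 ≤ n) (hL : 1 ≤ L)
    (hM : 1 ≤ M) (h0 : ss ≤ n) (h1 : z1 ≤ n) (h2 : d1 ≤ n) (h3 : y1 ≤ n) (h4 : y2 ≤ n)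
    (h5 : y3 ≤ n) (h6 : y4 ≤ n) (h7 : y5 ≤ n) (h8 : y6 ≤ n) (h9 : c ≤ n) :
    4 * ss + 2 + (4 * ss + 2) + (4 * n + 2) + (10 * n + 6) + 2 * (L * (40 * n + 28) + 2) +
      (2 * y1 + 1) + (2 * y2 + 1) + (10 * n + 6) + (M * L * (34 * n + 19) + 1) +
      (20 * (M * L * n) + 2) + 1 + (M * (L * (80 * n + 40) + 6) + 1) +
      (L * (40 * n + 16 + 4) + 2) + Q +
      (M * (L * (150 * n + 80) + 11) + 8 * (2 * (4 * L * M + 2 * L) * n) + 2) +
      (2 * z1 + 1) + (2 * d1 + 1) + (c * (1 + 4) + 2) + (M * L * (34 * n + 19) + 1) +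
      (2 * (M * L * n) + 1) + (2 * y3 + 1) + (2 * y4 + 1) + (2 * y5 + 1) + (2 * y6 + 1) ≤
    Q + 3000 * (M * L * n) := by
  have a1 : M * L ≤ M * L * n := Nat.le_mul_of_pos_right _ hn
  have a2 : L * n ≤ M * L * n := by rw [mul_assoc]; exact Nat.le_mul_of_pos_left _ hM
  have a3 : M ≤ M * L := Nat.le_mul_of_pos_right _ hL
  have a4 : L ≤ M * L := Nat.le_mul_of_pos_left _ hM
  have a5 : n ≤ L * n := Nat.le_mul_of_pos_left _ hL
  have a6 : 1 ≤ M * L * n := le_trans hM (a3.trans a1)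
  nlinarith

theorem run_trans (s : St) (n w c L M : ℕ) (x : ℕ → List Bool)
    (hx : ∀ k < M * L, (x k).length = n) (hn : s.n = n) (hs : s.s = n / 2) (hn2 : n = 2 * (n / 2))
    (hn0 : 0 < n) (hw : s.w = w) (hw0 : 0 < w) (hwn : w ≤ n) (hL : s.L = L) (hL0 : 0 < L)
    (hM0 : 0 < M) (hc : s.x2 = c) (hcn : c ≤ n)
    (harg : s.arg = []) (hdat : s.dat = seg x 0 (M * L)) (hacc : s.acc = []) (ht1 : s.t1 = [])
    (ht2 : s.t2 = []) (hres : s.res = []) (hcc : s.cc = []) (hz : s.z = 0) (hzb : s.zb = 0)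
    (hd : s.d = 0) (hdb : s.db = 0) (hp : s.p = 0) (hu : s.u1 = 0) (hu2 : s.u2 = 0)
    (hx1 : s.x1 = 0) :
    Run (mulOracle Mach C W.arg W.res) trans s.st
      (St.st {s with dat := seg (transOut n w c L M x) 0 (M * L)})
      (C * (Mach.mulTime (nWord n L M) + nWord n L M) + 3000 * (M * L * n)) := by
  subst hn hw hL hc
  set Ω : (W → List G) → (W → List G) → ℕ → Prop := mulOracle Mach C W.arg W.res with hΩ
  have h := t_copy (Ω := Ω) .s .z .u1 (by decide) (f := s.st) rfl rfl (by simp [hu])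
  simp only [
      upd_arg, upd_dat, upd_acc, upd_t1, upd_t2, upd_t3, upd_res, upd_out, upd_cc, upd_n, upd_s,
      upd_L, upd_q, upd_tau, upd_K, upd_w, upd_z, upd_zb, upd_d, upd_db, upd_e, upd_v, upd_p,
      upd_i, upd_j, upd_a, upd_b, upd_B, upd_N, upd_m, upd_h, upd_u1, upd_u2, upd_u3, upd_u4,
      upd_u5, upd_u6, upd_x1, upd_x2, upd_x3, upd_x4, st_arg, st_dat, st_acc, st_t1, st_t2, st_t3,
      st_res, st_out, st_cc, st_n, st_s, st_L, st_q, st_tau, st_K, st_w, st_z, st_zb, st_d, st_db,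
      st_e, st_v, st_p, st_i, st_j, st_a, st_b, st_B, st_N, st_m, st_h, st_u1, st_u2, st_u3,
      st_u4, st_u5, st_u6, st_x1, st_x2, st_x3, st_x4] at h
  have h := h.seq (t_copy .s .zb .u1 (by decide) rfl rfl (by simp [hu]))
  simp only [
      upd_arg, upd_dat, upd_acc, upd_t1, upd_t2, upd_t3, upd_res, upd_out, upd_cc, upd_n, upd_s,
      upd_L, upd_q, upd_tau, upd_K, upd_w, upd_z, upd_zb, upd_d, upd_db, upd_e, upd_v, upd_p,
      upd_i, upd_j, upd_a, upd_b, upd_B, upd_N, upd_m, upd_h, upd_u1, upd_u2, upd_u3, upd_u4,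
      upd_u5, upd_u6, upd_x1, upd_x2, upd_x3, upd_x4, st_arg, st_dat, st_acc, st_t1, st_t2, st_t3,
      st_res, st_out, st_cc, st_n, st_s, st_L, st_q, st_tau, st_K, st_w, st_z, st_zb, st_d, st_db,
      st_e, st_v, st_p, st_i, st_j, st_a, st_b, st_B, st_N, st_m, st_h, st_u1, st_u2, st_u3,
      st_u4, st_u5, st_u6, st_x1, st_x2, st_x3, st_x4] at h
  have h := h.seq (t_copy .n .db .u1 (by decide) rfl rfl (by simp [hu]))
  simp only [
      upd_arg, upd_dat, upd_acc, upd_t1, upd_t2, upd_t3, upd_res, upd_out, upd_cc, upd_n, upd_s,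
      upd_L, upd_q, upd_tau, upd_K, upd_w, upd_z, upd_zb, upd_d, upd_db, upd_e, upd_v, upd_p,
      upd_i, upd_j, upd_a, upd_b, upd_B, upd_N, upd_m, upd_h, upd_u1, upd_u2, upd_u3, upd_u4,
      upd_u5, upd_u6, upd_x1, upd_x2, upd_x3, upd_x4, st_arg, st_dat, st_acc, st_t1, st_t2, st_t3,
      st_res, st_out, st_cc, st_n, st_s, st_L, st_q, st_tau, st_K, st_w, st_z, st_zb, st_d, st_db,
      st_e, st_v, st_p, st_i, st_j, st_a, st_b, st_B, st_N, st_m, st_h, st_u1, st_u2, st_u3,
      st_u4, st_u5, st_u6, st_x1, st_x2, st_x3, st_x4] at h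
  have h := h.seq (w_subMod .d .db .w .x1 (by decide) (n := s.n) (k := 0) (m := s.w) (by omega) hwn
    (by simp [hd]) (by simp [hdb]) (by simp) (by simp [hx1]))
  simp only [
      upd_arg, upd_dat, upd_acc, upd_t1, upd_t2, upd_t3, upd_res, upd_out, upd_cc, upd_n, upd_s,
      upd_L, upd_q, upd_tau, upd_K, upd_w, upd_z, upd_zb, upd_d, upd_db, upd_e, upd_v, upd_p,
      upd_i, upd_j, upd_a, upd_b, upd_B, upd_N, upd_m, upd_h, upd_u1, upd_u2, upd_u3, upd_u4,
      upd_u5, upd_u6, upd_x1, upd_x2, upd_x3, upd_x4, st_arg, st_dat, st_acc, st_t1, st_t2, st_t3,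
      st_res, st_out, st_cc, st_n, st_s, st_L, st_q, st_tau, st_K, st_w, st_z, st_zb, st_d, st_db,
      st_e, st_v, st_p, st_i, st_j, st_a, st_b, st_B, st_N, st_m, st_h, st_u1, st_u2, st_u3,
      st_u4, st_u5, st_u6, st_x1, st_x2, st_x3, st_x4] at h
  rw [sm_zero hw0] at h
  have h := h.seq ((run_table {s with d := s.n - s.w, db := s.n - (s.n - s.w)} s.n s.L (s.n / 2)
    (s.n - s.w) [] rfl rfl (by omega) (by omega) hwn hu hu2 hx1).cast (by
      congr 1
      simp only [hs, hz, hzb, harg, bw, List.map_nil, add_zero]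
      congr 1; omega) rfl le_rfl)
  simp only [
      upd_arg, upd_dat, upd_acc, upd_t1, upd_t2, upd_t3, upd_res, upd_out, upd_cc, upd_n, upd_s,
      upd_L, upd_q, upd_tau, upd_K, upd_w, upd_z, upd_zb, upd_d, upd_db, upd_e, upd_v, upd_p,
      upd_i, upd_j, upd_a, upd_b, upd_B, upd_N, upd_m, upd_h, upd_u1, upd_u2, upd_u3, upd_u4,
      upd_u5, upd_u6, upd_x1, upd_x2, upd_x3, upd_x4, st_arg, st_dat, st_acc, st_t1, st_t2, st_t3,
      st_res, st_out, st_cc, st_n, st_s, st_L, st_q, st_tau, st_K, st_w, st_z, st_zb, st_d, st_db,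
      st_e, st_v, st_p, st_i, st_j, st_a, st_b, st_B, st_N, st_m, st_h, st_u1, st_u2, st_u3,
      st_u4, st_u5, st_u6, st_x1, st_x2, st_x3, st_x4] at h
  have h := h.seq (t_moveAll .z .zb (by decide) rfl rfl)
  simp only [
      upd_arg, upd_dat, upd_acc, upd_t1, upd_t2, upd_t3, upd_res, upd_out, upd_cc, upd_n, upd_s,
      upd_L, upd_q, upd_tau, upd_K, upd_w, upd_z, upd_zb, upd_d, upd_db, upd_e, upd_v, upd_p,
      upd_i, upd_j, upd_a, upd_b, upd_B, upd_N, upd_m, upd_h, upd_u1, upd_u2, upd_u3, upd_u4,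
      upd_u5, upd_u6, upd_x1, upd_x2, upd_x3, upd_x4, st_arg, st_dat, st_acc, st_t1, st_t2, st_t3,
      st_res, st_out, st_cc, st_n, st_s, st_L, st_q, st_tau, st_K, st_w, st_z, st_zb, st_d, st_db,
      st_e, st_v, st_p, st_i, st_j, st_a, st_b, st_B, st_N, st_m, st_h, st_u1, st_u2, st_u3,
      st_u4, st_u5, st_u6, st_x1, st_x2, st_x3, st_x4] at h
  have h := h.seq (t_moveAll .d .db (by decide) rfl rfl)
  simp only [
      upd_arg, upd_dat, upd_acc, upd_t1, upd_t2, upd_t3, upd_res, upd_out, upd_cc, upd_n, upd_s,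
      upd_L, upd_q, upd_tau, upd_K, upd_w, upd_z, upd_zb, upd_d, upd_db, upd_e, upd_v, upd_p,
      upd_i, upd_j, upd_a, upd_b, upd_B, upd_N, upd_m, upd_h, upd_u1, upd_u2, upd_u3, upd_u4,
      upd_u5, upd_u6, upd_x1, upd_x2, upd_x3, upd_x4, st_arg, st_dat, st_acc, st_t1, st_t2, st_t3,
      st_res, st_out, st_cc, st_n, st_s, st_L, st_q, st_tau, st_K, st_w, st_z, st_zb, st_d, st_db,
      st_e, st_v, st_p, st_i, st_j, st_a, st_b, st_B, st_N, st_m, st_h, st_u1, st_u2, st_u3,
      st_u4, st_u5, st_u6, st_x1, st_x2, st_x3, st_x4] at h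
  obtain ⟨b1, b2⟩ := zdq_le (n := s.n) (w := s.w) (z₀ := s.n / 2) (d₀ := s.n - s.w)
    hwn (by omega) (by omega) (2 * s.L)
  have h := h.seq (w_subMod .d .db .w .x1 (by decide) (n := s.n) (k := 0) (m := s.w) (by omega) hwn
    rfl (by simp only [st_db]; congr 1; omega) rfl (by simp [hx1]))
  simp only [
      upd_arg, upd_dat, upd_acc, upd_t1, upd_t2, upd_t3, upd_res, upd_out, upd_cc, upd_n, upd_s,
      upd_L, upd_q, upd_tau, upd_K, upd_w, upd_z, upd_zb, upd_d, upd_db, upd_e, upd_v, upd_p,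
      upd_i, upd_j, upd_a, upd_b, upd_B, upd_N, upd_m, upd_h, upd_u1, upd_u2, upd_u3, upd_u4,
      upd_u5, upd_u6, upd_x1, upd_x2, upd_x3, upd_x4, st_arg, st_dat, st_acc, st_t1, st_t2, st_t3,
      st_res, st_out, st_cc, st_n, st_s, st_L, st_q, st_tau, st_K, st_w, st_z, st_zb, st_d, st_db,
      st_e, st_v, st_p, st_i, st_j, st_a, st_b, st_B, st_N, st_m, st_h, st_u1, st_u2, st_u3,
      st_u4, st_u5, st_u6, st_x1, st_x2, st_x3, st_x4] at h
  rw [sm_zero hw0, show (zdq s.n s.w (s.n / 2) (s.n - s.w) (2 * s.L)).1 +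
    (s.n - (zdq s.n s.w (s.n / 2) (s.n - s.w) (2 * s.L)).1) = s.n - 0 by omega] at h
  generalize hY : rseg (fun p => slotY s.n (zdq s.n s.w (s.n / 2) (s.n - s.w) p).1) (2 * s.L) = Y
    at h
  -- the pre-chirp
  have h := h.seq ((run_csLoop {s with arg := bw (Y ++ [])} s.n (M * s.L) 0 (s.n - s.w)
    x [] hx hn0 (by omega) (by omega) hwn ht1 ht2 hu hx1).cast (by
      congr 1
      simp only [hdat, hacc]) rfl le_rfl)
  simp only [
      upd_arg, upd_dat, upd_acc, upd_t1, upd_t2, upd_t3, upd_res, upd_out, upd_cc, upd_n, upd_s,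
      upd_L, upd_q, upd_tau, upd_K, upd_w, upd_z, upd_zb, upd_d, upd_db, upd_e, upd_v, upd_p,
      upd_i, upd_j, upd_a, upd_b, upd_B, upd_N, upd_m, upd_h, upd_u1, upd_u2, upd_u3, upd_u4,
      upd_u5, upd_u6, upd_x1, upd_x2, upd_x3, upd_x4, st_arg, st_dat, st_acc, st_t1, st_t2, st_t3,
      st_res, st_out, st_cc, st_n, st_s, st_L, st_q, st_tau, st_K, st_w, st_z, st_zb, st_d, st_db,
      st_e, st_v, st_p, st_i, st_j, st_a, st_b, st_B, st_N, st_m, st_h, st_u1, st_u2, st_u3,
      st_u4, st_u5, st_u6, st_x1, st_x2, st_x3, st_x4] at h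
  obtain ⟨b3, b4⟩ := zdq_le (n := s.n) (w := s.w) (z₀ := 0) (d₀ := s.n - s.w)
    hwn (by omega) (by omega) (M * s.L)
  have hx' : ∀ k < M * s.L, (preW s.n s.w x k).length = s.n := fun k hk => by
    rw [preW, List.length_rotate]; exact hx k hk
  have hlen : (seg (preW s.n s.w x) 0 (M * s.L)).length = M * s.L * s.n :=
    seg_length (fun k _ hk => hx' k (by omega))
  rw [show (fun k => (x k).rotate (s.n - (zdq s.n s.w 0 (s.n - s.w) k).1)) = preW s.n s.w x from
    rfl] at h
  generalize (zdq s.n s.w 0 (s.n - s.w) (M * s.L)).1 = z1 at h b3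
  generalize (zdq s.n s.w 0 (s.n - s.w) (M * s.L)).2 = d1 at h b4
  -- the padding
  have h := h.seq (run_pad _ rfl)
  simp only [
      upd_arg, upd_dat, upd_acc, upd_t1, upd_t2, upd_t3, upd_res, upd_out, upd_cc, upd_n, upd_s,
      upd_L, upd_q, upd_tau, upd_K, upd_w, upd_z, upd_zb, upd_d, upd_db, upd_e, upd_v, upd_p,
      upd_i, upd_j, upd_a, upd_b, upd_B, upd_N, upd_m, upd_h, upd_u1, upd_u2, upd_u3, upd_u4,
      upd_u5, upd_u6, upd_x1, upd_x2, upd_x3, upd_x4, st_arg, st_dat, st_acc, st_t1, st_t2, st_t3,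
      st_res, st_out, st_cc, st_n, st_s, st_L, st_q, st_tau, st_K, st_w, st_z, st_zb, st_d, st_db,
      st_e, st_v, st_p, st_i, st_j, st_a, st_b, st_B, st_N, st_m, st_h, st_u1, st_u2, st_u3,
      st_u4, st_u5, st_u6, st_x1, st_x2, st_x3, st_x4] at h
  simp only [List.length_append, List.length_reverse, hlen, List.length_nil, add_zero,
    List.append_nil] at h
  have h := h.seq (w_push' .sep .arg rfl)
  simp only [
      upd_arg, upd_dat, upd_acc, upd_t1, upd_t2, upd_t3, upd_res, upd_out, upd_cc, upd_n, upd_s,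
      upd_L, upd_q, upd_tau, upd_K, upd_w, upd_z, upd_zb, upd_d, upd_db, upd_e, upd_v, upd_p,
      upd_i, upd_j, upd_a, upd_b, upd_B, upd_N, upd_m, upd_h, upd_u1, upd_u2, upd_u3, upd_u4,
      upd_u5, upd_u6, upd_x1, upd_x2, upd_x3, upd_x4, st_arg, st_dat, st_acc, st_t1, st_t2, st_t3,
      st_res, st_out, st_cc, st_n, st_s, st_L, st_q, st_tau, st_K, st_w, st_z, st_zb, st_d, st_db,
      st_e, st_v, st_p, st_i, st_j, st_a, st_b, st_B, st_N, st_m, st_h, st_u1, st_u2, st_u3,
      st_u4, st_u5, st_u6, st_x1, st_x2, st_x3, st_x4] at h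
  -- the first factor
  have h := h.seq ((run_xLoop {s with z := z1, zb := s.n - z1, d := d1, db := s.n - d1, dat := []}
    s.n s.L M (preW s.n s.w x) (G.sep :: (bw (List.replicate (16 * (M * s.L * s.n)) false) ++ bw Y))
    hx' rfl rfl hn0 hL0 hu hu2).cast (by congr 1; simp only [hp]) rfl le_rfl)
  simp only [
      upd_arg, upd_dat, upd_acc, upd_t1, upd_t2, upd_t3, upd_res, upd_out, upd_cc, upd_n, upd_s,
      upd_L, upd_q, upd_tau, upd_K, upd_w, upd_z, upd_zb, upd_d, upd_db, upd_e, upd_v, upd_p,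
      upd_i, upd_j, upd_a, upd_b, upd_B, upd_N, upd_m, upd_h, upd_u1, upd_u2, upd_u3, upd_u4,
      upd_u5, upd_u6, upd_x1, upd_x2, upd_x3, upd_x4, st_arg, st_dat, st_acc, st_t1, st_t2, st_t3,
      st_res, st_out, st_cc, st_n, st_s, st_L, st_q, st_tau, st_K, st_w, st_z, st_zb, st_d, st_db,
      st_e, st_v, st_p, st_i, st_j, st_a, st_b, st_B, st_N, st_m, st_h, st_u1, st_u2, st_u3,
      st_u4, st_u5, st_u6, st_x1, st_x2, st_x3, st_x4] at h
  -- padding the first factor
  have h8 := w_for (Ω := Ω) .L .u2 (by decide) (body := zeros 8)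
      (fun i => {s with z := z1, zb := s.n - z1, d := d1, db := s.n - d1, dat := [], acc := [],
                        p := M,
                        arg := bw (rseg (xs s.n s.L M (preW s.n s.w x)) (4 * s.L * M + 2 * i)) ++
                          G.sep :: (bw (List.replicate (16 * (M * s.L * s.n)) false) ++ bw Y)})
      s.L (40 * s.n + 16) (fun i hi a b => by
        have B := run_zeros (Ω := Ω) 8 {s with
                        z := z1, zb := s.n - z1, d := d1, db := s.n - d1, dat := [], acc := [],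
                        p := M,
                        arg := bw (rseg (xs s.n s.L M (preW s.n s.w x)) (4 * s.L * M + 2 * i)) ++
                          G.sep :: (bw (List.replicate (16 * (M * s.L * s.n)) false) ++ bw Y),
                        L := a, u2 := b} hu
        simp only [
            upd_arg, upd_dat, upd_acc, upd_t1, upd_t2, upd_t3, upd_res, upd_out, upd_cc, upd_n,
            upd_s, upd_L, upd_q, upd_tau, upd_K, upd_w, upd_z, upd_zb, upd_d, upd_db, upd_e,
            upd_v, upd_p, upd_i, upd_j, upd_a, upd_b, upd_B, upd_N, upd_m, upd_h, upd_u1, upd_u2,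
            upd_u3, upd_u4, upd_u5, upd_u6, upd_x1, upd_x2, upd_x3, upd_x4, st_arg, st_dat,
            st_acc, st_t1, st_t2, st_t3, st_res, st_out, st_cc, st_n, st_s, st_L, st_q, st_tau,
            st_K, st_w, st_z, st_zb, st_d, st_db, st_e, st_v, st_p, st_i, st_j, st_a, st_b, st_B,
            st_N, st_m, st_h, st_u1, st_u2, st_u3, st_u4, st_u5, st_u6, st_x1, st_x2, st_x3,
            st_x4]
        refine B.congr ?_ ?_
        · congr 1
          rw [show 4 * s.L * M + 2 * (i + 1) = 4 * s.L * M + 2 * i + 1 + 1 by ring,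
            rseg_succ, rseg_succ, xs_top _ (by omega), xs_top _ (by omega)]
          simp only [← List.append_assoc, List.replicate_append_replicate]
          simp only [bw, List.map_append, List.append_assoc]
          congr 4
          ring
        · simp only []; omega)
  simp only [
      upd_arg, upd_dat, upd_acc, upd_t1, upd_t2, upd_t3, upd_res, upd_out, upd_cc, upd_n, upd_s,
      upd_L, upd_q, upd_tau, upd_K, upd_w, upd_z, upd_zb, upd_d, upd_db, upd_e, upd_v, upd_p,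
      upd_i, upd_j, upd_a, upd_b, upd_B, upd_N, upd_m, upd_h, upd_u1, upd_u2, upd_u3, upd_u4,
      upd_u5, upd_u6, upd_x1, upd_x2, upd_x3, upd_x4, st_arg, st_dat, st_acc, st_t1, st_t2, st_t3,
      st_res, st_out, st_cc, st_n, st_s, st_L, st_q, st_tau, st_K, st_w, st_z, st_zb, st_d, st_db,
      st_e, st_v, st_p, st_i, st_j, st_a, st_b, st_B, st_N, st_m, st_h, st_u1, st_u2, st_u3,
      st_u4, st_u5, st_u6, st_x1, st_x2, st_x3, st_x4] at h8
  have h := h.seq (h8.cast (by congr 1; simp only [hu2, mul_zero, add_zero]) rfl le_rfl)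
  -- the multiplication
  have hX : rseg (xs s.n s.L M (preW s.n s.w x)) (4 * s.L * M + 2 * s.L) =
    xWord s.n s.w s.L M x := rfl
  have hYw : List.replicate (16 * (M * s.L * s.n)) false ++ Y = yWord s.n s.w s.L M := by
    rw [← hY]; rfl
  have hcall : Run Ω .call (St.st {s with
        z := z1, zb := s.n - z1, d := d1, db := s.n - d1, dat := [], acc := [], p := M,
        arg := bw (rseg (xs s.n s.L M (preW s.n s.w x)) (4 * s.L * M + 2 * s.L)) ++
          G.sep :: (bw (List.replicate (16 * (M * s.L * s.n)) false) ++ bw Y), L := s.L, u2 := 0})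
      (St.st {s with
        z := z1, zb := s.n - z1, d := d1, db := s.n - d1, dat := [], acc := [], p := M,
        arg := [], res := prodBits s.n s.w s.L M x, L := s.L, u2 := 0})
      (C * (Mach.mulTime (nWord s.n s.L M) + nWord s.n s.L M)) := by
    refine Run.call ⟨xWord s.n s.w s.L M x, yWord s.n s.w s.L M, nWord s.n s.L M, ?_,
      xWord_length hx, yWord_length hn0, ?_, ?_, ?_, rfl⟩
    · unfold nWord
      have : 0 < (4 * s.L * M + 2 * s.L) * (4 * s.n) := by positivity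
      omega
    · simp only [st_arg, hX, ← hYw, bw, List.map_append]
    · simp [hres]
    · rw [prodBits]
      funext i
      cases i <;> rfl
  have h := h.seq hcall
  -- the extraction
  have hPl := prodBits_length (n := s.n) (w := s.w) (L := s.L) (M := M) x
  have hout : transOut s.n s.w s.x2 s.L M x = fun e =>
    (redL s.n (chunk (prodBits s.n s.w s.L M x) (4 * s.n) (slotIx s.L M e))).reverse.rotate
      (s.n - (zdq s.n s.w s.x2 0 e).1) := rfl
  rw [hout]
  generalize prodBits s.n s.w s.L M x = P at hPl h ⊢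
  have hJ : 4 * s.L * M ≤ 2 * (4 * s.L * M + 2 * s.L) := by omega
  have hR : ∀ k < 2 * (4 * s.L * M + 2 * s.L), (chunk P (4 * s.n) k).length = 4 * s.n :=
    fun k hk => chunk_length hPl hk
  have h := h.seq ((run_exLoop {s with
      z := z1, zb := s.n - z1, d := d1, db := s.n - d1, acc := [], arg := [], L := s.L, u2 := 0}
    s.n s.L M _ (chunk P (4 * s.n)) hR hJ rfl rfl hu rfl ht1 ht2 hcc).cast (by
      congr 1; simp only [seg_chunk hPl]) rfl le_rfl)
  simp only [
      upd_arg, upd_dat, upd_acc, upd_t1, upd_t2, upd_t3, upd_res, upd_out, upd_cc, upd_n, upd_s,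
      upd_L, upd_q, upd_tau, upd_K, upd_w, upd_z, upd_zb, upd_d, upd_db, upd_e, upd_v, upd_p,
      upd_i, upd_j, upd_a, upd_b, upd_B, upd_N, upd_m, upd_h, upd_u1, upd_u2, upd_u3, upd_u4,
      upd_u5, upd_u6, upd_x1, upd_x2, upd_x3, upd_x4, st_arg, st_dat, st_acc, st_t1, st_t2, st_t3,
      st_res, st_out, st_cc, st_n, st_s, st_L, st_q, st_tau, st_K, st_w, st_z, st_zb, st_d, st_db,
      st_e, st_v, st_p, st_i, st_j, st_a, st_b, st_B, st_N, st_m, st_h, st_u1, st_u2, st_u3,
      st_u4, st_u5, st_u6, st_x1, st_x2, st_x3, st_x4] at h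
  -- the post-chirp
  have h := h.seq (t_moveAll .z .zb (by decide) rfl rfl)
  simp only [
      upd_arg, upd_dat, upd_acc, upd_t1, upd_t2, upd_t3, upd_res, upd_out, upd_cc, upd_n, upd_s,
      upd_L, upd_q, upd_tau, upd_K, upd_w, upd_z, upd_zb, upd_d, upd_db, upd_e, upd_v, upd_p,
      upd_i, upd_j, upd_a, upd_b, upd_B, upd_N, upd_m, upd_h, upd_u1, upd_u2, upd_u3, upd_u4,
      upd_u5, upd_u6, upd_x1, upd_x2, upd_x3, upd_x4, st_arg, st_dat, st_acc, st_t1, st_t2, st_t3,
      st_res, st_out, st_cc, st_n, st_s, st_L, st_q, st_tau, st_K, st_w, st_z, st_zb, st_d, st_db,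
      st_e, st_v, st_p, st_i, st_j, st_a, st_b, st_B, st_N, st_m, st_h, st_u1, st_u2, st_u3,
      st_u4, st_u5, st_u6, st_x1, st_x2, st_x3, st_x4] at h
  have h := h.seq (t_moveAll .d .db (by decide) rfl rfl)
  simp only [
      upd_arg, upd_dat, upd_acc, upd_t1, upd_t2, upd_t3, upd_res, upd_out, upd_cc, upd_n, upd_s,
      upd_L, upd_q, upd_tau, upd_K, upd_w, upd_z, upd_zb, upd_d, upd_db, upd_e, upd_v, upd_p,
      upd_i, upd_j, upd_a, upd_b, upd_B, upd_N, upd_m, upd_h, upd_u1, upd_u2, upd_u3, upd_u4,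
      upd_u5, upd_u6, upd_x1, upd_x2, upd_x3, upd_x4, st_arg, st_dat, st_acc, st_t1, st_t2, st_t3,
      st_res, st_out, st_cc, st_n, st_s, st_L, st_q, st_tau, st_K, st_w, st_z, st_zb, st_d, st_db,
      st_e, st_v, st_p, st_i, st_j, st_a, st_b, st_B, st_N, st_m, st_h, st_u1, st_u2, st_u3,
      st_u4, st_u5, st_u6, st_x1, st_x2, st_x3, st_x4] at h
  rw [show z1 + (s.n - z1) = s.n by omega, show d1 + (s.n - d1) = s.n - 0 by omega] at h
  have h18 := w_for (Ω := Ω) .x2 .u1 (by decide) (body := mv .zb .z)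
      (fun i => {s with z := i, zb := s.n - i, d := 0, db := s.n - 0, acc := [], arg := [],
                        L := s.L, u2 := 0, p := 0, res := [],
                        dat := seg (fun e => (redL s.n (chunk P (4 * s.n)
                          (slotIx s.L M e))).reverse) 0 (M * s.L)})
      s.x2 1 (fun i hi a b => by
        have B := t_mv (Ω := Ω) .zb .z (by decide) (f := St.st {s with
                        z := i, zb := s.n - i, d := 0, db := s.n - 0, acc := [], arg := [],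
                        L := s.L, u2 := 0, p := 0, res := [],
                        dat := seg (fun e => (redL s.n (chunk P (4 * s.n)
                          (slotIx s.L M e))).reverse) 0 (M * s.L), x2 := a, u1 := b})
                  (s.n - (i + 1)) (by simp only [st_zb]; congr 1; omega) rfl
        simp only [
            upd_arg, upd_dat, upd_acc, upd_t1, upd_t2, upd_t3, upd_res, upd_out, upd_cc, upd_n,
            upd_s, upd_L, upd_q, upd_tau, upd_K, upd_w, upd_z, upd_zb, upd_d, upd_db, upd_e,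
            upd_v, upd_p, upd_i, upd_j, upd_a, upd_b, upd_B, upd_N, upd_m, upd_h, upd_u1, upd_u2,
            upd_u3, upd_u4, upd_u5, upd_u6, upd_x1, upd_x2, upd_x3, upd_x4, st_arg, st_dat,
            st_acc, st_t1, st_t2, st_t3, st_res, st_out, st_cc, st_n, st_s, st_L, st_q, st_tau,
            st_K, st_w, st_z, st_zb, st_d, st_db, st_e, st_v, st_p, st_i, st_j, st_a, st_b, st_B,
            st_N, st_m, st_h, st_u1, st_u2, st_u3, st_u4, st_u5, st_u6, st_x1, st_x2, st_x3,
            st_x4] at B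
        simp only [
            upd_arg, upd_dat, upd_acc, upd_t1, upd_t2, upd_t3, upd_res, upd_out, upd_cc, upd_n,
            upd_s, upd_L, upd_q, upd_tau, upd_K, upd_w, upd_z, upd_zb, upd_d, upd_db, upd_e,
            upd_v, upd_p, upd_i, upd_j, upd_a, upd_b, upd_B, upd_N, upd_m, upd_h, upd_u1, upd_u2,
            upd_u3, upd_u4, upd_u5, upd_u6, upd_x1, upd_x2, upd_x3, upd_x4, st_arg, st_dat,
            st_acc, st_t1, st_t2, st_t3, st_res, st_out, st_cc, st_n, st_s, st_L, st_q, st_tau,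
            st_K, st_w, st_z, st_zb, st_d, st_db, st_e, st_v, st_p, st_i, st_j, st_a, st_b, st_B,
            st_N, st_m, st_h, st_u1, st_u2, st_u3, st_u4, st_u5, st_u6, st_x1, st_x2, st_x3,
            st_x4]
        exact B)
  simp only [
      upd_arg, upd_dat, upd_acc, upd_t1, upd_t2, upd_t3, upd_res, upd_out, upd_cc, upd_n, upd_s,
      upd_L, upd_q, upd_tau, upd_K, upd_w, upd_z, upd_zb, upd_d, upd_db, upd_e, upd_v, upd_p,
      upd_i, upd_j, upd_a, upd_b, upd_B, upd_N, upd_m, upd_h, upd_u1, upd_u2, upd_u3, upd_u4,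
      upd_u5, upd_u6, upd_x1, upd_x2, upd_x3, upd_x4, st_arg, st_dat, st_acc, st_t1, st_t2, st_t3,
      st_res, st_out, st_cc, st_n, st_s, st_L, st_q, st_tau, st_K, st_w, st_z, st_zb, st_d, st_db,
      st_e, st_v, st_p, st_i, st_j, st_a, st_b, st_B, st_N, st_m, st_h, st_u1, st_u2, st_u3,
      st_u4, st_u5, st_u6, st_x1, st_x2, st_x3, st_x4] at h18
  have h := h.seq (h18.cast (by congr 1; simp only [hu, Nat.sub_zero]) rfl le_rfl)
  have hx3 : ∀ e < M * s.L, ((redL s.n (chunk P (4 * s.n) (slotIx s.L M e))).reverse).length =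
      s.n := by
    intro e he
    rw [List.length_reverse]
    refine (redL_spec _ _ (hR _ ?_)).1
    have h1 : (M * s.L - 1 - e) / s.L < M := by
      rw [Nat.div_lt_iff_lt_mul hL0]; omega
    have h2 : (M * s.L - 1 - e) % s.L < s.L := Nat.mod_lt _ hL0
    have h3 : 4 * s.L * ((M * s.L - 1 - e) / s.L) + 4 * s.L ≤ 4 * s.L * M := by
      calc _ = 4 * s.L * ((M * s.L - 1 - e) / s.L + 1) := by ring
        _ ≤ _ := Nat.mul_le_mul_left _ h1
    unfold slotIx
    omega
  have h := h.seq ((run_csLoop {s with arg := [], L := s.L, u2 := 0, p := 0, res := [],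
                                       x2 := s.x2, u1 := 0} s.n
    (M * s.L) s.x2 0 _ [] hx3 hn0 hcn (by omega) hwn ht1 ht2 rfl hx1).cast rfl rfl le_rfl)
  have h := h.seq (w_moveAll .acc .dat (by decide) rfl rfl)
  simp only [
      upd_arg, upd_dat, upd_acc, upd_t1, upd_t2, upd_t3, upd_res, upd_out, upd_cc, upd_n, upd_s,
      upd_L, upd_q, upd_tau, upd_K, upd_w, upd_z, upd_zb, upd_d, upd_db, upd_e, upd_v, upd_p,
      upd_i, upd_j, upd_a, upd_b, upd_B, upd_N, upd_m, upd_h, upd_u1, upd_u2, upd_u3, upd_u4,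
      upd_u5, upd_u6, upd_x1, upd_x2, upd_x3, upd_x4, st_arg, st_dat, st_acc, st_t1, st_t2, st_t3,
      st_res, st_out, st_cc, st_n, st_s, st_L, st_q, st_tau, st_K, st_w, st_z, st_zb, st_d, st_db,
      st_e, st_v, st_p, st_i, st_j, st_a, st_b, st_B, st_N, st_m, st_h, st_u1, st_u2, st_u3,
      st_u4, st_u5, st_u6, st_x1, st_x2, st_x3, st_x4] at h
  have h := h.seq (t_clear .z rfl)
  simp only [
      upd_arg, upd_dat, upd_acc, upd_t1, upd_t2, upd_t3, upd_res, upd_out, upd_cc, upd_n, upd_s,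
      upd_L, upd_q, upd_tau, upd_K, upd_w, upd_z, upd_zb, upd_d, upd_db, upd_e, upd_v, upd_p,
      upd_i, upd_j, upd_a, upd_b, upd_B, upd_N, upd_m, upd_h, upd_u1, upd_u2, upd_u3, upd_u4,
      upd_u5, upd_u6, upd_x1, upd_x2, upd_x3, upd_x4, st_arg, st_dat, st_acc, st_t1, st_t2, st_t3,
      st_res, st_out, st_cc, st_n, st_s, st_L, st_q, st_tau, st_K, st_w, st_z, st_zb, st_d, st_db,
      st_e, st_v, st_p, st_i, st_j, st_a, st_b, st_B, st_N, st_m, st_h, st_u1, st_u2, st_u3,
      st_u4, st_u5, st_u6, st_x1, st_x2, st_x3, st_x4] at h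
  have h := h.seq (t_clear .zb rfl)
  simp only [
      upd_arg, upd_dat, upd_acc, upd_t1, upd_t2, upd_t3, upd_res, upd_out, upd_cc, upd_n, upd_s,
      upd_L, upd_q, upd_tau, upd_K, upd_w, upd_z, upd_zb, upd_d, upd_db, upd_e, upd_v, upd_p,
      upd_i, upd_j, upd_a, upd_b, upd_B, upd_N, upd_m, upd_h, upd_u1, upd_u2, upd_u3, upd_u4,
      upd_u5, upd_u6, upd_x1, upd_x2, upd_x3, upd_x4, st_arg, st_dat, st_acc, st_t1, st_t2, st_t3,
      st_res, st_out, st_cc, st_n, st_s, st_L, st_q, st_tau, st_K, st_w, st_z, st_zb, st_d, st_db,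
      st_e, st_v, st_p, st_i, st_j, st_a, st_b, st_B, st_N, st_m, st_h, st_u1, st_u2, st_u3,
      st_u4, st_u5, st_u6, st_x1, st_x2, st_x3, st_x4] at h
  have h := h.seq (t_clear .d rfl)
  simp only [
      upd_arg, upd_dat, upd_acc, upd_t1, upd_t2, upd_t3, upd_res, upd_out, upd_cc, upd_n, upd_s,
      upd_L, upd_q, upd_tau, upd_K, upd_w, upd_z, upd_zb, upd_d, upd_db, upd_e, upd_v, upd_p,
      upd_i, upd_j, upd_a, upd_b, upd_B, upd_N, upd_m, upd_h, upd_u1, upd_u2, upd_u3, upd_u4,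
      upd_u5, upd_u6, upd_x1, upd_x2, upd_x3, upd_x4, st_arg, st_dat, st_acc, st_t1, st_t2, st_t3,
      st_res, st_out, st_cc, st_n, st_s, st_L, st_q, st_tau, st_K, st_w, st_z, st_zb, st_d, st_db,
      st_e, st_v, st_p, st_i, st_j, st_a, st_b, st_B, st_N, st_m, st_h, st_u1, st_u2, st_u3,
      st_u4, st_u5, st_u6, st_x1, st_x2, st_x3, st_x4] at h
  have h := h.seq (t_clear .db rfl)
  simp only [
      upd_arg, upd_dat, upd_acc, upd_t1, upd_t2, upd_t3, upd_res, upd_out, upd_cc, upd_n, upd_s,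
      upd_L, upd_q, upd_tau, upd_K, upd_w, upd_z, upd_zb, upd_d, upd_db, upd_e, upd_v, upd_p,
      upd_i, upd_j, upd_a, upd_b, upd_B, upd_N, upd_m, upd_h, upd_u1, upd_u2, upd_u3, upd_u4,
      upd_u5, upd_u6, upd_x1, upd_x2, upd_x3, upd_x4, st_arg, st_dat, st_acc, st_t1, st_t2, st_t3,
      st_res, st_out, st_cc, st_n, st_s, st_L, st_q, st_tau, st_K, st_w, st_z, st_zb, st_d, st_db,
      st_e, st_v, st_p, st_i, st_j, st_a, st_b, st_B, st_N, st_m, st_h, st_u1, st_u2, st_u3,
      st_u4, st_u5, st_u6, st_x1, st_x2, st_x3, st_x4] at h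
  obtain ⟨c1, c2⟩ := zdq_le (n := s.n) (w := s.w) (z₀ := s.x2) (d₀ := 0)
    hwn (by omega) (by omega) (M * s.L)
  refine h.congr ?_ ?_
  · congr 1
    simp only [List.append_nil, List.reverse_reverse, hz, hzb, hd, hdb, hu, hu2, harg, hres, hp,
      hacc]
  · have hlen3 : (seg (fun k => ((redL s.n (chunk P (4 * s.n) (slotIx s.L M k))).reverse).rotate
        (s.n - (zdq s.n s.w s.x2 0 k).1)) 0 (M * s.L)).length = M * s.L * s.n :=
      seg_length (fun k _ hk => by rw [List.length_rotate]; exact hx3 k (by omega))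
    simp only [List.length_append, List.length_reverse, hlen3, List.length_nil, add_zero]
    clear h h8 h18 hcall hout hPl hx' hlen hx hx3 hlen3 hdat hR hY hYw hX
    exact trans_cost s.n s.L M s.s z1 d1 _ _ _ _ _ _ s.x2 _ hn0 hL0 hM0 (by omega) b3 b4 b1 b2 c1
      (Nat.sub_le _ _) c2 (Nat.sub_le _ _) hcn

end Vale.Agent.P338
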