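import Vale.Agent.Lib.P338.Conv
import Vale.Agent.Lib.P338.Math

/-! The transform computes a chirp transform. -/

namespace Vale.Agent.P338

open Finset

section ring
variable {R : Type} [CommRing R]

theorem two_pow_sm {n a b : ℕ} (h2 : (2 : R) ^ n = 1) (hb : b ≤ n) :
    (2 : R) ^ sm n a b * 2 ^ b = 2 ^ a := by
  unfold sm
  split_ifs with h
  · rw [← pow_add]; congr 1; omega
  · rw [← pow_add, show a + n - b + b = a + n by omega, pow_add, h2, mul_one]

theorem cast_val_append (x y : List Bool) :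
    (val (x ++ y) : R) = val x * 2 ^ y.length + val y := by
  rw [val_append]; push_cast; rfl

theorem val_rotate {n z : ℕ} (h2 : (2 : R) ^ n = 1) {x : List Bool} (hx : x.length = n)
    (hz : z ≤ n) : (val (x.rotate (n - z)) : R) * 2 ^ z = val x := by
  rw [List.rotate_eq_drop_append_take (by omega), cast_val_append]
  conv_rhs => rw [← List.take_append_drop (n - z) x, cast_val_append]
  have h1 : (x.take (n - z)).length = n - z := by simp; omega
  have h3 : (x.drop (n - z)).length = z := by simp; omega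
  rw [h1, h3, add_mul, mul_assoc, ← pow_add, show n - z + z = n by omega, h2, mul_one]
  ring

theorem cast_modEq {n a b : ℕ} (h2 : (2 : R) ^ n = 1) (h : a ≡ b [MOD (2 ^ n - 1)]) :
    (a : R) = b := by
  have h0 : ((2 ^ n - 1 : ℕ) : R) = 0 := by
    rw [Nat.cast_sub Nat.one_le_two_pow]; push_cast; rw [h2, sub_self]
  have key : ∀ c : ℕ, (c : R) = ((c % (2 ^ n - 1) : ℕ) : R) := by
    intro c
    conv_lhs => rw [← Nat.div_add_mod c (2 ^ n - 1)]
    rw [Nat.cast_add, Nat.cast_mul, h0, zero_mul, zero_add]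
  rw [key a, key b, h]

/-- pre-chirp and table -/
theorem zdq_pre {n w z₀ : ℕ} (h2 : (2 : R) ^ n = 1) (hw : w ≤ n) (k : ℕ) :
    (2 : R) ^ (zdq n w z₀ (n - w) k).1 = 2 ^ (z₀ + w * (k * (k + 1) / 2)) ∧
      (2 : R) ^ (zdq n w z₀ (n - w) k).2 * 2 ^ (w * (k + 1)) = 1 := by
  induction k with
  | zero =>
    refine ⟨by simp [zdq], ?_⟩
    simp only [zdq, zero_add, mul_one]
    rw [← pow_add, show n - w + w = n by omega, h2]
  | succ k ih =>
    obtain ⟨i1, i2⟩ := ih
    have hd : (zdq n w z₀ (n - w) k).2 ≤ n := by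
      clear i1 i2
      induction k with
      | zero => exact Nat.sub_le _ _
      | succ k ih => exact sm_le ih hw
    rw [zdq_succ]
    have e1 := two_pow_sm (R := R) (a := (zdq n w z₀ (n - w) k).1) h2 hd
    have e2 := two_pow_sm (R := R) (a := (zdq n w z₀ (n - w) k).2) h2 hw
    constructor
    · simp only []
      have e3 : (k + 1) * (k + 1 + 1) / 2 = k * (k + 1) / 2 + (k + 1) := by
        rw [show (k + 1) * (k + 1 + 1) = k * (k + 1) + (k + 1) * 2 by ring,
          Nat.add_mul_div_right _ _ (by norm_num)]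
      rw [e3, mul_add, ← add_assoc, pow_add, ← i1, ← e1, mul_assoc, i2, mul_one]
    · simp only []
      rw [show w * (k + 1 + 1) = w + w * (k + 1) by ring, pow_add, ← mul_assoc, e2, i2]

/-- post-chirp -/
theorem zdq_post {n w z₀ : ℕ} (h2 : (2 : R) ^ n = 1) (hw : w ≤ n) (k : ℕ) :
    (2 : R) ^ (zdq n w z₀ 0 k).1 = 2 ^ (z₀ + w * (k * (k - 1) / 2)) ∧
      (2 : R) ^ (zdq n w z₀ 0 k).2 * 2 ^ (w * k) = 1 := by
  induction k with
  | zero => simp [zdq]
  | succ k ih =>
    obtain ⟨i1, i2⟩ := ih
    have hd : (zdq n w z₀ 0 k).2 ≤ n := by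
      clear i1 i2
      induction k with
      | zero => exact Nat.zero_le _
      | succ k ih => exact sm_le ih hw
    rw [zdq_succ]
    have e1 := two_pow_sm (R := R) (a := (zdq n w z₀ 0 k).1) h2 hd
    have e2 := two_pow_sm (R := R) (a := (zdq n w z₀ 0 k).2) h2 hw
    constructor
    · simp only []
      have e3 : (k + 1) * (k + 1 - 1) / 2 = k * (k - 1) / 2 + k := by
        rw [Nat.add_sub_cancel]
        rcases k with _ | k
        · rfl
        · rw [Nat.add_sub_cancel, show (k + 1 + 1) * (k + 1) = (k + 1) * k + (k + 1) * 2 by ring,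
            Nat.add_mul_div_right _ _ (by norm_num)]
      rw [e3, mul_add, ← add_assoc, pow_add, ← i1, ← e1, mul_assoc, i2, mul_one]
    · simp only []
      rw [show w * (k + 1) = w + w * k by ring, pow_add, ← mul_assoc, e2, i2]

/-- The transform computes the sums `∑ x_k 2 ^ (-w k r)`, divided by `2 ^ c`. -/
theorem trans_spec {n w c L M : ℕ} {x : ℕ → List Bool} (h2 : (2 : R) ^ n = 1) (hw : w ≤ n)
    (hc : c ≤ n) (hL : 1 ≤ L) (hLn : 2 * L ≤ n) (hwL : (2 : R) ^ (w * L) = 1)
    (hs : (2 : R) ^ (n / 2 + w * (L * (L + 1) / 2)) = 1)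
    (hx : ∀ k < M * L, (x k).length = n) {g r : ℕ} (hg : g < M) (hr : r < L) :
    (val (transOut n w c L M x (g * L + r)) : R) * 2 ^ c =
      ∑ k ∈ range L, (val (x (g * L + k)) : R) * 2 ^ ((n - w) * (k * r)) := by
  have hML : g * L + L ≤ M * L := by
    calc g * L + L = (g + 1) * L := by ring
      _ ≤ M * L := Nat.mul_le_mul_right _ hg
  have hpos : slotIx L M (g * L + r) < 2 * (4 * L * M + 2 * L) := by
    have h1 : (M * L - 1 - (g * L + r)) / L < M := by
      rw [Nat.div_lt_iff_lt_mul (by omega)]; omega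
    have h2 : (M * L - 1 - (g * L + r)) % L < L := Nat.mod_lt _ (by omega)
    have h3 : 4 * L * ((M * L - 1 - (g * L + r)) / L) + 4 * L ≤ 4 * L * M := by
      calc _ = 4 * L * ((M * L - 1 - (g * L + r)) / L + 1) := by ring
        _ ≤ _ := Nat.mul_le_mul_left _ h1
    unfold slotIx
    omega
  have hcl : (chunk (prodBits n w L M x) (4 * n) (slotIx L M (g * L + r))).length = 4 * n :=
    chunk_length (prodBits_length x) hpos
  obtain ⟨r1, r2⟩ := redL_spec n _ hcl
  have key := chirp2 (R := R) n (n / 2) L w c h2 hw hwL hs hL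
    (fun k => (val (preW n w x k) : R) * 2 ^ (w * (k * (k + 1) / 2)))
    (fun k => (val (preW n w x k) : R))
    (fun e => (val (transOut n w c L M x e) : R))
    (fun p => 2 ^ (n / 2 + w * (p * (p + 1) / 2))) g r hr (fun k => rfl) (fun p _ => rfl) ?_
  · rw [key]
    refine sum_congr rfl fun k hk => ?_
    rw [mem_range] at hk
    congr 1
    have hxl := hx (g * L + k) (by omega)
    obtain ⟨z1, z2⟩ := zdq_le (n := n) (w := w) (z₀ := 0) (d₀ := n - w) hw (by omega) (by omega)
      (g * L + k)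
    have := val_rotate (R := R) h2 hxl z1
    rw [(zdq_pre (R := R) (z₀ := 0) h2 hw (g * L + k)).1, zero_add] at this
    exact this
  · obtain ⟨z1, z2⟩ := zdq_le (n := n) (w := w) (z₀ := c) (d₀ := 0) hw hc (by omega)
      (g * L + r)
    have hv := val_rotate (R := R) h2 (x := (redL n (chunk (prodBits n w L M x) (4 * n)
      (slotIx L M (g * L + r)))).reverse) (by rw [List.length_reverse]; exact r1) z1
    rw [(zdq_post (R := R) (z₀ := c) h2 hw (g * L + r)).1] at hv
    rw [transOut, hv, val_reverse, cast_modEq h2 r2, lv_slot hLn (by omega) hx hg hr]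
    push_cast
    refine sum_congr rfl fun k hk => ?_
    rw [(zdq_pre (R := R) (z₀ := n / 2) h2 hw (L + k - r)).1]

end ring

end Vale.Agent.P338
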