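import Vale.Agent.Lib.P338.Passes
import Vale.Agent.Lib.P338.TransSpec
import Vale.Agent.Lib.P338.Trans3

/-! Swapping two neighbouring digits. -/

set_option linter.constructorNameAsVariable false

namespace Vale.Agent.P338

open Function

/-- `w = n - 2 v` -/
def setW2 : Cmd W G := Cmd.seq (copy .n .w .u1) (forT .v .u1 (Cmd.seq (pop .w) (pop .w)))

/-- `w = 2 v (1 + q)` -/
def setW1 : Cmd W G :=
  Cmd.seq (Cmd.seq (forT .v .u2 (Cmd.seq (copy .q .w .u1) (copy .q .w .u1))) (copy .v .w .u1))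
    (copy .v .w .u1)

/-- `w = n - 2 v (q - 1)` -/
def setW3 : Cmd W G :=
  Cmd.seq (Cmd.seq (copy .n .w .u1) (forT .v .u2 (forT .q .u1 (Cmd.seq (pop .w) (pop .w))))) (forT
    .v .u1 (Cmd.seq (push .tick .w) (push .tick .w)))

variable {Ω : (W → List G) → (W → List G) → ℕ → Prop}

theorem run_setW2 (s : St) (hw : s.w = 0) (hu : s.u1 = 0) (h : 2 * s.v ≤ s.n) :
    Run Ω setW2 s.st (St.st {s with w := s.n - 2 * s.v}) (4 * s.n + 6 * s.v + 4) := by
  have h1 := t_copy (Ω := Ω) .n .w .u1 (by decide) (f := s.st) rfl rfl (by simp [hu])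
  simp only [
      upd_arg, upd_dat, upd_acc, upd_t1, upd_t2, upd_t3, upd_res, upd_out, upd_cc, upd_n, upd_s,
      upd_L, upd_q, upd_tau, upd_K, upd_w, upd_z, upd_zb, upd_d, upd_db, upd_e, upd_v, upd_p,
      upd_i, upd_j, upd_a, upd_b, upd_B, upd_N, upd_m, upd_h, upd_u1, upd_u2, upd_u3, upd_u4,
      upd_u5, upd_u6, upd_x1, upd_x2, upd_x3, upd_x4, st_arg, st_dat, st_acc, st_t1, st_t2, st_t3,
      st_res, st_out, st_cc, st_n, st_s, st_L, st_q, st_tau, st_K, st_w, st_z, st_zb, st_d, st_db,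
      st_e, st_v, st_p, st_i, st_j, st_a, st_b, st_B, st_N, st_m, st_h, st_u1, st_u2, st_u3,
      st_u4, st_u5, st_u6, st_x1, st_x2, st_x3, st_x4] at h1
  have h2 := w_for (Ω := Ω) .v .u1 (by decide) (body := Cmd.seq (pop .w) (pop .w))
    (fun i => {s with w := s.n - 2 * i}) s.v 2 (fun i hi a b => by
      have B := t_pop (Ω := Ω) .w (f := St.st {s with w := s.n - 2 * i, v := a, u1 := b})
        (s.n - 2 * i - 1) (by simp only [st_w]; congr 1; omega)
      simp only [
          upd_arg, upd_dat, upd_acc, upd_t1, upd_t2, upd_t3, upd_res, upd_out, upd_cc, upd_n,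
          upd_s, upd_L, upd_q, upd_tau, upd_K, upd_w, upd_z, upd_zb, upd_d, upd_db, upd_e, upd_v,
          upd_p, upd_i, upd_j, upd_a, upd_b, upd_B, upd_N, upd_m, upd_h, upd_u1, upd_u2, upd_u3,
          upd_u4, upd_u5, upd_u6, upd_x1, upd_x2, upd_x3, upd_x4, st_arg, st_dat, st_acc, st_t1,
          st_t2, st_t3, st_res, st_out, st_cc, st_n, st_s, st_L, st_q, st_tau, st_K, st_w, st_z,
          st_zb, st_d, st_db, st_e, st_v, st_p, st_i, st_j, st_a, st_b, st_B, st_N, st_m, st_h,
          st_u1, st_u2, st_u3, st_u4, st_u5, st_u6, st_x1, st_x2, st_x3, st_x4] at B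
      have B := B.seq (t_pop .w (s.n - 2 * (i + 1)) (by simp only [st_w]; congr 1; omega))
      simp only [
          upd_arg, upd_dat, upd_acc, upd_t1, upd_t2, upd_t3, upd_res, upd_out, upd_cc, upd_n,
          upd_s, upd_L, upd_q, upd_tau, upd_K, upd_w, upd_z, upd_zb, upd_d, upd_db, upd_e, upd_v,
          upd_p, upd_i, upd_j, upd_a, upd_b, upd_B, upd_N, upd_m, upd_h, upd_u1, upd_u2, upd_u3,
          upd_u4, upd_u5, upd_u6, upd_x1, upd_x2, upd_x3, upd_x4, st_arg, st_dat, st_acc, st_t1,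
          st_t2, st_t3, st_res, st_out, st_cc, st_n, st_s, st_L, st_q, st_tau, st_K, st_w, st_z,
          st_zb, st_d, st_db, st_e, st_v, st_p, st_i, st_j, st_a, st_b, st_B, st_N, st_m, st_h,
          st_u1, st_u2, st_u3, st_u4, st_u5, st_u6, st_x1, st_x2, st_x3, st_x4] at B
      simp only [
          upd_arg, upd_dat, upd_acc, upd_t1, upd_t2, upd_t3, upd_res, upd_out, upd_cc, upd_n,
          upd_s, upd_L, upd_q, upd_tau, upd_K, upd_w, upd_z, upd_zb, upd_d, upd_db, upd_e, upd_v,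
          upd_p, upd_i, upd_j, upd_a, upd_b, upd_B, upd_N, upd_m, upd_h, upd_u1, upd_u2, upd_u3,
          upd_u4, upd_u5, upd_u6, upd_x1, upd_x2, upd_x3, upd_x4, st_arg, st_dat, st_acc, st_t1,
          st_t2, st_t3, st_res, st_out, st_cc, st_n, st_s, st_L, st_q, st_tau, st_K, st_w, st_z,
          st_zb, st_d, st_db, st_e, st_v, st_p, st_i, st_j, st_a, st_b, st_B, st_N, st_m, st_h,
          st_u1, st_u2, st_u3, st_u4, st_u5, st_u6, st_x1, st_x2, st_x3, st_x4]
      exact B)
  simp only [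
      upd_arg, upd_dat, upd_acc, upd_t1, upd_t2, upd_t3, upd_res, upd_out, upd_cc, upd_n, upd_s,
      upd_L, upd_q, upd_tau, upd_K, upd_w, upd_z, upd_zb, upd_d, upd_db, upd_e, upd_v, upd_p,
      upd_i, upd_j, upd_a, upd_b, upd_B, upd_N, upd_m, upd_h, upd_u1, upd_u2, upd_u3, upd_u4,
      upd_u5, upd_u6, upd_x1, upd_x2, upd_x3, upd_x4, st_arg, st_dat, st_acc, st_t1, st_t2, st_t3,
      st_res, st_out, st_cc, st_n, st_s, st_L, st_q, st_tau, st_K, st_w, st_z, st_zb, st_d, st_db,
      st_e, st_v, st_p, st_i, st_j, st_a, st_b, st_B, st_N, st_m, st_h, st_u1, st_u2, st_u3,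
      st_u4, st_u5, st_u6, st_x1, st_x2, st_x3, st_x4] at h2
  refine (h1.seq (h2.cast ?_ ?_ le_rfl)).congr rfl (by omega)
  · congr 1; cases s; simp_all
  · congr 1; cases s; simp_all

theorem run_setW1 (s : St) (hw : s.w = 0) (hu : s.u1 = 0) (hu2 : s.u2 = 0) :
    Run Ω setW1 s.st (St.st {s with w := 2 * s.v * (1 + s.q)})
      (s.v * (8 * s.q + 8) + 8 * s.v + 6) := by
  have h1 := w_for (Ω := Ω) .v .u2 (by decide) (body := Cmd.seq (copy .q .w .u1) (copy .q .w .u1))
    (fun i => {s with w := 2 * s.q * i}) s.v (8 * s.q + 4) (fun i hi a b => by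
      have B := t_copy (Ω := Ω) .q .w .u1 (by decide)
        (f := St.st {s with w := 2 * s.q * i, v := a, u2 := b}) rfl rfl (by simp [hu])
      simp only [
          upd_arg, upd_dat, upd_acc, upd_t1, upd_t2, upd_t3, upd_res, upd_out, upd_cc, upd_n,
          upd_s, upd_L, upd_q, upd_tau, upd_K, upd_w, upd_z, upd_zb, upd_d, upd_db, upd_e, upd_v,
          upd_p, upd_i, upd_j, upd_a, upd_b, upd_B, upd_N, upd_m, upd_h, upd_u1, upd_u2, upd_u3,
          upd_u4, upd_u5, upd_u6, upd_x1, upd_x2, upd_x3, upd_x4, st_arg, st_dat, st_acc, st_t1,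
          st_t2, st_t3, st_res, st_out, st_cc, st_n, st_s, st_L, st_q, st_tau, st_K, st_w, st_z,
          st_zb, st_d, st_db, st_e, st_v, st_p, st_i, st_j, st_a, st_b, st_B, st_N, st_m, st_h,
          st_u1, st_u2, st_u3, st_u4, st_u5, st_u6, st_x1, st_x2, st_x3, st_x4] at B
      have B := B.seq (t_copy .q .w .u1 (by decide) rfl rfl (by simp [hu]))
      simp only [
          upd_arg, upd_dat, upd_acc, upd_t1, upd_t2, upd_t3, upd_res, upd_out, upd_cc, upd_n,
          upd_s, upd_L, upd_q, upd_tau, upd_K, upd_w, upd_z, upd_zb, upd_d, upd_db, upd_e, upd_v,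
          upd_p, upd_i, upd_j, upd_a, upd_b, upd_B, upd_N, upd_m, upd_h, upd_u1, upd_u2, upd_u3,
          upd_u4, upd_u5, upd_u6, upd_x1, upd_x2, upd_x3, upd_x4, st_arg, st_dat, st_acc, st_t1,
          st_t2, st_t3, st_res, st_out, st_cc, st_n, st_s, st_L, st_q, st_tau, st_K, st_w, st_z,
          st_zb, st_d, st_db, st_e, st_v, st_p, st_i, st_j, st_a, st_b, st_B, st_N, st_m, st_h,
          st_u1, st_u2, st_u3, st_u4, st_u5, st_u6, st_x1, st_x2, st_x3, st_x4] at B
      simp only [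
          upd_arg, upd_dat, upd_acc, upd_t1, upd_t2, upd_t3, upd_res, upd_out, upd_cc, upd_n,
          upd_s, upd_L, upd_q, upd_tau, upd_K, upd_w, upd_z, upd_zb, upd_d, upd_db, upd_e, upd_v,
          upd_p, upd_i, upd_j, upd_a, upd_b, upd_B, upd_N, upd_m, upd_h, upd_u1, upd_u2, upd_u3,
          upd_u4, upd_u5, upd_u6, upd_x1, upd_x2, upd_x3, upd_x4, st_arg, st_dat, st_acc, st_t1,
          st_t2, st_t3, st_res, st_out, st_cc, st_n, st_s, st_L, st_q, st_tau, st_K, st_w, st_z,
          st_zb, st_d, st_db, st_e, st_v, st_p, st_i, st_j, st_a, st_b, st_B, st_N, st_m, st_h,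
          st_u1, st_u2, st_u3, st_u4, st_u5, st_u6, st_x1, st_x2, st_x3, st_x4]
      refine B.congr ?_ (by omega)
      congr 2
      ring)
  simp only [
      upd_arg, upd_dat, upd_acc, upd_t1, upd_t2, upd_t3, upd_res, upd_out, upd_cc, upd_n, upd_s,
      upd_L, upd_q, upd_tau, upd_K, upd_w, upd_z, upd_zb, upd_d, upd_db, upd_e, upd_v, upd_p,
      upd_i, upd_j, upd_a, upd_b, upd_B, upd_N, upd_m, upd_h, upd_u1, upd_u2, upd_u3, upd_u4,
      upd_u5, upd_u6, upd_x1, upd_x2, upd_x3, upd_x4, st_arg, st_dat, st_acc, st_t1, st_t2, st_t3,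
      st_res, st_out, st_cc, st_n, st_s, st_L, st_q, st_tau, st_K, st_w, st_z, st_zb, st_d, st_db,
      st_e, st_v, st_p, st_i, st_j, st_a, st_b, st_B, st_N, st_m, st_h, st_u1, st_u2, st_u3,
      st_u4, st_u5, st_u6, st_x1, st_x2, st_x3, st_x4] at h1
  have h := (h1.cast (f' := s.st) (by congr 1; cases s; simp_all) rfl le_rfl).seq
    (t_copy .v .w .u1 (by decide) rfl rfl (by simp [hu]))
  simp only [
      upd_arg, upd_dat, upd_acc, upd_t1, upd_t2, upd_t3, upd_res, upd_out, upd_cc, upd_n, upd_s,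
      upd_L, upd_q, upd_tau, upd_K, upd_w, upd_z, upd_zb, upd_d, upd_db, upd_e, upd_v, upd_p,
      upd_i, upd_j, upd_a, upd_b, upd_B, upd_N, upd_m, upd_h, upd_u1, upd_u2, upd_u3, upd_u4,
      upd_u5, upd_u6, upd_x1, upd_x2, upd_x3, upd_x4, st_arg, st_dat, st_acc, st_t1, st_t2, st_t3,
      st_res, st_out, st_cc, st_n, st_s, st_L, st_q, st_tau, st_K, st_w, st_z, st_zb, st_d, st_db,
      st_e, st_v, st_p, st_i, st_j, st_a, st_b, st_B, st_N, st_m, st_h, st_u1, st_u2, st_u3,
      st_u4, st_u5, st_u6, st_x1, st_x2, st_x3, st_x4] at h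
  have h := h.seq (t_copy .v .w .u1 (by decide) rfl rfl (by simp [hu]))
  simp only [
      upd_arg, upd_dat, upd_acc, upd_t1, upd_t2, upd_t3, upd_res, upd_out, upd_cc, upd_n, upd_s,
      upd_L, upd_q, upd_tau, upd_K, upd_w, upd_z, upd_zb, upd_d, upd_db, upd_e, upd_v, upd_p,
      upd_i, upd_j, upd_a, upd_b, upd_B, upd_N, upd_m, upd_h, upd_u1, upd_u2, upd_u3, upd_u4,
      upd_u5, upd_u6, upd_x1, upd_x2, upd_x3, upd_x4, st_arg, st_dat, st_acc, st_t1, st_t2, st_t3,
      st_res, st_out, st_cc, st_n, st_s, st_L, st_q, st_tau, st_K, st_w, st_z, st_zb, st_d, st_db,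
      st_e, st_v, st_p, st_i, st_j, st_a, st_b, st_B, st_N, st_m, st_h, st_u1, st_u2, st_u3,
      st_u4, st_u5, st_u6, st_x1, st_x2, st_x3, st_x4] at h
  refine h.congr ?_ ?_
  · congr 1
    simp only [hu2]
    congr 1
    ring
  · have e : s.v * (8 * s.q + 4 + 4) = s.v * (8 * s.q + 8) := by ring
    omega

theorem run_setW3 (s : St) (hw : s.w = 0) (hu : s.u1 = 0) (hu2 : s.u2 = 0)
    (h : 2 * s.v * s.q ≤ s.n) (hq : 1 ≤ s.q) :
    Run Ω setW3 s.st (St.st {s with w := s.n - 2 * s.v * (s.q - 1)})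
      (4 * s.n + s.v * (6 * s.q + 6) + 6 * s.v + 6) := by
  have h1 := t_copy (Ω := Ω) .n .w .u1 (by decide) (f := s.st) rfl rfl (by simp [hu])
  simp only [
      upd_arg, upd_dat, upd_acc, upd_t1, upd_t2, upd_t3, upd_res, upd_out, upd_cc, upd_n, upd_s,
      upd_L, upd_q, upd_tau, upd_K, upd_w, upd_z, upd_zb, upd_d, upd_db, upd_e, upd_v, upd_p,
      upd_i, upd_j, upd_a, upd_b, upd_B, upd_N, upd_m, upd_h, upd_u1, upd_u2, upd_u3, upd_u4,
      upd_u5, upd_u6, upd_x1, upd_x2, upd_x3, upd_x4, st_arg, st_dat, st_acc, st_t1, st_t2, st_t3,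
      st_res, st_out, st_cc, st_n, st_s, st_L, st_q, st_tau, st_K, st_w, st_z, st_zb, st_d, st_db,
      st_e, st_v, st_p, st_i, st_j, st_a, st_b, st_B, st_N, st_m, st_h, st_u1, st_u2, st_u3,
      st_u4, st_u5, st_u6, st_x1, st_x2, st_x3, st_x4] at h1
  have h2 := w_for (Ω := Ω) .v .u2 (by decide) (body := forT .q .u1 (Cmd.seq (pop .w) (pop .w)))
    (fun i => {s with w := s.n - 2 * s.q * i}) s.v (6 * s.q + 2) (fun i hi a b => by
      have hi' : 2 * s.q * (i + 1) ≤ s.n := by
        calc 2 * s.q * (i + 1) ≤ 2 * s.q * s.v := Nat.mul_le_mul_left _ hi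
          _ = 2 * s.v * s.q := by ring
          _ ≤ s.n := h
      have e : 2 * s.q * (i + 1) = 2 * s.q * i + 2 * s.q := by ring
      have C := w_for (Ω := Ω) .q .u1 (by decide) (body := Cmd.seq (pop .w) (pop .w))
        (fun j => {s with w := s.n - 2 * s.q * i - 2 * j, v := a, u2 := b}) s.q 2
        (fun j hj x y => by
          have B := t_pop (Ω := Ω) .w (f := St.st {s with
              w := s.n - 2 * s.q * i - 2 * j, v := a, u2 := b, q := x, u1 := y})
            (s.n - 2 * s.q * i - 2 * j - 1) (by simp only [st_w]; congr 1; omega)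
          simp only [
              upd_arg, upd_dat, upd_acc, upd_t1, upd_t2, upd_t3, upd_res, upd_out, upd_cc, upd_n,
              upd_s, upd_L, upd_q, upd_tau, upd_K, upd_w, upd_z, upd_zb, upd_d, upd_db, upd_e,
              upd_v, upd_p, upd_i, upd_j, upd_a, upd_b, upd_B, upd_N, upd_m, upd_h, upd_u1,
              upd_u2, upd_u3, upd_u4, upd_u5, upd_u6, upd_x1, upd_x2, upd_x3, upd_x4, st_arg,
              st_dat, st_acc, st_t1, st_t2, st_t3, st_res, st_out, st_cc, st_n, st_s, st_L, st_q,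
              st_tau, st_K, st_w, st_z, st_zb, st_d, st_db, st_e, st_v, st_p, st_i, st_j, st_a,
              st_b, st_B, st_N, st_m, st_h, st_u1, st_u2, st_u3, st_u4, st_u5, st_u6, st_x1,
              st_x2, st_x3, st_x4] at B
          have B := B.seq (t_pop .w (s.n - 2 * s.q * i - 2 * (j + 1))
            (by simp only [st_w]; congr 1; omega))
          simp only [
              upd_arg, upd_dat, upd_acc, upd_t1, upd_t2, upd_t3, upd_res, upd_out, upd_cc, upd_n,
              upd_s, upd_L, upd_q, upd_tau, upd_K, upd_w, upd_z, upd_zb, upd_d, upd_db, upd_e,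
              upd_v, upd_p, upd_i, upd_j, upd_a, upd_b, upd_B, upd_N, upd_m, upd_h, upd_u1,
              upd_u2, upd_u3, upd_u4, upd_u5, upd_u6, upd_x1, upd_x2, upd_x3, upd_x4, st_arg,
              st_dat, st_acc, st_t1, st_t2, st_t3, st_res, st_out, st_cc, st_n, st_s, st_L, st_q,
              st_tau, st_K, st_w, st_z, st_zb, st_d, st_db, st_e, st_v, st_p, st_i, st_j, st_a,
              st_b, st_B, st_N, st_m, st_h, st_u1, st_u2, st_u3, st_u4, st_u5, st_u6, st_x1,
              st_x2, st_x3, st_x4] at B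
          simp only [
              upd_arg, upd_dat, upd_acc, upd_t1, upd_t2, upd_t3, upd_res, upd_out, upd_cc, upd_n,
              upd_s, upd_L, upd_q, upd_tau, upd_K, upd_w, upd_z, upd_zb, upd_d, upd_db, upd_e,
              upd_v, upd_p, upd_i, upd_j, upd_a, upd_b, upd_B, upd_N, upd_m, upd_h, upd_u1,
              upd_u2, upd_u3, upd_u4, upd_u5, upd_u6, upd_x1, upd_x2, upd_x3, upd_x4, st_arg,
              st_dat, st_acc, st_t1, st_t2, st_t3, st_res, st_out, st_cc, st_n, st_s, st_L, st_q,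
              st_tau, st_K, st_w, st_z, st_zb, st_d, st_db, st_e, st_v, st_p, st_i, st_j, st_a,
              st_b, st_B, st_N, st_m, st_h, st_u1, st_u2, st_u3, st_u4, st_u5, st_u6, st_x1,
              st_x2, st_x3, st_x4]
          exact B)
      simp only [
          upd_arg, upd_dat, upd_acc, upd_t1, upd_t2, upd_t3, upd_res, upd_out, upd_cc, upd_n,
          upd_s, upd_L, upd_q, upd_tau, upd_K, upd_w, upd_z, upd_zb, upd_d, upd_db, upd_e, upd_v,
          upd_p, upd_i, upd_j, upd_a, upd_b, upd_B, upd_N, upd_m, upd_h, upd_u1, upd_u2, upd_u3,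
          upd_u4, upd_u5, upd_u6, upd_x1, upd_x2, upd_x3, upd_x4, st_arg, st_dat, st_acc, st_t1,
          st_t2, st_t3, st_res, st_out, st_cc, st_n, st_s, st_L, st_q, st_tau, st_K, st_w, st_z,
          st_zb, st_d, st_db, st_e, st_v, st_p, st_i, st_j, st_a, st_b, st_B, st_N, st_m, st_h,
          st_u1, st_u2, st_u3, st_u4, st_u5, st_u6, st_x1, st_x2, st_x3, st_x4] at C
      simp only [
          upd_arg, upd_dat, upd_acc, upd_t1, upd_t2, upd_t3, upd_res, upd_out, upd_cc, upd_n,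
          upd_s, upd_L, upd_q, upd_tau, upd_K, upd_w, upd_z, upd_zb, upd_d, upd_db, upd_e, upd_v,
          upd_p, upd_i, upd_j, upd_a, upd_b, upd_B, upd_N, upd_m, upd_h, upd_u1, upd_u2, upd_u3,
          upd_u4, upd_u5, upd_u6, upd_x1, upd_x2, upd_x3, upd_x4, st_arg, st_dat, st_acc, st_t1,
          st_t2, st_t3, st_res, st_out, st_cc, st_n, st_s, st_L, st_q, st_tau, st_K, st_w, st_z,
          st_zb, st_d, st_db, st_e, st_v, st_p, st_i, st_j, st_a, st_b, st_B, st_N, st_m, st_h,
          st_u1, st_u2, st_u3, st_u4, st_u5, st_u6, st_x1, st_x2, st_x3, st_x4]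
      refine C.cast ?_ ?_ (by omega)
      · congr 1
        simp only [mul_zero, Nat.sub_zero, hu]
      · congr 1
        simp only [hu]
        congr 1
        omega)
  simp only [
      upd_arg, upd_dat, upd_acc, upd_t1, upd_t2, upd_t3, upd_res, upd_out, upd_cc, upd_n, upd_s,
      upd_L, upd_q, upd_tau, upd_K, upd_w, upd_z, upd_zb, upd_d, upd_db, upd_e, upd_v, upd_p,
      upd_i, upd_j, upd_a, upd_b, upd_B, upd_N, upd_m, upd_h, upd_u1, upd_u2, upd_u3, upd_u4,
      upd_u5, upd_u6, upd_x1, upd_x2, upd_x3, upd_x4, st_arg, st_dat, st_acc, st_t1, st_t2, st_t3,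
      st_res, st_out, st_cc, st_n, st_s, st_L, st_q, st_tau, st_K, st_w, st_z, st_zb, st_d, st_db,
      st_e, st_v, st_p, st_i, st_j, st_a, st_b, st_B, st_N, st_m, st_h, st_u1, st_u2, st_u3,
      st_u4, st_u5, st_u6, st_x1, st_x2, st_x3, st_x4] at h2
  have h3 := w_for (Ω := Ω) .v .u1 (by decide) (body := Cmd.seq (push .tick .w) (push .tick .w))
    (fun i => {s with w := s.n - 2 * s.q * s.v + 2 * i}) s.v 2 (fun i hi a b => by
      have B := t_push (Ω := Ω) .w (f := St.st {s with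
        w := s.n - 2 * s.q * s.v + 2 * i, v := a, u1 := b}) rfl
      simp only [
          upd_arg, upd_dat, upd_acc, upd_t1, upd_t2, upd_t3, upd_res, upd_out, upd_cc, upd_n,
          upd_s, upd_L, upd_q, upd_tau, upd_K, upd_w, upd_z, upd_zb, upd_d, upd_db, upd_e, upd_v,
          upd_p, upd_i, upd_j, upd_a, upd_b, upd_B, upd_N, upd_m, upd_h, upd_u1, upd_u2, upd_u3,
          upd_u4, upd_u5, upd_u6, upd_x1, upd_x2, upd_x3, upd_x4, st_arg, st_dat, st_acc, st_t1,
          st_t2, st_t3, st_res, st_out, st_cc, st_n, st_s, st_L, st_q, st_tau, st_K, st_w, st_z,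
          st_zb, st_d, st_db, st_e, st_v, st_p, st_i, st_j, st_a, st_b, st_B, st_N, st_m, st_h,
          st_u1, st_u2, st_u3, st_u4, st_u5, st_u6, st_x1, st_x2, st_x3, st_x4] at B
      have B := B.seq (t_push .w rfl)
      simp only [
          upd_arg, upd_dat, upd_acc, upd_t1, upd_t2, upd_t3, upd_res, upd_out, upd_cc, upd_n,
          upd_s, upd_L, upd_q, upd_tau, upd_K, upd_w, upd_z, upd_zb, upd_d, upd_db, upd_e, upd_v,
          upd_p, upd_i, upd_j, upd_a, upd_b, upd_B, upd_N, upd_m, upd_h, upd_u1, upd_u2, upd_u3,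
          upd_u4, upd_u5, upd_u6, upd_x1, upd_x2, upd_x3, upd_x4, st_arg, st_dat, st_acc, st_t1,
          st_t2, st_t3, st_res, st_out, st_cc, st_n, st_s, st_L, st_q, st_tau, st_K, st_w, st_z,
          st_zb, st_d, st_db, st_e, st_v, st_p, st_i, st_j, st_a, st_b, st_B, st_N, st_m, st_h,
          st_u1, st_u2, st_u3, st_u4, st_u5, st_u6, st_x1, st_x2, st_x3, st_x4] at B
      simp only [
          upd_arg, upd_dat, upd_acc, upd_t1, upd_t2, upd_t3, upd_res, upd_out, upd_cc, upd_n,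
          upd_s, upd_L, upd_q, upd_tau, upd_K, upd_w, upd_z, upd_zb, upd_d, upd_db, upd_e, upd_v,
          upd_p, upd_i, upd_j, upd_a, upd_b, upd_B, upd_N, upd_m, upd_h, upd_u1, upd_u2, upd_u3,
          upd_u4, upd_u5, upd_u6, upd_x1, upd_x2, upd_x3, upd_x4, st_arg, st_dat, st_acc, st_t1,
          st_t2, st_t3, st_res, st_out, st_cc, st_n, st_s, st_L, st_q, st_tau, st_K, st_w, st_z,
          st_zb, st_d, st_db, st_e, st_v, st_p, st_i, st_j, st_a, st_b, st_B, st_N, st_m, st_h,
          st_u1, st_u2, st_u3, st_u4, st_u5, st_u6, st_x1, st_x2, st_x3, st_x4]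
      exact B)
  simp only [
      upd_arg, upd_dat, upd_acc, upd_t1, upd_t2, upd_t3, upd_res, upd_out, upd_cc, upd_n, upd_s,
      upd_L, upd_q, upd_tau, upd_K, upd_w, upd_z, upd_zb, upd_d, upd_db, upd_e, upd_v, upd_p,
      upd_i, upd_j, upd_a, upd_b, upd_B, upd_N, upd_m, upd_h, upd_u1, upd_u2, upd_u3, upd_u4,
      upd_u5, upd_u6, upd_x1, upd_x2, upd_x3, upd_x4, st_arg, st_dat, st_acc, st_t1, st_t2, st_t3,
      st_res, st_out, st_cc, st_n, st_s, st_L, st_q, st_tau, st_K, st_w, st_z, st_zb, st_d, st_db,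
      st_e, st_v, st_p, st_i, st_j, st_a, st_b, st_B, st_N, st_m, st_h, st_u1, st_u2, st_u3,
      st_u4, st_u5, st_u6, st_x1, st_x2, st_x3, st_x4] at h3
  refine ((h1.seq (h2.cast ?_ rfl le_rfl)).seq (h3.cast ?_ ?_ le_rfl)).congr rfl ?_
  · congr 1
    simp only [hw, hu2, mul_zero, Nat.sub_zero, add_zero]
  · congr 1
    simp only [hu, hu2, mul_zero, add_zero]
  · congr 1
    simp only [hu]
    congr 1
    have e1 : 2 * s.q * s.v = 2 * s.v * (s.q - 1) + 2 * s.v := by
      obtain ⟨q', hq'⟩ : ∃ q', s.q = q' + 1 := ⟨s.q - 1, by omega⟩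
      rw [hq', Nat.add_sub_cancel]; ring
    have e2 : 2 * s.q * s.v = 2 * s.v * s.q := by ring
    omega
  · have e : s.v * (6 * s.q + 2 + 4) = s.v * (6 * s.q + 6) := by ring
    omega

theorem transOut_length {n w c L M : ℕ} {x : ℕ → List Bool} (hL : 0 < L) {e : ℕ}
    (he : e < M * L) : (transOut n w c L M x e).length = n := by
  rw [transOut, List.length_rotate, List.length_reverse]
  refine (redL_spec _ _ (chunk_length (prodBits_length x) ?_)).1
  have h1 : (M * L - 1 - e) / L < M := by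
    rw [Nat.div_lt_iff_lt_mul hL]; omega
  have h2 : (M * L - 1 - e) % L < L := Nat.mod_lt _ hL
  have h3 : 4 * L * ((M * L - 1 - e) / L) + 4 * L ≤ 4 * L * M := by
    calc _ = 4 * L * ((M * L - 1 - e) / L + 1) := by ring
      _ ≤ _ := Nat.mul_le_mul_left _ h1
  unfold slotIx
  omega

/-- The source of entry `k` under the swap. -/
def swQ (q k : ℕ) : ℕ := (k / (q * q) * q + k % q) * q + k / q % q

section math

theorem pow_even {R : Type} [CommRing R] {s a : ℕ} (h : (2 : R) ^ s = -1) (ha : Even a) :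
    (2 : R) ^ (s * a) = 1 := by
  rw [pow_mul, h, ha.neg_one_pow]

theorem trans_spec' {R : Type} [CommRing R] {s n L v ω c M : ℕ} (hm1 : (2 : R) ^ s = -1)
    (hs : s = v * L) (hn : n = s + s) (hL2 : Even L) (hL0 : 0 < L) (hv : 1 ≤ v) (hω : Odd ω)
    (hωL : ω ≤ L) (hc : c ≤ n) {x : ℕ → List Bool} (hx : ∀ k < M * L, (x k).length = n)
    {g r : ℕ} (hg : g < M) (hr : r < L) :
    (val (transOut n (2 * v * ω) c L M x (g * L + r)) : R) * 2 ^ c =
      ∑ k ∈ Finset.range L, (val (x (g * L + k)) : R) * 2 ^ ((n - 2 * v * ω) * (k * r)) := by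
  obtain ⟨l, hl⟩ := hL2
  have hn1 : (2 : R) ^ n = 1 := by
    rw [hn, ← two_mul, mul_comm]; exact pow_even hm1 even_two
  have hLn : 2 * L ≤ n := by
    have : L ≤ s := by rw [hs]; exact Nat.le_mul_of_pos_left _ hv
    omega
  refine trans_spec hn1 ?_ hc hL0 hLn ?_ ?_ hx hg hr
  · rw [hn, hs]
    calc 2 * v * ω ≤ 2 * v * L := Nat.mul_le_mul_left _ hωL
      _ = _ := by ring
  · rw [show 2 * v * ω * L = s * (2 * ω) by rw [hs]; ring]
    exact pow_even hm1 (even_two_mul _)
  · have e1 : n / 2 = s := by omega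
    have e2 : L * (L + 1) / 2 = l * (L + 1) := by
      rw [show L * (L + 1) = l * (L + 1) * 2 by rw [hl]; ring]
      exact Nat.mul_div_cancel _ (by norm_num)
    rw [e1, e2, show s + 2 * v * ω * (l * (L + 1)) = s * (1 + ω * (L + 1)) by
      rw [hs, hl]; ring]
    refine pow_even hm1 ?_
    have h1 : Odd (ω * (L + 1)) := hω.mul (Even.add_one ⟨l, hl⟩)
    exact odd_one.add_odd h1

theorem swap_math (τ v M : ℕ) (hτ : 1 ≤ τ) (hv : 1 ≤ v) (D : ℕ → List Bool)
    (hD : ∀ k < M * (2 ^ τ * 2 ^ τ), (D k).length = v * (2 ^ τ * 2 ^ τ))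
    (X0 X1 X2 X3 X4 X5 : ℕ → List Bool) (s n L : ℕ) (hL : L = 2 ^ τ * 2 ^ τ) (hs : s = v * L)
    (hn : n = s + s)
    (h0 : X0 = fun k => List.replicate s false ++ D k)
    (h1 : X1 = transOut n (2 * v * (1 + 2 ^ τ)) 0 L M X0)
    (h2 : X2 = transOut n (n - 2 * v) 0 L M X1)
    (h3 : X3 = fun k => X2 (ropIx (2 ^ τ) k))
    (h4 : X4 = transOut n (n - 2 * v * (2 ^ τ - 1)) 0 L M X3)
    (h5 : X5 = transOut n (n - 2 * v) (4 * τ) L M X4)
    (k : ℕ) (hk : k < M * L) : cvW s (X5 k) = D (swQ (2 ^ τ) k) := by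
  set q := 2 ^ τ with hq
  have hq2 : 2 ≤ q := by
    calc 2 = 2 ^ 1 := rfl
      _ ≤ 2 ^ τ := Nat.pow_le_pow_right (by norm_num) hτ
  have hq0 : 0 < q := by omega
  have hL4 : L = 4 ^ τ := by
    rw [hL, hq, ← mul_pow]; norm_num
  have hL0 : 0 < L := by rw [hL]; positivity
  have hqL : q ≤ L := by rw [hL]; exact Nat.le_mul_of_pos_left _ hq0
  have hLs : L ≤ s := by rw [hs]; exact Nat.le_mul_of_pos_left _ hv
  have hs0 : 0 < s := by omega
  -- the ring
  set R := ZMod (2 ^ s + 1) with hR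
  have hm1 : (2 : R) ^ s = -1 := by
    have : ((2 ^ s + 1 : ℕ) : R) = 0 := ZMod.natCast_self _
    push_cast at this
    exact eq_neg_of_add_eq_zero_left this
  have hn1 : (2 : R) ^ n = 1 := by
    rw [hn, ← two_mul, mul_comm]; exact pow_even hm1 even_two
  have hqe : Even q := by
    rw [hq]; exact (Nat.even_pow.2 ⟨even_two, by omega⟩)
  have hLe : Even L := by rw [hL]; exact hqe.mul_left _
  have hqq : q + 2 ≤ L := by
    rw [hL]; nlinarith
  have hvn : 2 * v * L = n := by rw [hn, hs]; ring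
  have hw2 : n - 2 * v = 2 * v * (L - 1) := by
    rw [← hvn, Nat.mul_sub, mul_one]
  have hw3 : n - 2 * v * (q - 1) = 2 * v * (L - (q - 1)) := by
    rw [← hvn]; exact (Nat.mul_sub _ _ _).symm
  have o1 : Odd (1 + q) := by rw [add_comm]; exact hqe.add_one
  have o2 : Odd (L - 1) := Nat.Even.sub_odd (by omega) hLe odd_one
  have o3 : Odd (L - (q - 1)) :=
    Nat.Even.sub_odd (by omega) hLe (Nat.Even.sub_odd (by omega) hqe odd_one)
  have h4τ : 4 * τ ≤ n := by
    have : τ < 4 ^ τ := Nat.lt_pow_self (by norm_num)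
    have h8 : ∀ t, 1 ≤ t → 4 * t ≤ 2 * 4 ^ t := by
      intro t ht
      induction t, ht using Nat.le_induction with
      | base => norm_num
      | succ t _ ih => rw [pow_succ]; omega
    calc 4 * τ ≤ 2 * 4 ^ τ := h8 τ hτ
      _ = 2 * L := by rw [hL4]
      _ ≤ n := by omega
  -- lengths
  have l0 : ∀ k < M * L, (X0 k).length = n := by
    intro k hk
    rw [h0]
    simp only [List.length_append, List.length_replicate]
    rw [hD k (by rw [← hL]; exact hk), ← hL, ← hs, hn]
  have l1 : ∀ k < M * L, (X1 k).length = n := by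
    intro k hk; rw [h1]; exact transOut_length hL0 hk
  have l2 : ∀ k < M * L, (X2 k).length = n := by
    intro k hk; rw [h2]; exact transOut_length hL0 hk
  have hrop : ∀ g < M, ∀ r < L, ropIx q (g * L + r) < M * L := by
    intro g hg r hr
    have e1 : (g * L + r) / q < M * q := by
      rw [Nat.div_lt_iff_lt_mul hq0]
      calc g * L + r < g * L + L := by omega
        _ = (g + 1) * L := by ring
        _ ≤ M * L := Nat.mul_le_mul_right _ hg
        _ = M * q * q := by rw [hL]; ring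
    have e2 := Nat.mod_lt ((g * L + r) / q % q + q - (g * L + r) % q) hq0
    rw [ropIx]
    calc _ < (g * L + r) / q * q + q := by omega
      _ = ((g * L + r) / q + 1) * q := by ring
      _ ≤ M * q * q := Nat.mul_le_mul_right _ e1
      _ = M * L := by rw [hL]; ring
  have l3 : ∀ k < M * L, (X3 k).length = n := by
    intro k hk
    rw [h3]
    refine l2 _ ?_
    have := hrop (k / L) (by rw [Nat.div_lt_iff_lt_mul hL0]; exact hk) (k % L)
      (Nat.mod_lt _ hL0)
    rwa [mul_comm (k / L), Nat.div_add_mod] at this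
  have l4 : ∀ k < M * L, (X4 k).length = n := by
    intro k hk; rw [h4]; exact transOut_length hL0 hk
  have l5 : ∀ k < M * L, (X5 k).length = n := by
    intro k hk; rw [h5]; exact transOut_length hL0 hk
  -- coordinates
  obtain ⟨g, j, i, hg, hj, hi, hkk⟩ : ∃ g j i, g < M ∧ j < q ∧ i < q ∧ k = g * L + (j * q + i) := by
    refine ⟨k / L, k % L / q, k % L % q, ?_, ?_, Nat.mod_lt _ hq0, ?_⟩
    · rw [Nat.div_lt_iff_lt_mul hL0]; exact hk
    · rw [Nat.div_lt_iff_lt_mul hq0, ← hL]; exact Nat.mod_lt _ hL0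
    · rw [mul_comm (k % L / q), Nat.div_add_mod, mul_comm (k / L), Nat.div_add_mod]
  have hjq : ∀ j i, j < q → i < q → j * q + i < L := by
    intro j i hj hi
    calc j * q + i < j * q + q := by omega
      _ = (j + 1) * q := by ring
      _ ≤ q * q := Nat.mul_le_mul_right _ hj
      _ = L := hL.symm
  have hgL : g * L + L ≤ M * L := by
    calc g * L + L = (g + 1) * L := by ring
      _ ≤ M * L := Nat.mul_le_mul_right _ hg
  have key := digit_swap (R := R) τ s (2 * v) hτ hm1 (by rw [← hL4, hvn, hn]; ring)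
    (fun k => (val (X0 (g * L + k)) : R)) (fun r => (val (X1 (g * L + r)) : R))
    (fun r => (val (X2 (g * L + r)) : R)) (fun r => (val (X3 (g * L + r)) : R))
    (fun r => (val (X4 (g * L + r)) : R))
    (fun r => (val (X5 (g * L + r)) : R) * 2 ^ (4 * τ))
    (by
      intro r hr
      rw [← hL4] at hr ⊢
      have := trans_spec' (R := R) (c := 0) hm1 hs hn hLe hL0 hv o1 (by omega) (Nat.zero_le _)
        l0 hg hr
      rw [← h1, pow_zero, mul_one] at this
      rw [this, show 2 * s = n by omega])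
    (by
      intro r hr
      rw [← hL4] at hr ⊢
      have := trans_spec' (R := R) (c := 0) hm1 hs hn hLe hL0 hv o2 (by omega) (Nat.zero_le _)
        l1 hg hr
      rw [← hw2, ← h2, pow_zero, mul_one] at this
      rw [this, show n - (n - 2 * v) = 2 * v by
        have : 2 * v ≤ n := by rw [← hvn]; exact Nat.le_mul_of_pos_right _ hL0
        omega])
    (by
      intro a ha c hc
      rw [← hq] at ha hc ⊢
      simp only [h3]
      congr 3
      have e1 : (g * L + (a * q + c)) / q = g * q + a := by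
        rw [hL, show g * (q * q) + (a * q + c) = q * (g * q + a) + c by ring,
          Nat.mul_add_div hq0, Nat.div_eq_of_lt hc, add_zero]
      have e2 : (g * L + (a * q + c)) % q = c := by
        rw [hL, show g * (q * q) + (a * q + c) = q * (g * q + a) + c by ring,
          Nat.mul_add_mod, Nat.mod_eq_of_lt hc]
      rw [ropIx, e1, e2, Nat.mul_add_mod', Nat.mod_eq_of_lt ha, hL]
      ring)
    (by
      intro r hr
      rw [← hL4] at hr ⊢
      have := trans_spec' (R := R) (c := 0) hm1 hs hn hLe hL0 hv o3 (by omega) (Nat.zero_le _)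
        l3 hg hr
      rw [← hw3, ← h4, pow_zero, mul_one] at this
      rw [this, ← hq, show n - (n - 2 * v * (q - 1)) = 2 * v * (q - 1) by
        have : 2 * v * (q - 1) ≤ n := by rw [← hvn]; exact Nat.mul_le_mul_left _ (by omega)
        omega])
    (by
      intro r hr
      rw [← hL4] at hr ⊢
      have := trans_spec' (R := R) (c := 4 * τ) hm1 hs hn hLe hL0 hv o2 (by omega) h4τ
        l4 hg hr
      rw [← hw2, ← h5] at this
      rw [this, show n - (n - 2 * v) = 2 * v by
        have : 2 * v ≤ n := by rw [← hvn]; exact Nat.le_mul_of_pos_right _ hL0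
        omega])
    i j (by rw [← hq]; exact hi) (by rw [← hq]; exact hj)
  rw [← hq, ← hkk] at key
  have hsw : swQ q k = g * L + (i * q + j) := by
    have e1 : k / (q * q) = g := by
      rw [hkk, hL, mul_comm g, Nat.mul_add_div (by positivity), Nat.div_eq_of_lt, add_zero]
      rw [← hL]; exact hjq j i hj hi
    have e2 : k % q = i := by
      rw [hkk, hL, show g * (q * q) + (j * q + i) = q * (g * q + j) + i by ring,
        Nat.mul_add_mod, Nat.mod_eq_of_lt hi]
    have e3 : k / q % q = j := by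
      rw [hkk, hL, show g * (q * q) + (j * q + i) = q * (g * q + j) + i by ring,
        Nat.mul_add_div hq0, Nat.div_eq_of_lt hi, add_zero, Nat.mul_add_mod',
        Nat.mod_eq_of_lt hj]
    rw [swQ, e1, e2, e3, hL]; ring
  have hlt : g * L + (i * q + j) < M * L := by
    have := hjq i j hi hj
    omega
  have hunit : IsUnit ((2 : R) ^ (4 * τ)) := by
    refine IsUnit.pow _ (IsUnit.of_mul_eq_one (2 ^ (n - 1)) ?_)
    rw [← pow_succ', Nat.sub_add_cancel (by omega), hn1]
  rw [mul_comm] at key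
  have key2 := hunit.mul_left_cancel key
  have hmod : val (X5 k) ≡ val (X0 (g * L + (i * q + j))) [MOD (2 ^ s + 1)] :=
    (ZMod.natCast_eq_natCast_iff _ _ _).1 key2
  rw [hsw]
  have hDl := hD (g * L + (i * q + j)) (by rw [← hL]; exact hlt)
  rw [← hL, ← hs] at hDl
  have hX0 : val (X0 (g * L + (i * q + j))) = val (D (g * L + (i * q + j))) := by
    rw [h0, val_append, val_replicate, zero_mul, zero_add]
  rw [hX0] at hmod
  rw [cvW_spec (by rw [l5 k hk, hn]; ring) (by rw [← hDl]; exact val_lt _) hmod, ← hDl, bin_val]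

end math


end Vale.Agent.P338
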