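import Vale.Agent.Lib.P338.Swap

/-! Swapping two neighbouring digits: the program. -/

set_option linter.constructorNameAsVariable false

namespace Vale.Agent.P338

open Function

/-- All work stacks are empty. -/
structure Clean (σ : St) : Prop where
  arg : σ.arg = []
  acc : σ.acc = []
  t1 : σ.t1 = []
  t2 : σ.t2 = []
  t3 : σ.t3 = []
  res : σ.res = []
  cc : σ.cc = []
  s : σ.s = 0
  n : σ.n = 0
  w : σ.w = 0
  z : σ.z = 0
  zb : σ.zb = 0
  d : σ.d = 0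
  db : σ.db = 0
  p : σ.p = 0
  a : σ.a = 0
  b : σ.b = 0
  u1 : σ.u1 = 0
  u2 : σ.u2 = 0
  x1 : σ.x1 = 0
  x2 : σ.x2 = 0

/-- Swap two neighbouring digits. -/
def fastSwap : Cmd W G :=
  Cmd.seq (Cmd.seq (Cmd.seq (Cmd.seq (Cmd.seq (Cmd.seq (Cmd.seq (Cmd.seq (Cmd.seq (Cmd.seq
    (Cmd.seq (Cmd.seq (Cmd.seq (Cmd.seq (Cmd.seq (Cmd.seq (Cmd.seq (Cmd.seq (Cmd.seq (Cmd.seq
    (Cmd.seq (Cmd.seq (Cmd.seq (Cmd.seq (Cmd.seq (Cmd.seq (forT .v .u2 (copy .L .s .u1)) (copy .s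
    .n .u1)) (copy .s .n .u1)) expand) setW1) trans) (clear .w)) setW2) trans) (clear .w)) rop)
    setW3) trans) (clear .w)) setW2) (copy .tau .x2 .u1)) (copy .tau .x2 .u1)) (copy .tau .x2
    .u1)) (copy .tau .x2 .u1)) trans) (clear .w)) (clear .x2)) (clear .n)) (copy .s .n .u1)) cvt)
    (clear .n)) (clear .s)

theorem swap_cost (v L ns n Q M τ C K U ν T st : ℕ) (hv : 1 ≤ v) (hL : L = Q * Q) (hQ : 1 ≤ Q)
    (hM : 1 ≤ M) (hns : ns = v * L) (hn : n = ns + ns) (hτ : 4 * τ ≤ n) (hst : st = τ)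
    (hK : K = C * (U + ν) + 3000 * (M * L * n)) (hU : U ≤ T) (hν : ν ≤ 48 * (M * L * ns)) :
    v * (4 * L + 2 + 4) + 2 + (4 * ns + 2) + (4 * ns + 2) +
      (M * L * (10 * ns + 5) + 2 * (M * L * (ns + ns)) + 2) + (v * (8 * Q + 8) + 8 * v + 6) + K +
      (2 * (2 * v * (1 + Q)) + 1) + (4 * n + 6 * v + 4) + K + (2 * (n - 2 * v) + 1) +
      (8 * Q + M * Q * (Q * (12 * n + 14) + 11) + 2 * (M * Q * (Q * n)) + 10) +
      (4 * n + v * (6 * Q + 6) + 6 * v + 6) + K + (2 * (n - 2 * v * (Q - 1)) + 1) +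
      (4 * n + 6 * v + 4) + (4 * st + 2) + (4 * st + 2) + (4 * st + 2) + (4 * st + 2) + K +
      (2 * (n - 2 * v) + 1) + (2 * (4 * τ) + 1) + (2 * n + 1) + (4 * ns + 2) +
      (M * L * (40 * ns + 21) + 2 * (M * L * ns) + 2) + (2 * (ns + 0) + 1) + (2 * ns + 1) ≤
    50000 * (C + 1) * (T + M * L * ns) := by
  have e1 : v * (4 * L + 2 + 4) = 4 * ns + 6 * v := by rw [hns]; ring
  have e2 : M * L * (10 * ns + 5) = 10 * (M * L * ns) + 5 * (M * L) := by ring
  have e3 : M * L * (ns + ns) = 2 * (M * L * ns) := by ring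
  have e4 : v * (8 * Q + 8) = 8 * (v * Q) + 8 * v := by ring
  have e5 : 2 * v * (1 + Q) = 2 * v + 2 * (v * Q) := by ring
  have e6 : M * L * n = 2 * (M * L * ns) := by rw [hn]; ring
  have e7 : M * Q * (Q * (12 * n + 14) + 11) = 24 * (M * L * ns) + 14 * (M * L) + 11 * (M * Q) := by
    rw [hn, hL]; ring
  have e8 : M * Q * (Q * n) = 2 * (M * L * ns) := by rw [hn, hL]; ring
  have e9 : v * (6 * Q + 6) = 6 * (v * Q) + 6 * v := by ring
  have e10 : M * L * (40 * ns + 21) = 40 * (M * L * ns) + 21 * (M * L) := by ring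
  have e11 : 50000 * (C + 1) * (T + M * L * ns) =
      50000 * (C * T) + 50000 * (C * (M * L * ns)) + 50000 * T + 50000 * (M * L * ns) := by ring
  have hL1 : 1 ≤ L := by rw [hL]; exact Nat.mul_pos hQ hQ
  have hs1 : 1 ≤ ns := by rw [hns]; exact Nat.mul_pos hv hL1
  have f1 : v ≤ ns := by rw [hns]; exact Nat.le_mul_of_pos_right _ hL1
  have f2 : Q ≤ L := by rw [hL]; exact Nat.le_mul_of_pos_right _ hQ
  have f3 : v * Q ≤ ns := by rw [hns]; exact Nat.mul_le_mul_left _ f2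
  have f4 : M * Q ≤ M * L := Nat.mul_le_mul_left _ f2
  have f5 : M * L ≤ M * L * ns := Nat.le_mul_of_pos_right _ hs1
  have f6 : 1 ≤ M * L := Nat.mul_pos hM hL1
  have f7 : ns ≤ M * L * ns := Nat.le_mul_of_pos_left _ f6
  have f8 : L ≤ M * L := Nat.le_mul_of_pos_left _ hM
  have g1 : C * (U + ν) ≤ C * (T + 48 * (M * L * ns)) := Nat.mul_le_mul_left _ (by omega)
  have g2 : C * (T + 48 * (M * L * ns)) = C * T + 48 * (C * (M * L * ns)) := by ring
  have s1 : n - 2 * v ≤ n := Nat.sub_le _ _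
  have s2 : n - 2 * v * (Q - 1) ≤ n := Nat.sub_le _ _
  rw [e1, e2, e3, e4, e5, e7, e8, e9, e10, e11]
  rw [e6] at hK
  generalize n - 2 * v = y1 at *
  generalize n - 2 * v * (Q - 1) = y2 at *
  generalize M * L * ns = P at *
  generalize C * (U + ν) = Z at *
  generalize C * T = CT at *
  generalize C * P = CP at *
  generalize v * Q = vQ at *
  generalize M * Q = MQ at *
  generalize M * L = ML at *
  omega

theorem run_fastSwap (Mach : Machine) (C : ℕ) (s : St) (cl : Clean s) (τ v M T : ℕ) (hτ : 1 ≤ τ)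
    (hv : 1 ≤ v) (hM : 1 ≤ M) (D : ℕ → List Bool)
    (hD : ∀ k < M * (2 ^ τ * 2 ^ τ), (D k).length = v * (2 ^ τ * 2 ^ τ))
    (hsv : s.v = v) (hsτ : s.tau = τ) (hsq : s.q = 2 ^ τ) (hsL : s.L = 2 ^ τ * 2 ^ τ)
    (hdat : s.dat = seg D 0 (M * (2 ^ τ * 2 ^ τ)))
    (hT : ∀ ν, 32 * (M * (2 ^ τ * 2 ^ τ) * (v * (2 ^ τ * 2 ^ τ))) ≤ ν →
      ν ≤ 48 * (M * (2 ^ τ * 2 ^ τ) * (v * (2 ^ τ * 2 ^ τ))) → Mach.mulTime ν ≤ T) :
    Run (mulOracle Mach C W.arg W.res) fastSwap s.st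
      (St.st {s with dat := seg (fun k => D (swQ (2 ^ τ) k)) 0 (M * (2 ^ τ * 2 ^ τ))})
      (50000 * (C + 1) * (T + M * (2 ^ τ * 2 ^ τ) * (v * (2 ^ τ * 2 ^ τ)))) := by
  obtain ⟨harg, hacc, ht1, ht2, ht3, hres, hcc, hs, hn, hw, hz, hzb, hd, hdb, hp, ha, hb, hu, hu2,
    hx1, hx2⟩ := cl
  set Ω : (W → List G) → (W → List G) → ℕ → Prop := mulOracle Mach C W.arg W.res with hΩ
  obtain ⟨q, hq⟩ : ∃ q, q = 2 ^ τ := ⟨_, rfl⟩
  obtain ⟨L, hL⟩ : ∃ L, L = 2 ^ τ * 2 ^ τ := ⟨_, rfl⟩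
  obtain ⟨ns, hns⟩ : ∃ ns, ns = v * L := ⟨_, rfl⟩
  obtain ⟨n, hn'⟩ : ∃ n, n = ns + ns := ⟨_, rfl⟩
  have hq2 : 2 ≤ q := by
    calc 2 = 2 ^ 1 := rfl
      _ ≤ 2 ^ τ := Nat.pow_le_pow_right (by norm_num) hτ
      _ = q := hq.symm
  have hq0 : 0 < q := by omega
  have hLq : L = q * q := by rw [hL, hq]
  have hL0 : 0 < L := by rw [hLq]; positivity
  have hqL : q ≤ L := by rw [hLq]; exact Nat.le_mul_of_pos_left _ hq0
  have hLs : L ≤ ns := by rw [hns]; exact Nat.le_mul_of_pos_left _ hv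
  have hs0 : 0 < ns := by omega
  have hvs : v ≤ ns := by rw [hns]; exact Nat.le_mul_of_pos_right _ hL0
  have hvn : 2 * v * L = n := by rw [hn', hns]; ring
  have hqq : q + 2 ≤ L := by rw [hLq]; nlinarith
  have h4τ : 4 * τ ≤ n := by
    have h8 : ∀ t, 1 ≤ t → 4 * t ≤ 2 * (2 ^ t * 2 ^ t) := by
      intro t ht
      induction t, ht using Nat.le_induction with
      | base => norm_num
      | succ t _ ih => rw [pow_succ]; ring_nf at ih ⊢; omega
    calc 4 * τ ≤ 2 * (2 ^ τ * 2 ^ τ) := h8 τ hτ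
      _ = 2 * L := by rw [hL]
      _ ≤ n := by omega
  have hnn : n = 2 * (n / 2) := by omega
  have hnn2 : ns = n / 2 := by omega
  rw [← hL] at hD hsL hdat hT ⊢
  rw [← hns] at hT hD ⊢
  -- the words
  obtain ⟨X0, h0⟩ : ∃ X0 : ℕ → List Bool, X0 = fun k => List.replicate ns false ++ D k := ⟨_, rfl⟩
  obtain ⟨X1, h1⟩ : ∃ X1, X1 = transOut n (2 * v * (1 + 2 ^ τ)) 0 L M X0 := ⟨_, rfl⟩
  obtain ⟨X2, h2⟩ : ∃ X2, X2 = transOut n (n - 2 * v) 0 L M X1 := ⟨_, rfl⟩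
  obtain ⟨X3, h3⟩ : ∃ X3 : ℕ → List Bool, X3 = fun k => X2 (ropIx (2 ^ τ) k) := ⟨_, rfl⟩
  obtain ⟨X4, h4⟩ : ∃ X4, X4 = transOut n (n - 2 * v * (2 ^ τ - 1)) 0 L M X3 := ⟨_, rfl⟩
  obtain ⟨X5, h5⟩ : ∃ X5, X5 = transOut n (n - 2 * v) (4 * τ) L M X4 := ⟨_, rfl⟩
  have hfin : ∀ k < M * L, cvW ns (X5 k) = D (swQ (2 ^ τ) k) :=
    swap_math τ v M hτ hv D (by rw [← hL, ← hns]; exact hD) X0 X1 X2 X3 X4 X5 ns n L hL hns hn' h0 h1
      h2 h3 h4 h5
  have l0 : ∀ k < M * L, (X0 k).length = n := by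
    intro k hk
    rw [h0]
    simp only [List.length_append, List.length_replicate]
    rw [hD k hk, hn']
  have l1 : ∀ k < M * L, (X1 k).length = n := by
    intro k hk; rw [h1]; exact transOut_length hL0 hk
  have l2 : ∀ k < M * L, (X2 k).length = n := by
    intro k hk; rw [h2]; exact transOut_length hL0 hk
  have l3 : ∀ k < M * L, (X3 k).length = n := by
    intro k hk
    rw [h3]
    refine l2 _ ?_
    rw [← hq]
    have e1 : k / q < M * q := by
      rw [Nat.div_lt_iff_lt_mul hq0]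
      calc k < M * L := hk
        _ = M * q * q := by rw [hLq]; ring
    have e2 := Nat.mod_lt (k / q % q + q - k % q) hq0
    rw [ropIx]
    calc _ < k / q * q + q := by omega
      _ = (k / q + 1) * q := by ring
      _ ≤ M * q * q := Nat.mul_le_mul_right _ e1
      _ = M * L := by rw [hLq]; ring
  have l4 : ∀ k < M * L, (X4 k).length = n := by
    intro k hk; rw [h4]; exact transOut_length hL0 hk
  have l5 : ∀ k < M * L, (X5 k).length = n := by
    intro k hk; rw [h5]; exact transOut_length hL0 hk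
  -- registers
  have A1 := w_for (Ω := Ω) .v .u2 (by decide) (body := copy .L .s .u1)
    (fun i => {s with s := i * L}) v (4 * L + 2) (fun i hi a b => by
      have B := t_copy (Ω := Ω) .L .s .u1 (by decide) (f := St.st {s with s := i * L, v := a, u2 := b}) rfl rfl
        (by simp [hu])
      simp only [
          upd_arg, upd_dat, upd_acc, upd_t1, upd_t2, upd_t3, upd_res, upd_out, upd_cc, upd_n,
          upd_s, upd_L, upd_q, upd_tau, upd_K, upd_w, upd_z, upd_zb, upd_d, upd_db, upd_e, upd_v,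
          upd_p, upd_i, upd_j, upd_a, upd_b, upd_B, upd_N, upd_m, upd_h, upd_u1, upd_u2, upd_u3,
          upd_u4, upd_u5, upd_u6, upd_x1, upd_x2, upd_x3, upd_x4, st_arg, st_dat, st_acc, st_t1,
          st_t2, st_t3, st_res, st_out, st_cc, st_n, st_s, st_L, st_q, st_tau, st_K, st_w, st_z,
          st_zb, st_d, st_db, st_e, st_v, st_p, st_i, st_j, st_a, st_b, st_B, st_N, st_m, st_h,
          st_u1, st_u2, st_u3, st_u4, st_u5, st_u6, st_x1, st_x2, st_x3, st_x4] at B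
      simp only [
          upd_arg, upd_dat, upd_acc, upd_t1, upd_t2, upd_t3, upd_res, upd_out, upd_cc, upd_n,
          upd_s, upd_L, upd_q, upd_tau, upd_K, upd_w, upd_z, upd_zb, upd_d, upd_db, upd_e, upd_v,
          upd_p, upd_i, upd_j, upd_a, upd_b, upd_B, upd_N, upd_m, upd_h, upd_u1, upd_u2, upd_u3,
          upd_u4, upd_u5, upd_u6, upd_x1, upd_x2, upd_x3, upd_x4, st_arg, st_dat, st_acc, st_t1,
          st_t2, st_t3, st_res, st_out, st_cc, st_n, st_s, st_L, st_q, st_tau, st_K, st_w, st_z,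
          st_zb, st_d, st_db, st_e, st_v, st_p, st_i, st_j, st_a, st_b, st_B, st_N, st_m, st_h,
          st_u1, st_u2, st_u3, st_u4, st_u5, st_u6, st_x1, st_x2, st_x3, st_x4]
      refine B.congr ?_ (by simp only [hsL]; omega)
      congr 2
      rw [hsL]; ring)
  simp only [
      upd_arg, upd_dat, upd_acc, upd_t1, upd_t2, upd_t3, upd_res, upd_out, upd_cc, upd_n, upd_s,
      upd_L, upd_q, upd_tau, upd_K, upd_w, upd_z, upd_zb, upd_d, upd_db, upd_e, upd_v, upd_p,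
      upd_i, upd_j, upd_a, upd_b, upd_B, upd_N, upd_m, upd_h, upd_u1, upd_u2, upd_u3, upd_u4,
      upd_u5, upd_u6, upd_x1, upd_x2, upd_x3, upd_x4, st_arg, st_dat, st_acc, st_t1, st_t2, st_t3,
      st_res, st_out, st_cc, st_n, st_s, st_L, st_q, st_tau, st_K, st_w, st_z, st_zb, st_d, st_db,
      st_e, st_v, st_p, st_i, st_j, st_a, st_b, st_B, st_N, st_m, st_h, st_u1, st_u2, st_u3,
      st_u4, st_u5, st_u6, st_x1, st_x2, st_x3, st_x4] at A1
  have h := A1.cast (f' := s.st) (by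
    have e : ∀ a b c, a = s.s → b = s.v → c = s.u2 →
      ({s with s := a, v := b, u2 := c} : St) = s := by rintro _ _ _ rfl rfl rfl; rfl
    rw [e _ _ _ (by rw [zero_mul, hs]) hsv.symm hu2.symm]) rfl le_rfl
  have h := h.seq (t_copy .s .n .u1 (by decide) rfl rfl (by simp [hu]))
  simp only [
      upd_arg, upd_dat, upd_acc, upd_t1, upd_t2, upd_t3, upd_res, upd_out, upd_cc, upd_n, upd_s,
      upd_L, upd_q, upd_tau, upd_K, upd_w, upd_z, upd_zb, upd_d, upd_db, upd_e, upd_v, upd_p,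
      upd_i, upd_j, upd_a, upd_b, upd_B, upd_N, upd_m, upd_h, upd_u1, upd_u2, upd_u3, upd_u4,
      upd_u5, upd_u6, upd_x1, upd_x2, upd_x3, upd_x4, st_arg, st_dat, st_acc, st_t1, st_t2, st_t3,
      st_res, st_out, st_cc, st_n, st_s, st_L, st_q, st_tau, st_K, st_w, st_z, st_zb, st_d, st_db,
      st_e, st_v, st_p, st_i, st_j, st_a, st_b, st_B, st_N, st_m, st_h, st_u1, st_u2, st_u3,
      st_u4, st_u5, st_u6, st_x1, st_x2, st_x3, st_x4] at h
  have h := h.seq (t_copy .s .n .u1 (by decide) rfl rfl (by simp [hu]))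
  simp only [
      upd_arg, upd_dat, upd_acc, upd_t1, upd_t2, upd_t3, upd_res, upd_out, upd_cc, upd_n, upd_s,
      upd_L, upd_q, upd_tau, upd_K, upd_w, upd_z, upd_zb, upd_d, upd_db, upd_e, upd_v, upd_p,
      upd_i, upd_j, upd_a, upd_b, upd_B, upd_N, upd_m, upd_h, upd_u1, upd_u2, upd_u3, upd_u4,
      upd_u5, upd_u6, upd_x1, upd_x2, upd_x3, upd_x4, st_arg, st_dat, st_acc, st_t1, st_t2, st_t3,
      st_res, st_out, st_cc, st_n, st_s, st_L, st_q, st_tau, st_K, st_w, st_z, st_zb, st_d, st_db,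
      st_e, st_v, st_p, st_i, st_j, st_a, st_b, st_B, st_N, st_m, st_h, st_u1, st_u2, st_u3,
      st_u4, st_u5, st_u6, st_x1, st_x2, st_x3, st_x4] at h
  rw [← hns, hn, show ns + (ns + 0) = n by omega] at h
  have h := h.seq ((run_expand {s with s := ns, n := n, v := v, u2 := 0} (M * L) D hD hs0 hdat hacc
    hu).cast rfl rfl le_rfl)
  simp only [
      upd_arg, upd_dat, upd_acc, upd_t1, upd_t2, upd_t3, upd_res, upd_out, upd_cc, upd_n, upd_s,
      upd_L, upd_q, upd_tau, upd_K, upd_w, upd_z, upd_zb, upd_d, upd_db, upd_e, upd_v, upd_p,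
      upd_i, upd_j, upd_a, upd_b, upd_B, upd_N, upd_m, upd_h, upd_u1, upd_u2, upd_u3, upd_u4,
      upd_u5, upd_u6, upd_x1, upd_x2, upd_x3, upd_x4, st_arg, st_dat, st_acc, st_t1, st_t2, st_t3,
      st_res, st_out, st_cc, st_n, st_s, st_L, st_q, st_tau, st_K, st_w, st_z, st_zb, st_d, st_db,
      st_e, st_v, st_p, st_i, st_j, st_a, st_b, st_B, st_N, st_m, st_h, st_u1, st_u2, st_u3,
      st_u4, st_u5, st_u6, st_x1, st_x2, st_x3, st_x4] at h
  rw [← h0] at h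
  have hvn2 : 2 * v ≤ n := by rw [← hvn]; exact Nat.le_mul_of_pos_right _ hL0
  have hvq1 : 2 * v * (1 + 2 ^ τ) ≤ n := by
    rw [← hvn]; exact Nat.mul_le_mul_left _ (by rw [← hq]; omega)
  have hvq3 : 2 * v * 2 ^ τ ≤ n := le_trans (Nat.mul_le_mul_left _ (by omega)) hvq1
  have hvq4 : 2 * v * (2 ^ τ - 1) < n := by
    rw [← hvn]
    exact (Nat.mul_lt_mul_left (by omega)).2 (by rw [← hq]; omega)
  have hvn3 : 2 * v < n := by
    rw [← hvn]
    calc 2 * v = 2 * v * 1 := (mul_one _).symm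
      _ < 2 * v * L := (Nat.mul_lt_mul_left (by omega)).2 (by omega)
  -- first transform
  have h := h.seq (run_setW1 _ hw hu rfl)
  simp only [
      upd_arg, upd_dat, upd_acc, upd_t1, upd_t2, upd_t3, upd_res, upd_out, upd_cc, upd_n, upd_s,
      upd_L, upd_q, upd_tau, upd_K, upd_w, upd_z, upd_zb, upd_d, upd_db, upd_e, upd_v, upd_p,
      upd_i, upd_j, upd_a, upd_b, upd_B, upd_N, upd_m, upd_h, upd_u1, upd_u2, upd_u3, upd_u4,
      upd_u5, upd_u6, upd_x1, upd_x2, upd_x3, upd_x4, st_arg, st_dat, st_acc, st_t1, st_t2, st_t3,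
      st_res, st_out, st_cc, st_n, st_s, st_L, st_q, st_tau, st_K, st_w, st_z, st_zb, st_d, st_db,
      st_e, st_v, st_p, st_i, st_j, st_a, st_b, st_B, st_N, st_m, st_h, st_u1, st_u2, st_u3,
      st_u4, st_u5, st_u6, st_x1, st_x2, st_x3, st_x4] at h
  rw [hsq] at h
  have h := h.seq (run_trans Mach C _ n (2 * v * (1 + 2 ^ τ)) 0 L M X0 l0 rfl hnn2 hnn (by omega)
    rfl (by positivity) hvq1 hsL hL0 hM hx2 (Nat.zero_le _) harg rfl hacc ht1 ht2 hres hcc hz hzb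
    hd hdb hp hu rfl hx1)
  simp only [
      upd_arg, upd_dat, upd_acc, upd_t1, upd_t2, upd_t3, upd_res, upd_out, upd_cc, upd_n, upd_s,
      upd_L, upd_q, upd_tau, upd_K, upd_w, upd_z, upd_zb, upd_d, upd_db, upd_e, upd_v, upd_p,
      upd_i, upd_j, upd_a, upd_b, upd_B, upd_N, upd_m, upd_h, upd_u1, upd_u2, upd_u3, upd_u4,
      upd_u5, upd_u6, upd_x1, upd_x2, upd_x3, upd_x4, st_arg, st_dat, st_acc, st_t1, st_t2, st_t3,
      st_res, st_out, st_cc, st_n, st_s, st_L, st_q, st_tau, st_K, st_w, st_z, st_zb, st_d, st_db,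
      st_e, st_v, st_p, st_i, st_j, st_a, st_b, st_B, st_N, st_m, st_h, st_u1, st_u2, st_u3,
      st_u4, st_u5, st_u6, st_x1, st_x2, st_x3, st_x4] at h
  rw [← h1] at h
  have h := h.seq (t_clear .w rfl)
  simp only [
      upd_arg, upd_dat, upd_acc, upd_t1, upd_t2, upd_t3, upd_res, upd_out, upd_cc, upd_n, upd_s,
      upd_L, upd_q, upd_tau, upd_K, upd_w, upd_z, upd_zb, upd_d, upd_db, upd_e, upd_v, upd_p,
      upd_i, upd_j, upd_a, upd_b, upd_B, upd_N, upd_m, upd_h, upd_u1, upd_u2, upd_u3, upd_u4,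
      upd_u5, upd_u6, upd_x1, upd_x2, upd_x3, upd_x4, st_arg, st_dat, st_acc, st_t1, st_t2, st_t3,
      st_res, st_out, st_cc, st_n, st_s, st_L, st_q, st_tau, st_K, st_w, st_z, st_zb, st_d, st_db,
      st_e, st_v, st_p, st_i, st_j, st_a, st_b, st_B, st_N, st_m, st_h, st_u1, st_u2, st_u3,
      st_u4, st_u5, st_u6, st_x1, st_x2, st_x3, st_x4] at h
  -- second transform
  have h := h.seq (run_setW2 _ rfl hu hvn2)
  simp only [
      upd_arg, upd_dat, upd_acc, upd_t1, upd_t2, upd_t3, upd_res, upd_out, upd_cc, upd_n, upd_s,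
      upd_L, upd_q, upd_tau, upd_K, upd_w, upd_z, upd_zb, upd_d, upd_db, upd_e, upd_v, upd_p,
      upd_i, upd_j, upd_a, upd_b, upd_B, upd_N, upd_m, upd_h, upd_u1, upd_u2, upd_u3, upd_u4,
      upd_u5, upd_u6, upd_x1, upd_x2, upd_x3, upd_x4, st_arg, st_dat, st_acc, st_t1, st_t2, st_t3,
      st_res, st_out, st_cc, st_n, st_s, st_L, st_q, st_tau, st_K, st_w, st_z, st_zb, st_d, st_db,
      st_e, st_v, st_p, st_i, st_j, st_a, st_b, st_B, st_N, st_m, st_h, st_u1, st_u2, st_u3,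
      st_u4, st_u5, st_u6, st_x1, st_x2, st_x3, st_x4] at h
  have h := h.seq (run_trans Mach C _ n (n - 2 * v) 0 L M X1 l1 rfl hnn2 hnn (by omega)
    rfl (by omega) (Nat.sub_le _ _) hsL hL0 hM hx2 (Nat.zero_le _) harg rfl hacc ht1 ht2 hres hcc
    hz hzb hd hdb hp hu rfl hx1)
  simp only [
      upd_arg, upd_dat, upd_acc, upd_t1, upd_t2, upd_t3, upd_res, upd_out, upd_cc, upd_n, upd_s,
      upd_L, upd_q, upd_tau, upd_K, upd_w, upd_z, upd_zb, upd_d, upd_db, upd_e, upd_v, upd_p,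
      upd_i, upd_j, upd_a, upd_b, upd_B, upd_N, upd_m, upd_h, upd_u1, upd_u2, upd_u3, upd_u4,
      upd_u5, upd_u6, upd_x1, upd_x2, upd_x3, upd_x4, st_arg, st_dat, st_acc, st_t1, st_t2, st_t3,
      st_res, st_out, st_cc, st_n, st_s, st_L, st_q, st_tau, st_K, st_w, st_z, st_zb, st_d, st_db,
      st_e, st_v, st_p, st_i, st_j, st_a, st_b, st_B, st_N, st_m, st_h, st_u1, st_u2, st_u3,
      st_u4, st_u5, st_u6, st_x1, st_x2, st_x3, st_x4] at h
  rw [← h2] at h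
  have h := h.seq (t_clear .w rfl)
  simp only [
      upd_arg, upd_dat, upd_acc, upd_t1, upd_t2, upd_t3, upd_res, upd_out, upd_cc, upd_n, upd_s,
      upd_L, upd_q, upd_tau, upd_K, upd_w, upd_z, upd_zb, upd_d, upd_db, upd_e, upd_v, upd_p,
      upd_i, upd_j, upd_a, upd_b, upd_B, upd_N, upd_m, upd_h, upd_u1, upd_u2, upd_u3, upd_u4,
      upd_u5, upd_u6, upd_x1, upd_x2, upd_x3, upd_x4, st_arg, st_dat, st_acc, st_t1, st_t2, st_t3,
      st_res, st_out, st_cc, st_n, st_s, st_L, st_q, st_tau, st_K, st_w, st_z, st_zb, st_d, st_db,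
      st_e, st_v, st_p, st_i, st_j, st_a, st_b, st_B, st_N, st_m, st_h, st_u1, st_u2, st_u3,
      st_u4, st_u5, st_u6, st_x1, st_x2, st_x3, st_x4] at h
  -- the reversals
  have hMq : M * L = M * 2 ^ τ * 2 ^ τ := by rw [hL]; ring
  have h := h.seq (run_rop _ (2 ^ τ) (M * 2 ^ τ) n X2
    rfl (by positivity) rfl (by omega) (fun k hk => l2 k (by rw [hMq]; exact hk))
    (by simp only [hMq]) hacc ha hb ht1 ht2 hu rfl)
  simp only [
      upd_arg, upd_dat, upd_acc, upd_t1, upd_t2, upd_t3, upd_res, upd_out, upd_cc, upd_n, upd_s,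
      upd_L, upd_q, upd_tau, upd_K, upd_w, upd_z, upd_zb, upd_d, upd_db, upd_e, upd_v, upd_p,
      upd_i, upd_j, upd_a, upd_b, upd_B, upd_N, upd_m, upd_h, upd_u1, upd_u2, upd_u3, upd_u4,
      upd_u5, upd_u6, upd_x1, upd_x2, upd_x3, upd_x4, st_arg, st_dat, st_acc, st_t1, st_t2, st_t3,
      st_res, st_out, st_cc, st_n, st_s, st_L, st_q, st_tau, st_K, st_w, st_z, st_zb, st_d, st_db,
      st_e, st_v, st_p, st_i, st_j, st_a, st_b, st_B, st_N, st_m, st_h, st_u1, st_u2, st_u3,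
      st_u4, st_u5, st_u6, st_x1, st_x2, st_x3, st_x4] at h
  rw [← h3, ← hMq] at h
  -- third transform
  have h := h.seq (run_setW3 _ rfl hu rfl hvq3 Nat.one_le_two_pow)
  simp only [
      upd_arg, upd_dat, upd_acc, upd_t1, upd_t2, upd_t3, upd_res, upd_out, upd_cc, upd_n, upd_s,
      upd_L, upd_q, upd_tau, upd_K, upd_w, upd_z, upd_zb, upd_d, upd_db, upd_e, upd_v, upd_p,
      upd_i, upd_j, upd_a, upd_b, upd_B, upd_N, upd_m, upd_h, upd_u1, upd_u2, upd_u3, upd_u4,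
      upd_u5, upd_u6, upd_x1, upd_x2, upd_x3, upd_x4, st_arg, st_dat, st_acc, st_t1, st_t2, st_t3,
      st_res, st_out, st_cc, st_n, st_s, st_L, st_q, st_tau, st_K, st_w, st_z, st_zb, st_d, st_db,
      st_e, st_v, st_p, st_i, st_j, st_a, st_b, st_B, st_N, st_m, st_h, st_u1, st_u2, st_u3,
      st_u4, st_u5, st_u6, st_x1, st_x2, st_x3, st_x4] at h
  have h := h.seq (run_trans Mach C _ n (n - 2 * v * (2 ^ τ - 1)) 0 L M X3 l3 rfl hnn2 hnn
    (by omega) rfl (by omega) (Nat.sub_le _ _) hsL hL0 hM hx2 (Nat.zero_le _) harg rfl hacc ht1 ht2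
    hres hcc hz hzb hd hdb hp hu rfl hx1)
  simp only [
      upd_arg, upd_dat, upd_acc, upd_t1, upd_t2, upd_t3, upd_res, upd_out, upd_cc, upd_n, upd_s,
      upd_L, upd_q, upd_tau, upd_K, upd_w, upd_z, upd_zb, upd_d, upd_db, upd_e, upd_v, upd_p,
      upd_i, upd_j, upd_a, upd_b, upd_B, upd_N, upd_m, upd_h, upd_u1, upd_u2, upd_u3, upd_u4,
      upd_u5, upd_u6, upd_x1, upd_x2, upd_x3, upd_x4, st_arg, st_dat, st_acc, st_t1, st_t2, st_t3,
      st_res, st_out, st_cc, st_n, st_s, st_L, st_q, st_tau, st_K, st_w, st_z, st_zb, st_d, st_db,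
      st_e, st_v, st_p, st_i, st_j, st_a, st_b, st_B, st_N, st_m, st_h, st_u1, st_u2, st_u3,
      st_u4, st_u5, st_u6, st_x1, st_x2, st_x3, st_x4] at h
  rw [← h4] at h
  have h := h.seq (t_clear .w rfl)
  simp only [
      upd_arg, upd_dat, upd_acc, upd_t1, upd_t2, upd_t3, upd_res, upd_out, upd_cc, upd_n, upd_s,
      upd_L, upd_q, upd_tau, upd_K, upd_w, upd_z, upd_zb, upd_d, upd_db, upd_e, upd_v, upd_p,
      upd_i, upd_j, upd_a, upd_b, upd_B, upd_N, upd_m, upd_h, upd_u1, upd_u2, upd_u3, upd_u4,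
      upd_u5, upd_u6, upd_x1, upd_x2, upd_x3, upd_x4, st_arg, st_dat, st_acc, st_t1, st_t2, st_t3,
      st_res, st_out, st_cc, st_n, st_s, st_L, st_q, st_tau, st_K, st_w, st_z, st_zb, st_d, st_db,
      st_e, st_v, st_p, st_i, st_j, st_a, st_b, st_B, st_N, st_m, st_h, st_u1, st_u2, st_u3,
      st_u4, st_u5, st_u6, st_x1, st_x2, st_x3, st_x4] at h
  -- fourth transform
  have h := h.seq (run_setW2 _ rfl hu hvn2)
  simp only [
      upd_arg, upd_dat, upd_acc, upd_t1, upd_t2, upd_t3, upd_res, upd_out, upd_cc, upd_n, upd_s,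
      upd_L, upd_q, upd_tau, upd_K, upd_w, upd_z, upd_zb, upd_d, upd_db, upd_e, upd_v, upd_p,
      upd_i, upd_j, upd_a, upd_b, upd_B, upd_N, upd_m, upd_h, upd_u1, upd_u2, upd_u3, upd_u4,
      upd_u5, upd_u6, upd_x1, upd_x2, upd_x3, upd_x4, st_arg, st_dat, st_acc, st_t1, st_t2, st_t3,
      st_res, st_out, st_cc, st_n, st_s, st_L, st_q, st_tau, st_K, st_w, st_z, st_zb, st_d, st_db,
      st_e, st_v, st_p, st_i, st_j, st_a, st_b, st_B, st_N, st_m, st_h, st_u1, st_u2, st_u3,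
      st_u4, st_u5, st_u6, st_x1, st_x2, st_x3, st_x4] at h
  have h := h.seq (t_copy .tau .x2 .u1 (by decide) rfl rfl (by simp [hu]))
  simp only [
      upd_arg, upd_dat, upd_acc, upd_t1, upd_t2, upd_t3, upd_res, upd_out, upd_cc, upd_n, upd_s,
      upd_L, upd_q, upd_tau, upd_K, upd_w, upd_z, upd_zb, upd_d, upd_db, upd_e, upd_v, upd_p,
      upd_i, upd_j, upd_a, upd_b, upd_B, upd_N, upd_m, upd_h, upd_u1, upd_u2, upd_u3, upd_u4,
      upd_u5, upd_u6, upd_x1, upd_x2, upd_x3, upd_x4, st_arg, st_dat, st_acc, st_t1, st_t2, st_t3,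
      st_res, st_out, st_cc, st_n, st_s, st_L, st_q, st_tau, st_K, st_w, st_z, st_zb, st_d, st_db,
      st_e, st_v, st_p, st_i, st_j, st_a, st_b, st_B, st_N, st_m, st_h, st_u1, st_u2, st_u3,
      st_u4, st_u5, st_u6, st_x1, st_x2, st_x3, st_x4] at h
  have h := h.seq (t_copy .tau .x2 .u1 (by decide) rfl rfl (by simp [hu]))
  simp only [
      upd_arg, upd_dat, upd_acc, upd_t1, upd_t2, upd_t3, upd_res, upd_out, upd_cc, upd_n, upd_s,
      upd_L, upd_q, upd_tau, upd_K, upd_w, upd_z, upd_zb, upd_d, upd_db, upd_e, upd_v, upd_p,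
      upd_i, upd_j, upd_a, upd_b, upd_B, upd_N, upd_m, upd_h, upd_u1, upd_u2, upd_u3, upd_u4,
      upd_u5, upd_u6, upd_x1, upd_x2, upd_x3, upd_x4, st_arg, st_dat, st_acc, st_t1, st_t2, st_t3,
      st_res, st_out, st_cc, st_n, st_s, st_L, st_q, st_tau, st_K, st_w, st_z, st_zb, st_d, st_db,
      st_e, st_v, st_p, st_i, st_j, st_a, st_b, st_B, st_N, st_m, st_h, st_u1, st_u2, st_u3,
      st_u4, st_u5, st_u6, st_x1, st_x2, st_x3, st_x4] at h
  have h := h.seq (t_copy .tau .x2 .u1 (by decide) rfl rfl (by simp [hu]))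
  simp only [
      upd_arg, upd_dat, upd_acc, upd_t1, upd_t2, upd_t3, upd_res, upd_out, upd_cc, upd_n, upd_s,
      upd_L, upd_q, upd_tau, upd_K, upd_w, upd_z, upd_zb, upd_d, upd_db, upd_e, upd_v, upd_p,
      upd_i, upd_j, upd_a, upd_b, upd_B, upd_N, upd_m, upd_h, upd_u1, upd_u2, upd_u3, upd_u4,
      upd_u5, upd_u6, upd_x1, upd_x2, upd_x3, upd_x4, st_arg, st_dat, st_acc, st_t1, st_t2, st_t3,
      st_res, st_out, st_cc, st_n, st_s, st_L, st_q, st_tau, st_K, st_w, st_z, st_zb, st_d, st_db,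
      st_e, st_v, st_p, st_i, st_j, st_a, st_b, st_B, st_N, st_m, st_h, st_u1, st_u2, st_u3,
      st_u4, st_u5, st_u6, st_x1, st_x2, st_x3, st_x4] at h
  have h := h.seq (t_copy .tau .x2 .u1 (by decide) rfl rfl (by simp [hu]))
  simp only [
      upd_arg, upd_dat, upd_acc, upd_t1, upd_t2, upd_t3, upd_res, upd_out, upd_cc, upd_n, upd_s,
      upd_L, upd_q, upd_tau, upd_K, upd_w, upd_z, upd_zb, upd_d, upd_db, upd_e, upd_v, upd_p,
      upd_i, upd_j, upd_a, upd_b, upd_B, upd_N, upd_m, upd_h, upd_u1, upd_u2, upd_u3, upd_u4,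
      upd_u5, upd_u6, upd_x1, upd_x2, upd_x3, upd_x4, st_arg, st_dat, st_acc, st_t1, st_t2, st_t3,
      st_res, st_out, st_cc, st_n, st_s, st_L, st_q, st_tau, st_K, st_w, st_z, st_zb, st_d, st_db,
      st_e, st_v, st_p, st_i, st_j, st_a, st_b, st_B, st_N, st_m, st_h, st_u1, st_u2, st_u3,
      st_u4, st_u5, st_u6, st_x1, st_x2, st_x3, st_x4] at h
  rw [show s.tau + (s.tau + (s.tau + (s.tau + s.x2))) = 4 * τ by rw [hsτ, hx2]; ring] at h
  have h := h.seq (run_trans Mach C _ n (n - 2 * v) (4 * τ) L M X4 l4 rfl hnn2 hnn (by omega)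
    rfl (by omega) (Nat.sub_le _ _) hsL hL0 hM rfl h4τ harg rfl hacc ht1 ht2 hres hcc
    hz hzb hd hdb hp hu rfl hx1)
  simp only [
      upd_arg, upd_dat, upd_acc, upd_t1, upd_t2, upd_t3, upd_res, upd_out, upd_cc, upd_n, upd_s,
      upd_L, upd_q, upd_tau, upd_K, upd_w, upd_z, upd_zb, upd_d, upd_db, upd_e, upd_v, upd_p,
      upd_i, upd_j, upd_a, upd_b, upd_B, upd_N, upd_m, upd_h, upd_u1, upd_u2, upd_u3, upd_u4,
      upd_u5, upd_u6, upd_x1, upd_x2, upd_x3, upd_x4, st_arg, st_dat, st_acc, st_t1, st_t2, st_t3,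
      st_res, st_out, st_cc, st_n, st_s, st_L, st_q, st_tau, st_K, st_w, st_z, st_zb, st_d, st_db,
      st_e, st_v, st_p, st_i, st_j, st_a, st_b, st_B, st_N, st_m, st_h, st_u1, st_u2, st_u3,
      st_u4, st_u5, st_u6, st_x1, st_x2, st_x3, st_x4] at h
  rw [← h5] at h
  have h := h.seq (t_clear .w rfl)
  simp only [
      upd_arg, upd_dat, upd_acc, upd_t1, upd_t2, upd_t3, upd_res, upd_out, upd_cc, upd_n, upd_s,
      upd_L, upd_q, upd_tau, upd_K, upd_w, upd_z, upd_zb, upd_d, upd_db, upd_e, upd_v, upd_p,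
      upd_i, upd_j, upd_a, upd_b, upd_B, upd_N, upd_m, upd_h, upd_u1, upd_u2, upd_u3, upd_u4,
      upd_u5, upd_u6, upd_x1, upd_x2, upd_x3, upd_x4, st_arg, st_dat, st_acc, st_t1, st_t2, st_t3,
      st_res, st_out, st_cc, st_n, st_s, st_L, st_q, st_tau, st_K, st_w, st_z, st_zb, st_d, st_db,
      st_e, st_v, st_p, st_i, st_j, st_a, st_b, st_B, st_N, st_m, st_h, st_u1, st_u2, st_u3,
      st_u4, st_u5, st_u6, st_x1, st_x2, st_x3, st_x4] at h
  have h := h.seq (t_clear .x2 rfl)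
  simp only [
      upd_arg, upd_dat, upd_acc, upd_t1, upd_t2, upd_t3, upd_res, upd_out, upd_cc, upd_n, upd_s,
      upd_L, upd_q, upd_tau, upd_K, upd_w, upd_z, upd_zb, upd_d, upd_db, upd_e, upd_v, upd_p,
      upd_i, upd_j, upd_a, upd_b, upd_B, upd_N, upd_m, upd_h, upd_u1, upd_u2, upd_u3, upd_u4,
      upd_u5, upd_u6, upd_x1, upd_x2, upd_x3, upd_x4, st_arg, st_dat, st_acc, st_t1, st_t2, st_t3,
      st_res, st_out, st_cc, st_n, st_s, st_L, st_q, st_tau, st_K, st_w, st_z, st_zb, st_d, st_db,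
      st_e, st_v, st_p, st_i, st_j, st_a, st_b, st_B, st_N, st_m, st_h, st_u1, st_u2, st_u3,
      st_u4, st_u5, st_u6, st_x1, st_x2, st_x3, st_x4] at h
  -- the reduction
  have h := h.seq (t_clear .n rfl)
  simp only [
      upd_arg, upd_dat, upd_acc, upd_t1, upd_t2, upd_t3, upd_res, upd_out, upd_cc, upd_n, upd_s,
      upd_L, upd_q, upd_tau, upd_K, upd_w, upd_z, upd_zb, upd_d, upd_db, upd_e, upd_v, upd_p,
      upd_i, upd_j, upd_a, upd_b, upd_B, upd_N, upd_m, upd_h, upd_u1, upd_u2, upd_u3, upd_u4,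
      upd_u5, upd_u6, upd_x1, upd_x2, upd_x3, upd_x4, st_arg, st_dat, st_acc, st_t1, st_t2, st_t3,
      st_res, st_out, st_cc, st_n, st_s, st_L, st_q, st_tau, st_K, st_w, st_z, st_zb, st_d, st_db,
      st_e, st_v, st_p, st_i, st_j, st_a, st_b, st_B, st_N, st_m, st_h, st_u1, st_u2, st_u3,
      st_u4, st_u5, st_u6, st_x1, st_x2, st_x3, st_x4] at h
  have h := h.seq (t_copy .s .n .u1 (by decide) rfl rfl (by simp [hu]))
  simp only [
      upd_arg, upd_dat, upd_acc, upd_t1, upd_t2, upd_t3, upd_res, upd_out, upd_cc, upd_n, upd_s,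
      upd_L, upd_q, upd_tau, upd_K, upd_w, upd_z, upd_zb, upd_d, upd_db, upd_e, upd_v, upd_p,
      upd_i, upd_j, upd_a, upd_b, upd_B, upd_N, upd_m, upd_h, upd_u1, upd_u2, upd_u3, upd_u4,
      upd_u5, upd_u6, upd_x1, upd_x2, upd_x3, upd_x4, st_arg, st_dat, st_acc, st_t1, st_t2, st_t3,
      st_res, st_out, st_cc, st_n, st_s, st_L, st_q, st_tau, st_K, st_w, st_z, st_zb, st_d, st_db,
      st_e, st_v, st_p, st_i, st_j, st_a, st_b, st_B, st_N, st_m, st_h, st_u1, st_u2, st_u3,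
      st_u4, st_u5, st_u6, st_x1, st_x2, st_x3, st_x4] at h
  have h := h.seq (run_cvt _ (M * L) ns X5 (by simp) hs0 (fun k hk => by
    rw [l5 k hk, hn']; ring) rfl hacc ht1 ht2 hres hcc hu)
  simp only [
      upd_arg, upd_dat, upd_acc, upd_t1, upd_t2, upd_t3, upd_res, upd_out, upd_cc, upd_n, upd_s,
      upd_L, upd_q, upd_tau, upd_K, upd_w, upd_z, upd_zb, upd_d, upd_db, upd_e, upd_v, upd_p,
      upd_i, upd_j, upd_a, upd_b, upd_B, upd_N, upd_m, upd_h, upd_u1, upd_u2, upd_u3, upd_u4,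
      upd_u5, upd_u6, upd_x1, upd_x2, upd_x3, upd_x4, st_arg, st_dat, st_acc, st_t1, st_t2, st_t3,
      st_res, st_out, st_cc, st_n, st_s, st_L, st_q, st_tau, st_K, st_w, st_z, st_zb, st_d, st_db,
      st_e, st_v, st_p, st_i, st_j, st_a, st_b, st_B, st_N, st_m, st_h, st_u1, st_u2, st_u3,
      st_u4, st_u5, st_u6, st_x1, st_x2, st_x3, st_x4] at h
  rw [seg_congr (y := fun k => D (swQ (2 ^ τ) k)) (fun k _ hk => hfin k (by omega))] at h
  have h := h.seq (t_clear .n rfl)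
  simp only [
      upd_arg, upd_dat, upd_acc, upd_t1, upd_t2, upd_t3, upd_res, upd_out, upd_cc, upd_n, upd_s,
      upd_L, upd_q, upd_tau, upd_K, upd_w, upd_z, upd_zb, upd_d, upd_db, upd_e, upd_v, upd_p,
      upd_i, upd_j, upd_a, upd_b, upd_B, upd_N, upd_m, upd_h, upd_u1, upd_u2, upd_u3, upd_u4,
      upd_u5, upd_u6, upd_x1, upd_x2, upd_x3, upd_x4, st_arg, st_dat, st_acc, st_t1, st_t2, st_t3,
      st_res, st_out, st_cc, st_n, st_s, st_L, st_q, st_tau, st_K, st_w, st_z, st_zb, st_d, st_db,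
      st_e, st_v, st_p, st_i, st_j, st_a, st_b, st_B, st_N, st_m, st_h, st_u1, st_u2, st_u3,
      st_u4, st_u5, st_u6, st_x1, st_x2, st_x3, st_x4] at h
  have h := h.seq (t_clear .s rfl)
  simp only [
      upd_arg, upd_dat, upd_acc, upd_t1, upd_t2, upd_t3, upd_res, upd_out, upd_cc, upd_n, upd_s,
      upd_L, upd_q, upd_tau, upd_K, upd_w, upd_z, upd_zb, upd_d, upd_db, upd_e, upd_v, upd_p,
      upd_i, upd_j, upd_a, upd_b, upd_B, upd_N, upd_m, upd_h, upd_u1, upd_u2, upd_u3, upd_u4,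
      upd_u5, upd_u6, upd_x1, upd_x2, upd_x3, upd_x4, st_arg, st_dat, st_acc, st_t1, st_t2, st_t3,
      st_res, st_out, st_cc, st_n, st_s, st_L, st_q, st_tau, st_K, st_w, st_z, st_zb, st_d, st_db,
      st_e, st_v, st_p, st_i, st_j, st_a, st_b, st_B, st_N, st_m, st_h, st_u1, st_u2, st_u3,
      st_u4, st_u5, st_u6, st_x1, st_x2, st_x3, st_x4] at h
  refine h.congr ?_ ?_
  · have e : ∀ a b c d e f g, a = s.s → b = s.v → c = s.u2 → d = s.n → e = s.w → f = s.x2 →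
      g = s.q →
      ({s with dat := seg (fun k => D (swQ (2 ^ τ) k)) 0 (M * L), s := a, v := b, u2 := c,
               n := d, w := e, x2 := f, q := g} : St) =
      {s with dat := seg (fun k => D (swQ (2 ^ τ) k)) 0 (M * L)} := by
        rintro _ _ _ _ _ _ _ rfl rfl rfl rfl rfl rfl rfl; rfl
    rw [e _ _ _ _ _ _ _ hs.symm hsv.symm hu2.symm hn.symm hw.symm hx2.symm hsq.symm]
  · clear h
    have hν : nWord n L M = 32 * (M * L * ns) + 16 * (L * ns) := by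
      rw [nWord, hn']; ring
    have hν2 : L * ns ≤ M * L * ns := by
      rw [mul_assoc]; exact Nat.le_mul_of_pos_left _ hM
    exact swap_cost v L ns n (2 ^ τ) M τ C _ (Mach.mulTime (nWord n L M)) (nWord n L M) T s.tau hv hL
      Nat.one_le_two_pow hM hns hn' h4τ hsτ rfl (hT _ (by omega) (by omega)) (by omega)

end Vale.Agent.P338
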