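import Vale.Agent.Lib.P338.Chirp
import Vale.Agent.Lib.P338.Red

/-! The transform: pieces of the program. -/

set_option linter.constructorNameAsVariable false

namespace Vale.Agent.P338

open Function

variable {Ω : (W → List G) → (W → List G) → ℕ → Prop}

/-- Repeat a program. -/
def rpt : ℕ → Cmd W G → Cmd W G
  | 0, _ => .skip
  | k + 1, a => Cmd.seq (rpt k a) a

theorem run_rpt {a : Cmd W G} (Φ : ℕ → W → List G) (k c : ℕ)
    (h : ∀ i < k, Run Ω a (Φ i) (Φ (i + 1)) c) : Run Ω (rpt k a) (Φ 0) (Φ k) (k * c) := by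
  induction k with
  | zero => simpa [rpt] using Run.skip (Ω := Ω) (Φ 0)
  | succ k ih =>
    exact ((ih fun i hi => h i (by omega)).seq (h k (by omega))).mono (by ring_nf; omega)

/-- The words `x (m - 1), …, x 0`. -/
def rseg (x : ℕ → List Bool) : ℕ → List Bool
  | 0 => []
  | m + 1 => x m ++ rseg x m

theorem rseg_length {x : ℕ → List Bool} {m n : ℕ} (h : ∀ k < m, (x k).length = n) :
    (rseg x m).length = m * n := by
  induction m with
  | zero => simp [rseg]
  | succ m ih =>
    rw [rseg, List.length_append, ih (fun k hk => h k (by omega)), h m (by omega)]; ring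

theorem rseg_congr {x y : ℕ → List Bool} {m : ℕ} (h : ∀ k < m, x k = y k) :
    rseg x m = rseg y m := by
  induction m with
  | zero => rfl
  | succ m ih => rw [rseg, rseg, ih (fun k hk => h k (by omega)), h m (by omega)]

/-- Push `c * n` zeros on the argument stack. -/
def zeros (c : ℕ) : Cmd W G := rpt c (pushN (.bit false) .arg .n .u1)

theorem run_zeros (c : ℕ) (s : St) (hu : s.u1 = 0) :
    Run Ω (zeros c) s.st (St.st {s with arg := bw (List.replicate (c * s.n) false) ++ s.arg})
      (c * (5 * s.n + 2)) := by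
  refine (run_rpt (Ω := Ω) (fun i => St.st {s with
    arg := bw (List.replicate (i * s.n) false) ++ s.arg}) c (5 * s.n + 2) ?_).cast ?_ rfl le_rfl
  · intro i _
    have h := w_pushN' (Ω := Ω) (.bit false) .arg .n .u1 (by decide)
      (f := St.st {s with arg := bw (List.replicate (i * s.n) false) ++ s.arg}) rfl rfl
      (by simp [hu])
    simp only [
        upd_arg, upd_dat, upd_acc, upd_t1, upd_t2, upd_t3, upd_res, upd_out, upd_cc, upd_n, upd_s,
        upd_L, upd_q, upd_tau, upd_K, upd_w, upd_z, upd_zb, upd_d, upd_db, upd_e, upd_v, upd_p,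
        upd_i, upd_j, upd_a, upd_b, upd_B, upd_N, upd_m, upd_h, upd_u1, upd_u2, upd_u3, upd_u4,
        upd_u5, upd_u6, upd_x1, upd_x2, upd_x3, upd_x4, st_arg, st_dat, st_acc, st_t1, st_t2,
        st_t3, st_res, st_out, st_cc, st_n, st_s, st_L, st_q, st_tau, st_K, st_w, st_z, st_zb,
        st_d, st_db, st_e, st_v, st_p, st_i, st_j, st_a, st_b, st_B, st_N, st_m, st_h, st_u1,
        st_u2, st_u3, st_u4, st_u5, st_u6, st_x1, st_x2, st_x3, st_x4] at h
    refine h.congr ?_ le_rfl
    congr 1
    simp only [bw, List.map_replicate, ← List.append_assoc, List.replicate_append_replicate]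
    congr 4
    ring
  · simp

/-- Remove `c * n` bits from the result stack. -/
def drops (c : ℕ) : Cmd W G := rpt c (dropN .res .n .u1)

theorem run_drops (c : ℕ) (s : St) (x y : List Bool) (hx : x.length = c * s.n)
    (hr : s.res = x ++ y) (hu : s.u1 = 0) :
    Run Ω (drops c) s.st (St.st {s with res := y}) (c * (5 * s.n + 2)) := by
  refine (run_rpt (Ω := Ω) (fun i => St.st {s with
    res := x.drop (i * s.n) ++ y}) c (5 * s.n + 2) ?_).cast ?_ ?_ le_rfl
  · intro i hi
    have hi' : (i + 1) * s.n ≤ c * s.n := Nat.mul_le_mul_right _ hi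
    rw [Nat.add_mul, one_mul] at hi'
    have h := w_drop (Ω := Ω) .res .n .u1 (by decide) (f := St.st {s with res := x.drop (i * s.n) ++ y})
      ((x.drop (i * s.n)).take s.n) (x.drop ((i + 1) * s.n) ++ y)
      (by simp; omega)
      (by
        simp only [st_res]
        rw [← List.append_assoc, Nat.add_mul, one_mul, ← List.drop_drop, List.take_append_drop])
      rfl (by simp [hu])
    simp only [
        upd_arg, upd_dat, upd_acc, upd_t1, upd_t2, upd_t3, upd_res, upd_out, upd_cc, upd_n, upd_s,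
        upd_L, upd_q, upd_tau, upd_K, upd_w, upd_z, upd_zb, upd_d, upd_db, upd_e, upd_v, upd_p,
        upd_i, upd_j, upd_a, upd_b, upd_B, upd_N, upd_m, upd_h, upd_u1, upd_u2, upd_u3, upd_u4,
        upd_u5, upd_u6, upd_x1, upd_x2, upd_x3, upd_x4, st_arg, st_dat, st_acc, st_t1, st_t2,
        st_t3, st_res, st_out, st_cc, st_n, st_s, st_L, st_q, st_tau, st_K, st_w, st_z, st_zb,
        st_d, st_db, st_e, st_v, st_p, st_i, st_j, st_a, st_b, st_B, st_N, st_m, st_h, st_u1,
        st_u2, st_u3, st_u4, st_u5, st_u6, st_x1, st_x2, st_x3, st_x4] at h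
    exact h
  · simp [← hr]
  · simp [← hx]

/-- The one-hot word `2 ^ z` of length `n`. -/
def onehot (n z : ℕ) : List Bool := List.replicate (n - z - 1) false ++ true :: List.replicate z false

/-- A slot of the chirp table. -/
def slotY (n z : ℕ) : List Bool := List.replicate (3 * n) false ++ onehot n z

theorem onehot_length {n z : ℕ} (h : z < n) : (onehot n z).length = n := by
  simp [onehot]; omega

theorem slotY_length {n z : ℕ} (h : z < n) : (slotY n z).length = 4 * n := by
  simp [slotY, onehot_length h]; omega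

theorem onehot_val (n z : ℕ) : val (onehot n z) = 2 ^ z := by
  rw [onehot, val_append, val_replicate, val_cons, val_replicate]; simp

theorem slotY_val (n z : ℕ) : val (slotY n z) = 2 ^ z := by
  rw [slotY, val_append, val_replicate, onehot_val]; simp

/-- One slot of the chirp table. -/
def tabBody : Cmd W G :=
  Cmd.seq (Cmd.seq (Cmd.seq (Cmd.seq (Cmd.seq (pushN (.bit false) .arg .z .u1) (push (.bit true)
    .arg)) (pushN (.bit false) .arg .zb .u1)) (pop .arg)) (zeros 3)) upd

theorem run_tabBody (s : St) {n : ℕ} (A : List Bool) (ha : s.arg = bw A) (hn : s.n = n)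
    (hz : s.z < n) (hzb : s.zb = n - s.z)
    (hd : s.d ≤ n) (hdb : s.db = n - s.d) (hw : s.w ≤ n) (hx : s.x1 = 0) (hu : s.u1 = 0) :
    Run Ω tabBody s.st (St.st {s with arg := bw (slotY n s.z ++ A),
                                      z := sm n s.z s.d, zb := n - sm n s.z s.d,
                                      d := sm n s.d s.w, db := n - sm n s.d s.w})
      (40 * n + 24) := by
  have h := w_pushN' (Ω := Ω) (.bit false) .arg .z .u1 (by decide) (f := s.st) rfl rfl (by simp [hu])
  simp only [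
      upd_arg, upd_dat, upd_acc, upd_t1, upd_t2, upd_t3, upd_res, upd_out, upd_cc, upd_n, upd_s,
      upd_L, upd_q, upd_tau, upd_K, upd_w, upd_z, upd_zb, upd_d, upd_db, upd_e, upd_v, upd_p,
      upd_i, upd_j, upd_a, upd_b, upd_B, upd_N, upd_m, upd_h, upd_u1, upd_u2, upd_u3, upd_u4,
      upd_u5, upd_u6, upd_x1, upd_x2, upd_x3, upd_x4, st_arg, st_dat, st_acc, st_t1, st_t2, st_t3,
      st_res, st_out, st_cc, st_n, st_s, st_L, st_q, st_tau, st_K, st_w, st_z, st_zb, st_d, st_db,
      st_e, st_v, st_p, st_i, st_j, st_a, st_b, st_B, st_N, st_m, st_h, st_u1, st_u2, st_u3,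
      st_u4, st_u5, st_u6, st_x1, st_x2, st_x3, st_x4] at h
  have h := h.seq (w_push' (.bit true) .arg rfl)
  simp only [
      upd_arg, upd_dat, upd_acc, upd_t1, upd_t2, upd_t3, upd_res, upd_out, upd_cc, upd_n, upd_s,
      upd_L, upd_q, upd_tau, upd_K, upd_w, upd_z, upd_zb, upd_d, upd_db, upd_e, upd_v, upd_p,
      upd_i, upd_j, upd_a, upd_b, upd_B, upd_N, upd_m, upd_h, upd_u1, upd_u2, upd_u3, upd_u4,
      upd_u5, upd_u6, upd_x1, upd_x2, upd_x3, upd_x4, st_arg, st_dat, st_acc, st_t1, st_t2, st_t3,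
      st_res, st_out, st_cc, st_n, st_s, st_L, st_q, st_tau, st_K, st_w, st_z, st_zb, st_d, st_db,
      st_e, st_v, st_p, st_i, st_j, st_a, st_b, st_B, st_N, st_m, st_h, st_u1, st_u2, st_u3,
      st_u4, st_u5, st_u6, st_x1, st_x2, st_x3, st_x4] at h
  have h := h.seq (w_pushN' (.bit false) .arg .zb .u1 (by decide) rfl rfl (by simp [hu]))
  simp only [
      upd_arg, upd_dat, upd_acc, upd_t1, upd_t2, upd_t3, upd_res, upd_out, upd_cc, upd_n, upd_s,
      upd_L, upd_q, upd_tau, upd_K, upd_w, upd_z, upd_zb, upd_d, upd_db, upd_e, upd_v, upd_p,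
      upd_i, upd_j, upd_a, upd_b, upd_B, upd_N, upd_m, upd_h, upd_u1, upd_u2, upd_u3, upd_u4,
      upd_u5, upd_u6, upd_x1, upd_x2, upd_x3, upd_x4, st_arg, st_dat, st_acc, st_t1, st_t2, st_t3,
      st_res, st_out, st_cc, st_n, st_s, st_L, st_q, st_tau, st_K, st_w, st_z, st_zb, st_d, st_db,
      st_e, st_v, st_p, st_i, st_j, st_a, st_b, st_B, st_N, st_m, st_h, st_u1, st_u2, st_u3,
      st_u4, st_u5, st_u6, st_x1, st_x2, st_x3, st_x4] at h
  have h := h.seq (run_pop .arg _)
  simp only [
      upd_arg, upd_dat, upd_acc, upd_t1, upd_t2, upd_t3, upd_res, upd_out, upd_cc, upd_n, upd_s,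
      upd_L, upd_q, upd_tau, upd_K, upd_w, upd_z, upd_zb, upd_d, upd_db, upd_e, upd_v, upd_p,
      upd_i, upd_j, upd_a, upd_b, upd_B, upd_N, upd_m, upd_h, upd_u1, upd_u2, upd_u3, upd_u4,
      upd_u5, upd_u6, upd_x1, upd_x2, upd_x3, upd_x4, st_arg, st_dat, st_acc, st_t1, st_t2, st_t3,
      st_res, st_out, st_cc, st_n, st_s, st_L, st_q, st_tau, st_K, st_w, st_z, st_zb, st_d, st_db,
      st_e, st_v, st_p, st_i, st_j, st_a, st_b, st_B, st_N, st_m, st_h, st_u1, st_u2, st_u3,
      st_u4, st_u5, st_u6, st_x1, st_x2, st_x3, st_x4] at h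
  have h := h.seq (run_zeros 3 _ hu)
  simp only [
      upd_arg, upd_dat, upd_acc, upd_t1, upd_t2, upd_t3, upd_res, upd_out, upd_cc, upd_n, upd_s,
      upd_L, upd_q, upd_tau, upd_K, upd_w, upd_z, upd_zb, upd_d, upd_db, upd_e, upd_v, upd_p,
      upd_i, upd_j, upd_a, upd_b, upd_B, upd_N, upd_m, upd_h, upd_u1, upd_u2, upd_u3, upd_u4,
      upd_u5, upd_u6, upd_x1, upd_x2, upd_x3, upd_x4, st_arg, st_dat, st_acc, st_t1, st_t2, st_t3,
      st_res, st_out, st_cc, st_n, st_s, st_L, st_q, st_tau, st_K, st_w, st_z, st_zb, st_d, st_db,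
      st_e, st_v, st_p, st_i, st_j, st_a, st_b, st_B, st_N, st_m, st_h, st_u1, st_u2, st_u3,
      st_u4, st_u5, st_u6, st_x1, st_x2, st_x3, st_x4] at h
  have h := h.seq (run_upd _ (n := n) hz.le hzb hd hdb hw hx)
  simp only [
      upd_arg, upd_dat, upd_acc, upd_t1, upd_t2, upd_t3, upd_res, upd_out, upd_cc, upd_n, upd_s,
      upd_L, upd_q, upd_tau, upd_K, upd_w, upd_z, upd_zb, upd_d, upd_db, upd_e, upd_v, upd_p,
      upd_i, upd_j, upd_a, upd_b, upd_B, upd_N, upd_m, upd_h, upd_u1, upd_u2, upd_u3, upd_u4,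
      upd_u5, upd_u6, upd_x1, upd_x2, upd_x3, upd_x4, st_arg, st_dat, st_acc, st_t1, st_t2, st_t3,
      st_res, st_out, st_cc, st_n, st_s, st_L, st_q, st_tau, st_K, st_w, st_z, st_zb, st_d, st_db,
      st_e, st_v, st_p, st_i, st_j, st_a, st_b, st_B, st_N, st_m, st_h, st_u1, st_u2, st_u3,
      st_u4, st_u5, st_u6, st_x1, st_x2, st_x3, st_x4] at h
  refine h.congr ?_ ?_
  · congr 1
    obtain ⟨k, hk⟩ : ∃ k, s.zb = k + 1 := ⟨s.zb - 1, by omega⟩
    have hk' : n - s.z - 1 = k := by omega
    simp [hk, List.replicate_succ, slotY, onehot, hk', ha, hn]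
  · simp only [hn]; omega

/-- The loop that pads the second factor. -/
def pad : Cmd W G :=
  Cmd.seq (.loop (ne .acc) (Cmd.seq (mv .acc .dat) (rpt 16 (push (.bit false) .arg)))) (moveAll
    .dat .acc)

theorem run_pad (s : St) (hd : s.dat = []) :
    Run Ω pad s.st
      (St.st {s with arg := bw (List.replicate (16 * s.acc.length) false) ++ s.arg})
      (20 * s.acc.length + 2) := by
  have h := Run.loop_iter (Ω := Ω) (t := ne .acc)
    (a := Cmd.seq (mv .acc .dat) (rpt 16 (push (.bit false) .arg)))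
    (fun i => St.st {s with acc := s.acc.drop i, dat := (s.acc.take i).reverse,
                            arg := bw (List.replicate (16 * i) false) ++ s.arg})
    s.acc.length 17
    (fun i hi => by
      simp [ne, tops]; exact hi)
    (by simp [ne, tops])
    (fun i hi => by
      have A := w_mv (Ω := Ω) .acc .dat (by decide) (f := St.st {s with
          acc := s.acc.drop i, dat := (s.acc.take i).reverse,
          arg := bw (List.replicate (16 * i) false) ++ s.arg}) s.acc[i] (s.acc.drop (i + 1))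
          (by simp only [st_acc]; rw [← List.drop_eq_getElem_cons hi]) rfl
      simp only [
          upd_arg, upd_dat, upd_acc, upd_t1, upd_t2, upd_t3, upd_res, upd_out, upd_cc, upd_n,
          upd_s, upd_L, upd_q, upd_tau, upd_K, upd_w, upd_z, upd_zb, upd_d, upd_db, upd_e, upd_v,
          upd_p, upd_i, upd_j, upd_a, upd_b, upd_B, upd_N, upd_m, upd_h, upd_u1, upd_u2, upd_u3,
          upd_u4, upd_u5, upd_u6, upd_x1, upd_x2, upd_x3, upd_x4, st_arg, st_dat, st_acc, st_t1,
          st_t2, st_t3, st_res, st_out, st_cc, st_n, st_s, st_L, st_q, st_tau, st_K, st_w, st_z,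
          st_zb, st_d, st_db, st_e, st_v, st_p, st_i, st_j, st_a, st_b, st_B, st_N, st_m, st_h,
          st_u1, st_u2, st_u3, st_u4, st_u5, st_u6, st_x1, st_x2, st_x3, st_x4] at A
      have A := A.seq (run_rpt (fun j => St.st {s with
          acc := s.acc.drop (i + 1), dat := s.acc[i] :: (s.acc.take i).reverse,
          arg := List.replicate j (.bit false) ++
            (bw (List.replicate (16 * i) false) ++ s.arg)}) 16 1 (fun j _ => by
          have B := w_push' (Ω := Ω) (.bit false) .arg (f := St.st {s with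
            acc := s.acc.drop (i + 1), dat := s.acc[i] :: (s.acc.take i).reverse,
            arg := List.replicate j (.bit false) ++
              (bw (List.replicate (16 * i) false) ++ s.arg)}) rfl
          simp only [
              upd_arg, upd_dat, upd_acc, upd_t1, upd_t2, upd_t3, upd_res, upd_out, upd_cc, upd_n,
              upd_s, upd_L, upd_q, upd_tau, upd_K, upd_w, upd_z, upd_zb, upd_d, upd_db, upd_e,
              upd_v, upd_p, upd_i, upd_j, upd_a, upd_b, upd_B, upd_N, upd_m, upd_h, upd_u1,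
              upd_u2, upd_u3, upd_u4, upd_u5, upd_u6, upd_x1, upd_x2, upd_x3, upd_x4, st_arg,
              st_dat, st_acc, st_t1, st_t2, st_t3, st_res, st_out, st_cc, st_n, st_s, st_L, st_q,
              st_tau, st_K, st_w, st_z, st_zb, st_d, st_db, st_e, st_v, st_p, st_i, st_j, st_a,
              st_b, st_B, st_N, st_m, st_h, st_u1, st_u2, st_u3, st_u4, st_u5, st_u6, st_x1,
              st_x2, st_x3, st_x4] at B
          refine B.congr ?_ le_rfl
          congr 1))
      refine A.congr ?_ (by omega)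
      congr 1
      have h2 : (s.acc.take (i + 1)).reverse = s.acc[i] :: (s.acc.take i).reverse := by
        rw [List.take_add_one, List.reverse_append]; simp [hi]
      rw [show 16 * (i + 1) = 16 + 16 * i by ring]
      simp only [h2, bw, List.map_replicate, ← List.append_assoc,
        List.replicate_append_replicate])
  have h := h.seq (w_moveAll .dat .acc (by decide) rfl rfl)
  simp only [
      upd_arg, upd_dat, upd_acc, upd_t1, upd_t2, upd_t3, upd_res, upd_out, upd_cc, upd_n, upd_s,
      upd_L, upd_q, upd_tau, upd_K, upd_w, upd_z, upd_zb, upd_d, upd_db, upd_e, upd_v, upd_p,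
      upd_i, upd_j, upd_a, upd_b, upd_B, upd_N, upd_m, upd_h, upd_u1, upd_u2, upd_u3, upd_u4,
      upd_u5, upd_u6, upd_x1, upd_x2, upd_x3, upd_x4, st_arg, st_dat, st_acc, st_t1, st_t2, st_t3,
      st_res, st_out, st_cc, st_n, st_s, st_L, st_q, st_tau, st_K, st_w, st_z, st_zb, st_d, st_db,
      st_e, st_v, st_p, st_i, st_j, st_a, st_b, st_B, st_N, st_m, st_h, st_u1, st_u2, st_u3,
      st_u4, st_u5, st_u6, st_x1, st_x2, st_x3, st_x4] at h
  refine h.cast ?_ ?_ ?_
  · congr 1
    cases s; simp_all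
  · congr 1
    cases s; simp_all
  · simp; omega

end Vale.Agent.P338
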