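import Vale.Agent.Lib.P338.Trans

/-! The transform: table, first factor, extraction. -/

set_option linter.constructorNameAsVariable false

namespace Vale.Agent.P338

open Function

variable {Ω : (W → List G) → (W → List G) → ℕ → Prop}

/-- The chirp table. -/
def table : Cmd W G := Cmd.seq (forT .L .u2 tabBody) (forT .L .u2 tabBody)

theorem zdq_succ (n w z₀ d₀ k : ℕ) : zdq n w z₀ d₀ (k + 1) =
    (sm n (zdq n w z₀ d₀ k).1 (zdq n w z₀ d₀ k).2, sm n (zdq n w z₀ d₀ k).2 w) := rfl

theorem rseg_succ (x : ℕ → List Bool) (m : ℕ) : rseg x (m + 1) = x m ++ rseg x m := rfl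

theorem sm_lt {n a b : ℕ} (ha : a < n) : sm n a b < n := by
  unfold sm; split_ifs <;> omega

theorem zdq_lt {n w z₀ d₀ : ℕ} (hz : z₀ < n) (k : ℕ) : (zdq n w z₀ d₀ k).1 < n := by
  induction k with
  | zero => exact hz
  | succ k ih => exact sm_lt ih

theorem run_table (s : St) (n L z₀ d₀ : ℕ) (A : List Bool) (hn : s.n = n) (hL : s.L = L)
    (hz : z₀ < n) (hd : d₀ ≤ n) (hw : s.w ≤ n) (hu : s.u1 = 0) (hu2 : s.u2 = 0) (hx1 : s.x1 = 0) :
    Run Ω table (St.st {s with z := z₀, zb := n - z₀, d := d₀, db := n - d₀, arg := bw A})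
      (St.st {s with
                z := (zdq n s.w z₀ d₀ (2 * L)).1, zb := n - (zdq n s.w z₀ d₀ (2 * L)).1,
                d := (zdq n s.w z₀ d₀ (2 * L)).2, db := n - (zdq n s.w z₀ d₀ (2 * L)).2,
                arg := bw (rseg (fun p => slotY n (zdq n s.w z₀ d₀ p).1) (2 * L) ++ A)})
      (2 * (L * (40 * n + 28) + 2)) := by
  have key : ∀ j, Run Ω (forT .L .u2 tabBody)
      (St.st {s with
                z := (zdq n s.w z₀ d₀ j).1, zb := n - (zdq n s.w z₀ d₀ j).1,
                d := (zdq n s.w z₀ d₀ j).2, db := n - (zdq n s.w z₀ d₀ j).2,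
                arg := bw (rseg (fun p => slotY n (zdq n s.w z₀ d₀ p).1) j ++ A)})
      (St.st {s with
                z := (zdq n s.w z₀ d₀ (j + L)).1, zb := n - (zdq n s.w z₀ d₀ (j + L)).1,
                d := (zdq n s.w z₀ d₀ (j + L)).2, db := n - (zdq n s.w z₀ d₀ (j + L)).2,
                arg := bw (rseg (fun p => slotY n (zdq n s.w z₀ d₀ p).1) (j + L) ++ A)})
      (L * (40 * n + 28) + 2) := by
    intro j
    have h := w_for (Ω := Ω) .L .u2 (by decide) (body := tabBody)
      (fun i => {s with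
                z := (zdq n s.w z₀ d₀ (j + i)).1, zb := n - (zdq n s.w z₀ d₀ (j + i)).1,
                d := (zdq n s.w z₀ d₀ (j + i)).2, db := n - (zdq n s.w z₀ d₀ (j + i)).2,
                arg := bw (rseg (fun p => slotY n (zdq n s.w z₀ d₀ p).1) (j + i) ++ A)})
      L (40 * n + 24) (fun i _ a b => by
        obtain ⟨h1, h2⟩ := zdq_le (n := n) (w := s.w) (z₀ := z₀) (d₀ := d₀) hw hz.le hd (j + i)
        have h3 := zdq_lt (n := n) (w := s.w) (z₀ := z₀) (d₀ := d₀) hz (j + i)
        have B := run_tabBody (Ω := Ω) {s with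
                z := (zdq n s.w z₀ d₀ (j + i)).1, zb := n - (zdq n s.w z₀ d₀ (j + i)).1,
                d := (zdq n s.w z₀ d₀ (j + i)).2, db := n - (zdq n s.w z₀ d₀ (j + i)).2,
                arg := bw (rseg (fun p => slotY n (zdq n s.w z₀ d₀ p).1) (j + i) ++ A),
                L := a, u2 := b} (n := n) _ rfl hn h3 rfl h2 rfl hw hx1 hu
        simp only [
            upd_arg, upd_dat, upd_acc, upd_t1, upd_t2, upd_t3, upd_res, upd_out, upd_cc, upd_n,
            upd_s, upd_L, upd_q, upd_tau, upd_K, upd_w, upd_z, upd_zb, upd_d, upd_db, upd_e,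
            upd_v, upd_p, upd_i, upd_j, upd_a, upd_b, upd_B, upd_N, upd_m, upd_h, upd_u1, upd_u2,
            upd_u3, upd_u4, upd_u5, upd_u6, upd_x1, upd_x2, upd_x3, upd_x4, st_arg, st_dat,
            st_acc, st_t1, st_t2, st_t3, st_res, st_out, st_cc, st_n, st_s, st_L, st_q, st_tau,
            st_K, st_w, st_z, st_zb, st_d, st_db, st_e, st_v, st_p, st_i, st_j, st_a, st_b, st_B,
            st_N, st_m, st_h, st_u1, st_u2, st_u3, st_u4, st_u5, st_u6, st_x1, st_x2, st_x3,
            st_x4] at B
        simp only [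
            upd_arg, upd_dat, upd_acc, upd_t1, upd_t2, upd_t3, upd_res, upd_out, upd_cc, upd_n,
            upd_s, upd_L, upd_q, upd_tau, upd_K, upd_w, upd_z, upd_zb, upd_d, upd_db, upd_e,
            upd_v, upd_p, upd_i, upd_j, upd_a, upd_b, upd_B, upd_N, upd_m, upd_h, upd_u1, upd_u2,
            upd_u3, upd_u4, upd_u5, upd_u6, upd_x1, upd_x2, upd_x3, upd_x4, st_arg, st_dat,
            st_acc, st_t1, st_t2, st_t3, st_res, st_out, st_cc, st_n, st_s, st_L, st_q, st_tau,
            st_K, st_w, st_z, st_zb, st_d, st_db, st_e, st_v, st_p, st_i, st_j, st_a, st_b, st_B,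
            st_N, st_m, st_h, st_u1, st_u2, st_u3, st_u4, st_u5, st_u6, st_x1, st_x2, st_x3,
            st_x4]
        refine B.congr ?_ le_rfl
        simp only [← add_assoc, rseg_succ, zdq_succ, List.append_assoc])
    simp only [
        upd_arg, upd_dat, upd_acc, upd_t1, upd_t2, upd_t3, upd_res, upd_out, upd_cc, upd_n, upd_s,
        upd_L, upd_q, upd_tau, upd_K, upd_w, upd_z, upd_zb, upd_d, upd_db, upd_e, upd_v, upd_p,
        upd_i, upd_j, upd_a, upd_b, upd_B, upd_N, upd_m, upd_h, upd_u1, upd_u2, upd_u3, upd_u4,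
        upd_u5, upd_u6, upd_x1, upd_x2, upd_x3, upd_x4, st_arg, st_dat, st_acc, st_t1, st_t2,
        st_t3, st_res, st_out, st_cc, st_n, st_s, st_L, st_q, st_tau, st_K, st_w, st_z, st_zb,
        st_d, st_db, st_e, st_v, st_p, st_i, st_j, st_a, st_b, st_B, st_N, st_m, st_h, st_u1,
        st_u2, st_u3, st_u4, st_u5, st_u6, st_x1, st_x2, st_x3, st_x4] at h
    simp only [add_zero] at h
    refine h.cast ?_ ?_ le_rfl
    · congr 1; cases s; simp_all
    · congr 1; cases s; simp_all
  refine ((key 0).seq (key (0 + L))).cast ?_ ?_ (by omega)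
  · simp [zdq, rseg]
  · rw [show 0 + L + L = 2 * L by ring]

/-- The slots of the first factor. -/
def xs (n L M : ℕ) (x : ℕ → List Bool) (p : ℕ) : List Bool :=
  if p / (4 * L) < M ∧ p % (4 * L) < L then
    List.replicate (3 * n) false ++ x ((M - 1 - p / (4 * L)) * L + (L - 1 - p % (4 * L)))
  else List.replicate (4 * n) false

theorem xs_data {n L M : ℕ} (x : ℕ → List Bool) {t i : ℕ} (ht : t < M) (hi : i < L) :
    xs n L M x (4 * L * t + i) =
      List.replicate (3 * n) false ++ x ((M - 1 - t) * L + (L - 1 - i)) := by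
  have h1 : (4 * L * t + i) / (4 * L) = t := by
    rw [Nat.mul_add_div (by omega), Nat.div_eq_of_lt (by omega), add_zero]
  have h2 : (4 * L * t + i) % (4 * L) = i := by
    rw [Nat.mul_add_mod, Nat.mod_eq_of_lt (by omega)]
  rw [xs, h1, h2, if_pos ⟨ht, hi⟩]

theorem xs_pad {n L M : ℕ} (x : ℕ → List Bool) {t i : ℕ} (hi : L ≤ i) (hi' : i < 4 * L) :
    xs n L M x (4 * L * t + i) = List.replicate (4 * n) false := by
  have h2 : (4 * L * t + i) % (4 * L) = i := by
    rw [Nat.mul_add_mod, Nat.mod_eq_of_lt (by omega)]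
  rw [xs, h2, if_neg (by omega)]

theorem xs_top {n L M : ℕ} (x : ℕ → List Bool) {p : ℕ} (hp : 4 * L * M ≤ p) :
    xs n L M x p = List.replicate (4 * n) false := by
  rcases Nat.eq_zero_or_pos L with h | h
  · subst h; simp [xs]
  · have : M ≤ p / (4 * L) := by
      rw [Nat.le_div_iff_mul_le (by omega)]; linarith [mul_comm (4 * L) M]
    rw [xs, if_neg (by omega)]

theorem xs_length {n L M : ℕ} {x : ℕ → List Bool} (hx : ∀ k < M * L, (x k).length = n) (p : ℕ) :
    (xs n L M x p).length = 4 * n := by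
  unfold xs
  split_ifs with h
  · obtain ⟨h1, h2⟩ := h
    rw [List.length_append, hx, List.length_replicate]; · ring
    generalize p / (4 * L) = a at *
    generalize p % (4 * L) = b at *
    have : (M - 1 - a) + 1 ≤ M := by omega
    calc _ < (M - 1 - a) * L + L := by omega
      _ = (M - 1 - a + 1) * L := by ring
      _ ≤ M * L := Nat.mul_le_mul_right _ this
  · simp

/-- One group of the first factor. -/
def xBody : Cmd W G :=
  Cmd.seq (Cmd.seq (forT .L .u2 (Cmd.seq (takeN .acc .arg .n .u1) (zeros 3))) (forT .L .u2 (zeros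
    12))) (push .tick .p)

theorem run_xBody (s : St) (n L M t : ℕ) (x : ℕ → List Bool) (A₀ : List G)
    (hx : ∀ k < M * L, (x k).length = n) (ht : t < M) (hn : s.n = n) (hL : s.L = L)
    (hp : s.p = t) (hu : s.u1 = 0) (hu2 : s.u2 = 0)
    (hacc : s.acc = (seg x 0 ((M - t) * L)).reverse)
    (harg : s.arg = bw (rseg (xs n L M x) (4 * L * t)) ++ A₀) :
    Run Ω xBody s.st (St.st {s with
        acc := (seg x 0 ((M - (t + 1)) * L)).reverse,
        arg := bw (rseg (xs n L M x) (4 * L * (t + 1))) ++ A₀,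
        p := t + 1}) (L * (80 * n + 40) + 5) := by
  obtain ⟨g, hg⟩ : ∃ g, M = t + 1 + g := ⟨M - (t + 1), by omega⟩
  have e1 : (M - t) * L = g * L + L := by
    rw [show M - t = g + 1 by omega]; ring
  have e2 : (M - (t + 1)) * L = g * L := by rw [show M - (t + 1) = g by omega]
  have h1 := w_for (Ω := Ω) .L .u2 (by decide) (body := Cmd.seq (takeN .acc .arg .n .u1) (zeros 3))
      (fun i => {s with acc := (seg x 0 (g * L + (L - i))).reverse,
                        arg := bw (rseg (xs n L M x) (4 * L * t + i)) ++ A₀})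
      L (20 * n + 8) (fun i hi a b => by
        have hlt : g * L + (L - (i + 1)) < M * L := by
          have : g * L + L ≤ M * L := by
            calc g * L + L = (g + 1) * L := by ring
              _ ≤ M * L := Nat.mul_le_mul_right _ (by omega)
          omega
        have B := w_take' (Ω := Ω) .acc .arg .n .u1 (by decide) (k := n) (f := St.st {s with
          acc := (seg x 0 (g * L + (L - i))).reverse,
          arg := bw (rseg (xs n L M x) (4 * L * t + i)) ++ A₀, L := a, u2 := b})
          (x (g * L + (L - (i + 1)))).reverse (seg x 0 (g * L + (L - (i + 1)))).reverse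
          (by rw [List.length_reverse]; exact hx _ hlt)
          (by
            rw [st_acc, ← List.reverse_append, show g * L + (L - i) = g * L + (L - (i + 1)) + 1 by
              omega, seg_succ', zero_add]) rfl
          (by simp [hn]) (by simp [hu])
        simp only [
            upd_arg, upd_dat, upd_acc, upd_t1, upd_t2, upd_t3, upd_res, upd_out, upd_cc, upd_n,
            upd_s, upd_L, upd_q, upd_tau, upd_K, upd_w, upd_z, upd_zb, upd_d, upd_db, upd_e,
            upd_v, upd_p, upd_i, upd_j, upd_a, upd_b, upd_B, upd_N, upd_m, upd_h, upd_u1, upd_u2,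
            upd_u3, upd_u4, upd_u5, upd_u6, upd_x1, upd_x2, upd_x3, upd_x4, st_arg, st_dat,
            st_acc, st_t1, st_t2, st_t3, st_res, st_out, st_cc, st_n, st_s, st_L, st_q, st_tau,
            st_K, st_w, st_z, st_zb, st_d, st_db, st_e, st_v, st_p, st_i, st_j, st_a, st_b, st_B,
            st_N, st_m, st_h, st_u1, st_u2, st_u3, st_u4, st_u5, st_u6, st_x1, st_x2, st_x3,
            st_x4] at B
        have B := B.seq (run_zeros 3 _ hu)
        simp only [
            upd_arg, upd_dat, upd_acc, upd_t1, upd_t2, upd_t3, upd_res, upd_out, upd_cc, upd_n,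
            upd_s, upd_L, upd_q, upd_tau, upd_K, upd_w, upd_z, upd_zb, upd_d, upd_db, upd_e,
            upd_v, upd_p, upd_i, upd_j, upd_a, upd_b, upd_B, upd_N, upd_m, upd_h, upd_u1, upd_u2,
            upd_u3, upd_u4, upd_u5, upd_u6, upd_x1, upd_x2, upd_x3, upd_x4, st_arg, st_dat,
            st_acc, st_t1, st_t2, st_t3, st_res, st_out, st_cc, st_n, st_s, st_L, st_q, st_tau,
            st_K, st_w, st_z, st_zb, st_d, st_db, st_e, st_v, st_p, st_i, st_j, st_a, st_b, st_B,
            st_N, st_m, st_h, st_u1, st_u2, st_u3, st_u4, st_u5, st_u6, st_x1, st_x2, st_x3,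
            st_x4] at B
        simp only [
            upd_arg, upd_dat, upd_acc, upd_t1, upd_t2, upd_t3, upd_res, upd_out, upd_cc, upd_n,
            upd_s, upd_L, upd_q, upd_tau, upd_K, upd_w, upd_z, upd_zb, upd_d, upd_db, upd_e,
            upd_v, upd_p, upd_i, upd_j, upd_a, upd_b, upd_B, upd_N, upd_m, upd_h, upd_u1, upd_u2,
            upd_u3, upd_u4, upd_u5, upd_u6, upd_x1, upd_x2, upd_x3, upd_x4, st_arg, st_dat,
            st_acc, st_t1, st_t2, st_t3, st_res, st_out, st_cc, st_n, st_s, st_L, st_q, st_tau,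
            st_K, st_w, st_z, st_zb, st_d, st_db, st_e, st_v, st_p, st_i, st_j, st_a, st_b, st_B,
            st_N, st_m, st_h, st_u1, st_u2, st_u3, st_u4, st_u5, st_u6, st_x1, st_x2, st_x3,
            st_x4]
        refine B.congr ?_ ?_
        · congr 1
          rw [← add_assoc (4 * L * t), rseg, xs_data x ht hi, List.reverse_reverse]
          rw [show (M - 1 - t) * L + (L - 1 - i) = g * L + (L - (i + 1)) by
            rw [show M - 1 - t = g by omega]; omega]
          simp [hn]
        · simp only [hn]; omega)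
  simp only [
      upd_arg, upd_dat, upd_acc, upd_t1, upd_t2, upd_t3, upd_res, upd_out, upd_cc, upd_n, upd_s,
      upd_L, upd_q, upd_tau, upd_K, upd_w, upd_z, upd_zb, upd_d, upd_db, upd_e, upd_v, upd_p,
      upd_i, upd_j, upd_a, upd_b, upd_B, upd_N, upd_m, upd_h, upd_u1, upd_u2, upd_u3, upd_u4,
      upd_u5, upd_u6, upd_x1, upd_x2, upd_x3, upd_x4, st_arg, st_dat, st_acc, st_t1, st_t2, st_t3,
      st_res, st_out, st_cc, st_n, st_s, st_L, st_q, st_tau, st_K, st_w, st_z, st_zb, st_d, st_db,
      st_e, st_v, st_p, st_i, st_j, st_a, st_b, st_B, st_N, st_m, st_h, st_u1, st_u2, st_u3,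
      st_u4, st_u5, st_u6, st_x1, st_x2, st_x3, st_x4] at h1
  have h2 := w_for (Ω := Ω) .L .u2 (by decide) (body := zeros 12)
      (fun i => {s with acc := (seg x 0 (g * L)).reverse,
                        arg := bw (rseg (xs n L M x) (4 * L * t + (L + 3 * i))) ++ A₀})
      L (60 * n + 24) (fun i hi a b => by
        have B := run_zeros (Ω := Ω) 12 {s with
                        acc := (seg x 0 (g * L)).reverse,
                        arg := bw (rseg (xs n L M x) (4 * L * t + (L + 3 * i))) ++ A₀,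
                        L := a, u2 := b} hu
        simp only [
            upd_arg, upd_dat, upd_acc, upd_t1, upd_t2, upd_t3, upd_res, upd_out, upd_cc, upd_n,
            upd_s, upd_L, upd_q, upd_tau, upd_K, upd_w, upd_z, upd_zb, upd_d, upd_db, upd_e,
            upd_v, upd_p, upd_i, upd_j, upd_a, upd_b, upd_B, upd_N, upd_m, upd_h, upd_u1, upd_u2,
            upd_u3, upd_u4, upd_u5, upd_u6, upd_x1, upd_x2, upd_x3, upd_x4, st_arg, st_dat,
            st_acc, st_t1, st_t2, st_t3, st_res, st_out, st_cc, st_n, st_s, st_L, st_q, st_tau,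
            st_K, st_w, st_z, st_zb, st_d, st_db, st_e, st_v, st_p, st_i, st_j, st_a, st_b, st_B,
            st_N, st_m, st_h, st_u1, st_u2, st_u3, st_u4, st_u5, st_u6, st_x1, st_x2, st_x3,
            st_x4]
        refine B.congr ?_ ?_
        · congr 1
          have q0 : xs n L M x (4 * L * t + (L + 3 * i)) = _ := xs_pad x (by omega) (by omega)
          have q1 : xs n L M x (4 * L * t + (L + 3 * i) + 1) =
              List.replicate (4 * n) false := by
            rw [add_assoc]; exact xs_pad x (by omega) (by omega)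
          have q2 : xs n L M x (4 * L * t + (L + 3 * i) + 1 + 1) =
              List.replicate (4 * n) false := by
            rw [add_assoc, add_assoc]; exact xs_pad x (by omega) (by omega)
          rw [show 4 * L * t + (L + 3 * (i + 1)) = 4 * L * t + (L + 3 * i) + 1 + 1 + 1 by ring,
            rseg_succ, rseg_succ, rseg_succ, q0, q1, q2]
          simp only [← List.append_assoc, List.replicate_append_replicate, hn]
          simp only [bw, List.map_append, List.append_assoc]
          congr 4
          ring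
        · simp only [hn]; omega)
  simp only [
      upd_arg, upd_dat, upd_acc, upd_t1, upd_t2, upd_t3, upd_res, upd_out, upd_cc, upd_n, upd_s,
      upd_L, upd_q, upd_tau, upd_K, upd_w, upd_z, upd_zb, upd_d, upd_db, upd_e, upd_v, upd_p,
      upd_i, upd_j, upd_a, upd_b, upd_B, upd_N, upd_m, upd_h, upd_u1, upd_u2, upd_u3, upd_u4,
      upd_u5, upd_u6, upd_x1, upd_x2, upd_x3, upd_x4, st_arg, st_dat, st_acc, st_t1, st_t2, st_t3,
      st_res, st_out, st_cc, st_n, st_s, st_L, st_q, st_tau, st_K, st_w, st_z, st_zb, st_d, st_db,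
      st_e, st_v, st_p, st_i, st_j, st_a, st_b, st_B, st_N, st_m, st_h, st_u1, st_u2, st_u3,
      st_u4, st_u5, st_u6, st_x1, st_x2, st_x3, st_x4] at h2
  have h3 := t_push (Ω := Ω) .p (f := St.st {s with
        acc := (seg x 0 (g * L)).reverse,
        arg := bw (rseg (xs n L M x) (4 * L * t + (L + 3 * L))) ++ A₀}) rfl
  simp only [
      upd_arg, upd_dat, upd_acc, upd_t1, upd_t2, upd_t3, upd_res, upd_out, upd_cc, upd_n, upd_s,
      upd_L, upd_q, upd_tau, upd_K, upd_w, upd_z, upd_zb, upd_d, upd_db, upd_e, upd_v, upd_p,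
      upd_i, upd_j, upd_a, upd_b, upd_B, upd_N, upd_m, upd_h, upd_u1, upd_u2, upd_u3, upd_u4,
      upd_u5, upd_u6, upd_x1, upd_x2, upd_x3, upd_x4, st_arg, st_dat, st_acc, st_t1, st_t2, st_t3,
      st_res, st_out, st_cc, st_n, st_s, st_L, st_q, st_tau, st_K, st_w, st_z, st_zb, st_d, st_db,
      st_e, st_v, st_p, st_i, st_j, st_a, st_b, st_B, st_N, st_m, st_h, st_u1, st_u2, st_u3,
      st_u4, st_u5, st_u6, st_x1, st_x2, st_x3, st_x4] at h3
  refine (((h1.cast (f' := s.st) ?_ rfl le_rfl).seq (h2.cast ?_ rfl le_rfl)).seq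
    (h3.cast ?_ ?_ le_rfl)).congr rfl ?_
  · congr 1
    cases s
    simp_all
  · congr 1
    simp [hL, hu2]
  · congr 1
    simp [hL, hu2]
  · congr 1
    simp only [e2, hp]
    congr 4
    ring
  · ring_nf; omega

/-- The first factor. -/
def xLoop : Cmd W G := .loop (ne .acc) xBody

theorem run_xLoop (s : St) (n L M : ℕ) (x : ℕ → List Bool) (A₀ : List G)
    (hx : ∀ k < M * L, (x k).length = n) (hn : s.n = n) (hL : s.L = L) (hn0 : 0 < n) (hL0 : 0 < L)
    (hu : s.u1 = 0) (hu2 : s.u2 = 0) :
    Run Ω xLoop (St.st {s with acc := (seg x 0 (M * L)).reverse, arg := A₀, p := 0})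
      (St.st {s with acc := [], arg := bw (rseg (xs n L M x) (4 * L * M)) ++ A₀, p := M})
      (M * (L * (80 * n + 40) + 6) + 1) := by
  have h := Run.loop_iter (Ω := Ω) (t := ne .acc) (a := xBody)
    (fun t => St.st {s with
      acc := (seg x 0 ((M - t) * L)).reverse,
      arg := bw (rseg (xs n L M x) (4 * L * t)) ++ A₀,
      p := t})
    M (L * (80 * n + 40) + 5)
    (fun t ht => by
      have h1 : 0 < (M - t) * L := Nat.mul_pos (by omega) hL0
      have h2 : seg x 0 ((M - t) * L) ≠ [] := by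
        refine seg_ne_nil h1 ?_
        intro h3
        have := hx 0 (Nat.mul_pos (by omega) hL0)
        rw [h3] at this
        simp at this
        omega
      obtain ⟨a, l, hl⟩ := List.exists_cons_of_ne_nil (List.reverse_ne_nil_iff.2 h2)
      simp only [ne, tops, st_acc, hl]
      rfl)
    (by simp [ne, tops])
    (fun t ht => run_xBody _ n L M t x A₀ hx ht hn hL rfl hu hu2 rfl rfl)
  refine h.cast ?_ ?_ le_rfl
  · simp [rseg]
  · simp

theorem seg_drop (R : ℕ → List Bool) {j k J : ℕ} (h : j + k ≤ J) :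
    seg R j (J - j) = seg R j k ++ seg R (j + k) (J - (j + k)) := by
  rw [← seg_add]; congr 1; omega

/-- Which slot of the product contains the entry `e`. -/
def slotIx (L M e : ℕ) : ℕ := 4 * L * ((M * L - 1 - e) / L) + L + (M * L - 1 - e) % L

theorem slotIx_eq {L M t i : ℕ} (ht : t < M) (hi : i < L) :
    slotIx L M (M * L - (t * L + i + 1)) = 4 * L * t + L + i := by
  have h1 : t * L + i + 1 ≤ M * L := by
    calc t * L + i + 1 ≤ t * L + L := by omega
      _ = (t + 1) * L := by ring
      _ ≤ M * L := Nat.mul_le_mul_right _ ht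
  have h2 : M * L - 1 - (M * L - (t * L + i + 1)) = L * t + i := by
    rw [mul_comm L t]; omega
  rw [slotIx, h2, Nat.mul_add_div (by omega), Nat.div_eq_of_lt hi, Nat.mul_add_mod,
    Nat.mod_eq_of_lt hi, add_zero]

/-- Extraction of one group. -/
def exBody : Cmd W G :=
  Cmd.seq (Cmd.seq (Cmd.seq (pop .p) (forT .L .u2 (drops 4))) (forT .L .u2 red)) (forT .L .u2
    (drops 8))

theorem run_exBody (s : St) (n L M J t : ℕ) (R : ℕ → List Bool)
    (hR : ∀ k < J, (R k).length = 4 * n) (ht : t < M) (hJ : 4 * L * M ≤ J)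
    (hn : s.n = n) (hL : s.L = L)
    (hp : s.p = M - t) (hu : s.u1 = 0) (hu2 : s.u2 = 0) (ht1 : s.t1 = []) (ht2 : s.t2 = [])
    (hcc : s.cc = [])
    (hres : s.res = seg R (4 * L * t) (J - 4 * L * t))
    (hdat : s.dat = seg (fun e => (redL n (R (slotIx L M e))).reverse) (M * L - t * L) (t * L)) :
    Run Ω exBody s.st (St.st {s with
        res := seg R (4 * L * (t + 1)) (J - 4 * L * (t + 1)),
        dat := seg (fun e => (redL n (R (slotIx L M e))).reverse) (M * L - (t + 1) * L)
          ((t + 1) * L),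
        p := M - (t + 1)}) (L * (150 * n + 80) + 10) := by
  have hbd : 4 * L * t + 4 * L ≤ J := by
    calc 4 * L * t + 4 * L = 4 * L * (t + 1) := by ring
      _ ≤ 4 * L * M := Nat.mul_le_mul_left _ ht
      _ ≤ J := hJ
  have hbd2 : t * L + L ≤ M * L := by
    calc t * L + L = (t + 1) * L := by ring
      _ ≤ M * L := Nat.mul_le_mul_right _ ht
  obtain ⟨g, hg⟩ : ∃ g, M - t = g + 1 := ⟨M - t - 1, by omega⟩
  have hg' : M - (t + 1) = g := by omega
  have h0 := t_pop (Ω := Ω) .p g (f := s.st) (by simp [hp, hg])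
  simp only [
      upd_arg, upd_dat, upd_acc, upd_t1, upd_t2, upd_t3, upd_res, upd_out, upd_cc, upd_n, upd_s,
      upd_L, upd_q, upd_tau, upd_K, upd_w, upd_z, upd_zb, upd_d, upd_db, upd_e, upd_v, upd_p,
      upd_i, upd_j, upd_a, upd_b, upd_B, upd_N, upd_m, upd_h, upd_u1, upd_u2, upd_u3, upd_u4,
      upd_u5, upd_u6, upd_x1, upd_x2, upd_x3, upd_x4, st_arg, st_dat, st_acc, st_t1, st_t2, st_t3,
      st_res, st_out, st_cc, st_n, st_s, st_L, st_q, st_tau, st_K, st_w, st_z, st_zb, st_d, st_db,
      st_e, st_v, st_p, st_i, st_j, st_a, st_b, st_B, st_N, st_m, st_h, st_u1, st_u2, st_u3,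
      st_u4, st_u5, st_u6, st_x1, st_x2, st_x3, st_x4] at h0
  have h1 := w_for (Ω := Ω) .L .u2 (by decide) (body := drops 4)
      (fun i => {s with p := g, res := seg R (4 * L * t + i) (J - (4 * L * t + i))})
      L (20 * n + 8) (fun i hi a b => by
        have B := run_drops (Ω := Ω) 4 {s with
          p := g, res := seg R (4 * L * t + i) (J - (4 * L * t + i)), L := a, u2 := b}
          (R (4 * L * t + i)) (seg R (4 * L * t + i + 1) (J - (4 * L * t + i + 1)))
          (by simp only [hn]; exact hR _ (by omega)) (by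
            simp only []
            rw [seg_drop R (k := 1) (by omega), seg_one]) hu
        simp only [
            upd_arg, upd_dat, upd_acc, upd_t1, upd_t2, upd_t3, upd_res, upd_out, upd_cc, upd_n,
            upd_s, upd_L, upd_q, upd_tau, upd_K, upd_w, upd_z, upd_zb, upd_d, upd_db, upd_e,
            upd_v, upd_p, upd_i, upd_j, upd_a, upd_b, upd_B, upd_N, upd_m, upd_h, upd_u1, upd_u2,
            upd_u3, upd_u4, upd_u5, upd_u6, upd_x1, upd_x2, upd_x3, upd_x4, st_arg, st_dat,
            st_acc, st_t1, st_t2, st_t3, st_res, st_out, st_cc, st_n, st_s, st_L, st_q, st_tau,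
            st_K, st_w, st_z, st_zb, st_d, st_db, st_e, st_v, st_p, st_i, st_j, st_a, st_b, st_B,
            st_N, st_m, st_h, st_u1, st_u2, st_u3, st_u4, st_u5, st_u6, st_x1, st_x2, st_x3,
            st_x4]
        exact B.congr rfl (by simp only [hn]; omega))
  simp only [
      upd_arg, upd_dat, upd_acc, upd_t1, upd_t2, upd_t3, upd_res, upd_out, upd_cc, upd_n, upd_s,
      upd_L, upd_q, upd_tau, upd_K, upd_w, upd_z, upd_zb, upd_d, upd_db, upd_e, upd_v, upd_p,
      upd_i, upd_j, upd_a, upd_b, upd_B, upd_N, upd_m, upd_h, upd_u1, upd_u2, upd_u3, upd_u4,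
      upd_u5, upd_u6, upd_x1, upd_x2, upd_x3, upd_x4, st_arg, st_dat, st_acc, st_t1, st_t2, st_t3,
      st_res, st_out, st_cc, st_n, st_s, st_L, st_q, st_tau, st_K, st_w, st_z, st_zb, st_d, st_db,
      st_e, st_v, st_p, st_i, st_j, st_a, st_b, st_B, st_N, st_m, st_h, st_u1, st_u2, st_u3,
      st_u4, st_u5, st_u6, st_x1, st_x2, st_x3, st_x4] at h1
  have h2 := w_for (Ω := Ω) .L .u2 (by decide) (body := red)
      (fun i => {s with
        p := g, res := seg R (4 * L * t + L + i) (J - (4 * L * t + L + i)),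
        dat := seg (fun e => (redL n (R (slotIx L M e))).reverse) (M * L - (t * L + i))
          (t * L + i)})
      L (63 * n + 35) (fun i hi a b => by
        have B := run_red (Ω := Ω) {s with
          p := g, res := seg R (4 * L * t + L + i) (J - (4 * L * t + L + i)),
          dat := seg (fun e => (redL n (R (slotIx L M e))).reverse) (M * L - (t * L + i))
            (t * L + i), L := a, u2 := b} n hn
          (R (4 * L * t + L + i)) (seg R (4 * L * t + L + i + 1) (J - (4 * L * t + L + i + 1)))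
          (hR _ (by omega)) (by
            simp only []
            rw [seg_drop R (k := 1) (by omega), seg_one]) ht1 hcc ht2 hu
        simp only [
            upd_arg, upd_dat, upd_acc, upd_t1, upd_t2, upd_t3, upd_res, upd_out, upd_cc, upd_n,
            upd_s, upd_L, upd_q, upd_tau, upd_K, upd_w, upd_z, upd_zb, upd_d, upd_db, upd_e,
            upd_v, upd_p, upd_i, upd_j, upd_a, upd_b, upd_B, upd_N, upd_m, upd_h, upd_u1, upd_u2,
            upd_u3, upd_u4, upd_u5, upd_u6, upd_x1, upd_x2, upd_x3, upd_x4, st_arg, st_dat,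
            st_acc, st_t1, st_t2, st_t3, st_res, st_out, st_cc, st_n, st_s, st_L, st_q, st_tau,
            st_K, st_w, st_z, st_zb, st_d, st_db, st_e, st_v, st_p, st_i, st_j, st_a, st_b, st_B,
            st_N, st_m, st_h, st_u1, st_u2, st_u3, st_u4, st_u5, st_u6, st_x1, st_x2, st_x3,
            st_x4] at B
        simp only [
            upd_arg, upd_dat, upd_acc, upd_t1, upd_t2, upd_t3, upd_res, upd_out, upd_cc, upd_n,
            upd_s, upd_L, upd_q, upd_tau, upd_K, upd_w, upd_z, upd_zb, upd_d, upd_db, upd_e,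
            upd_v, upd_p, upd_i, upd_j, upd_a, upd_b, upd_B, upd_N, upd_m, upd_h, upd_u1, upd_u2,
            upd_u3, upd_u4, upd_u5, upd_u6, upd_x1, upd_x2, upd_x3, upd_x4, st_arg, st_dat,
            st_acc, st_t1, st_t2, st_t3, st_res, st_out, st_cc, st_n, st_s, st_L, st_q, st_tau,
            st_K, st_w, st_z, st_zb, st_d, st_db, st_e, st_v, st_p, st_i, st_j, st_a, st_b, st_B,
            st_N, st_m, st_h, st_u1, st_u2, st_u3, st_u4, st_u5, st_u6, st_x1, st_x2, st_x3,
            st_x4]
        refine B.congr ?_ le_rfl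
        congr 1
        have e1 : M * L - (t * L + (i + 1)) + 1 = M * L - (t * L + i) := by omega
        rw [← add_assoc (t * L), seg_succ, show M * L - (t * L + i + 1) + 1 =
          M * L - (t * L + i) by omega, slotIx_eq ht hi, ← add_assoc])
  simp only [
      upd_arg, upd_dat, upd_acc, upd_t1, upd_t2, upd_t3, upd_res, upd_out, upd_cc, upd_n, upd_s,
      upd_L, upd_q, upd_tau, upd_K, upd_w, upd_z, upd_zb, upd_d, upd_db, upd_e, upd_v, upd_p,
      upd_i, upd_j, upd_a, upd_b, upd_B, upd_N, upd_m, upd_h, upd_u1, upd_u2, upd_u3, upd_u4,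
      upd_u5, upd_u6, upd_x1, upd_x2, upd_x3, upd_x4, st_arg, st_dat, st_acc, st_t1, st_t2, st_t3,
      st_res, st_out, st_cc, st_n, st_s, st_L, st_q, st_tau, st_K, st_w, st_z, st_zb, st_d, st_db,
      st_e, st_v, st_p, st_i, st_j, st_a, st_b, st_B, st_N, st_m, st_h, st_u1, st_u2, st_u3,
      st_u4, st_u5, st_u6, st_x1, st_x2, st_x3, st_x4] at h2
  have h3 := w_for (Ω := Ω) .L .u2 (by decide) (body := drops 8)
      (fun i => {s with
        p := g, res := seg R (4 * L * t + 2 * L + 2 * i) (J - (4 * L * t + 2 * L + 2 * i)),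
        dat := seg (fun e => (redL n (R (slotIx L M e))).reverse) (M * L - (t * L + L))
          (t * L + L)})
      L (40 * n + 16) (fun i hi a b => by
        have B := run_drops (Ω := Ω) 8 {s with
          p := g, res := seg R (4 * L * t + 2 * L + 2 * i) (J - (4 * L * t + 2 * L + 2 * i)),
          dat := seg (fun e => (redL n (R (slotIx L M e))).reverse) (M * L - (t * L + L))
            (t * L + L), L := a, u2 := b}
          (seg R (4 * L * t + 2 * L + 2 * i) 2)
          (seg R (4 * L * t + 2 * L + 2 * i + 2) (J - (4 * L * t + 2 * L + 2 * i + 2)))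
          (by rw [seg_length (fun k _ _ => hR k (by omega))]; simp only [hn]; ring) (by
            simp only []
            rw [seg_drop R (k := 2) (by omega)]) hu
        simp only [
            upd_arg, upd_dat, upd_acc, upd_t1, upd_t2, upd_t3, upd_res, upd_out, upd_cc, upd_n,
            upd_s, upd_L, upd_q, upd_tau, upd_K, upd_w, upd_z, upd_zb, upd_d, upd_db, upd_e,
            upd_v, upd_p, upd_i, upd_j, upd_a, upd_b, upd_B, upd_N, upd_m, upd_h, upd_u1, upd_u2,
            upd_u3, upd_u4, upd_u5, upd_u6, upd_x1, upd_x2, upd_x3, upd_x4, st_arg, st_dat,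
            st_acc, st_t1, st_t2, st_t3, st_res, st_out, st_cc, st_n, st_s, st_L, st_q, st_tau,
            st_K, st_w, st_z, st_zb, st_d, st_db, st_e, st_v, st_p, st_i, st_j, st_a, st_b, st_B,
            st_N, st_m, st_h, st_u1, st_u2, st_u3, st_u4, st_u5, st_u6, st_x1, st_x2, st_x3,
            st_x4] at B
        simp only [
            upd_arg, upd_dat, upd_acc, upd_t1, upd_t2, upd_t3, upd_res, upd_out, upd_cc, upd_n,
            upd_s, upd_L, upd_q, upd_tau, upd_K, upd_w, upd_z, upd_zb, upd_d, upd_db, upd_e,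
            upd_v, upd_p, upd_i, upd_j, upd_a, upd_b, upd_B, upd_N, upd_m, upd_h, upd_u1, upd_u2,
            upd_u3, upd_u4, upd_u5, upd_u6, upd_x1, upd_x2, upd_x3, upd_x4, st_arg, st_dat,
            st_acc, st_t1, st_t2, st_t3, st_res, st_out, st_cc, st_n, st_s, st_L, st_q, st_tau,
            st_K, st_w, st_z, st_zb, st_d, st_db, st_e, st_v, st_p, st_i, st_j, st_a, st_b, st_B,
            st_N, st_m, st_h, st_u1, st_u2, st_u3, st_u4, st_u5, st_u6, st_x1, st_x2, st_x3,
            st_x4]
        exact B.congr rfl (by simp only [hn]; omega))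
  simp only [
      upd_arg, upd_dat, upd_acc, upd_t1, upd_t2, upd_t3, upd_res, upd_out, upd_cc, upd_n, upd_s,
      upd_L, upd_q, upd_tau, upd_K, upd_w, upd_z, upd_zb, upd_d, upd_db, upd_e, upd_v, upd_p,
      upd_i, upd_j, upd_a, upd_b, upd_B, upd_N, upd_m, upd_h, upd_u1, upd_u2, upd_u3, upd_u4,
      upd_u5, upd_u6, upd_x1, upd_x2, upd_x3, upd_x4, st_arg, st_dat, st_acc, st_t1, st_t2, st_t3,
      st_res, st_out, st_cc, st_n, st_s, st_L, st_q, st_tau, st_K, st_w, st_z, st_zb, st_d, st_db,
      st_e, st_v, st_p, st_i, st_j, st_a, st_b, st_B, st_N, st_m, st_h, st_u1, st_u2, st_u3,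
      st_u4, st_u5, st_u6, st_x1, st_x2, st_x3, st_x4] at h3
  refine (((h0.seq (h1.cast ?_ rfl le_rfl)).seq (h2.cast ?_ rfl le_rfl)).seq
    (h3.cast ?_ ?_ le_rfl)).congr rfl ?_
  · congr 1
    cases s
    simp_all
  · congr 1
    simp [hL, hu2, hdat]
  · congr 1
    rw [show 4 * L * t + 2 * L + 2 * 0 = 4 * L * t + L + L by ring]
  · congr 1
    rw [show 4 * L * t + 2 * L + 2 * L = 4 * L * (t + 1) by ring]
    simp only [hL, hu2, hg', add_mul, one_mul]
  · ring_nf; omega

/-- Extraction. -/
def exLoop : Cmd W G := Cmd.seq (.loop (ne .p) exBody) (clear .res)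

theorem run_exLoop (s : St) (n L M J : ℕ) (R : ℕ → List Bool)
    (hR : ∀ k < J, (R k).length = 4 * n) (hJ : 4 * L * M ≤ J) (hn : s.n = n) (hL : s.L = L)
    (hu : s.u1 = 0) (hu2 : s.u2 = 0) (ht1 : s.t1 = []) (ht2 : s.t2 = []) (hcc : s.cc = []) :
    Run Ω exLoop (St.st {s with p := M, res := seg R 0 J, dat := []})
      (St.st {s with p := 0, res := [],
                     dat := seg (fun e => (redL n (R (slotIx L M e))).reverse) 0 (M * L)})
      (M * (L * (150 * n + 80) + 11) + 8 * (J * n) + 2) := by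
  have h := Run.loop_iter (Ω := Ω) (t := ne .p) (a := exBody)
    (fun t => St.st {s with
      res := seg R (4 * L * t) (J - 4 * L * t),
      dat := seg (fun e => (redL n (R (slotIx L M e))).reverse) (M * L - t * L) (t * L),
      p := M - t})
    M (L * (150 * n + 80) + 10)
    (fun t ht => by
      obtain ⟨g, hg⟩ : ∃ g, M - t = g + 1 := ⟨M - t - 1, by omega⟩
      simp [ne, tops, hg, ticks_succ])
    (by simp [ne, tops])
    (fun t ht => run_exBody _ n L M J t R hR ht hJ hn hL rfl hu hu2 ht1 ht2 hcc rfl rfl)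
  have h := h.seq (w_clear .res rfl)
  simp only [
      upd_arg, upd_dat, upd_acc, upd_t1, upd_t2, upd_t3, upd_res, upd_out, upd_cc, upd_n, upd_s,
      upd_L, upd_q, upd_tau, upd_K, upd_w, upd_z, upd_zb, upd_d, upd_db, upd_e, upd_v, upd_p,
      upd_i, upd_j, upd_a, upd_b, upd_B, upd_N, upd_m, upd_h, upd_u1, upd_u2, upd_u3, upd_u4,
      upd_u5, upd_u6, upd_x1, upd_x2, upd_x3, upd_x4, st_arg, st_dat, st_acc, st_t1, st_t2, st_t3,
      st_res, st_out, st_cc, st_n, st_s, st_L, st_q, st_tau, st_K, st_w, st_z, st_zb, st_d, st_db,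
      st_e, st_v, st_p, st_i, st_j, st_a, st_b, st_B, st_N, st_m, st_h, st_u1, st_u2, st_u3,
      st_u4, st_u5, st_u6, st_x1, st_x2, st_x3, st_x4] at h
  refine h.cast ?_ ?_ ?_
  · simp
  · simp
  · have : (seg R (4 * L * M) (J - 4 * L * M)).length ≤ J * (4 * n) := by
      rw [seg_length (n := 4 * n) (fun k _ h => hR k (by omega))]
      exact Nat.mul_le_mul_right _ (by omega)
    have h2 : J * (4 * n) = 4 * (J * n) := by ring
    have h3 : M * (L * (150 * n + 80) + 10 + 1) = M * (L * (150 * n + 80) + 11) := by ring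
    omega

/-- chunks of a word -/
def chunk (l : List Bool) (k i : ℕ) : List Bool := (l.drop (i * k)).take k

theorem chunk_length {l : List Bool} {k m i : ℕ} (hl : l.length = m * k) (hi : i < m) :
    (chunk l k i).length = k := by
  have : (i + 1) * k ≤ m * k := Nat.mul_le_mul_right _ hi
  rw [Nat.add_mul, one_mul] at this
  simp [chunk]; omega

theorem seg_chunk {l : List Bool} {k m : ℕ} (hl : l.length = m * k) : seg (chunk l k) 0 m = l := by
  have key : ∀ j, j ≤ m → seg (chunk l k) 0 j = l.take (j * k) := by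
    intro j hj
    induction j with
    | zero => simp
    | succ j ih =>
      rw [seg_succ', ih (by omega), zero_add, chunk, Nat.add_mul, one_mul, List.take_add]
  rw [key m le_rfl, ← hl, List.take_length]

/-- the pre-chirp -/
def preW (n w : ℕ) (x : ℕ → List Bool) (k : ℕ) : List Bool :=
  (x k).rotate (n - (zdq n w 0 (n - w) k).1)

/-- the second factor -/
def yWord (n w L M : ℕ) : List Bool :=
  List.replicate (16 * (M * L * n)) false ++
    rseg (fun p => slotY n (zdq n w (n / 2) (n - w) p).1) (2 * L)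

/-- the first factor -/
def xWord (n w L M : ℕ) (x : ℕ → List Bool) : List Bool :=
  rseg (xs n L M (preW n w x)) (4 * L * M + 2 * L)

/-- the size of the factors -/
def nWord (n L M : ℕ) : ℕ := (4 * L * M + 2 * L) * (4 * n)

/-- the bits of the product -/
def prodBits (n w L M : ℕ) (x : ℕ → List Bool) : List Bool :=
  (bin (2 * nWord n L M) (val (xWord n w L M x) * val (yWord n w L M))).reverse

/-- the result of the transform -/
def transOut (n w c L M : ℕ) (x : ℕ → List Bool) (e : ℕ) : List Bool :=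
  (redL n (chunk (prodBits n w L M x) (4 * n) (slotIx L M e))).reverse.rotate
    (n - (zdq n w c 0 e).1)

theorem yWord_length {n w L M : ℕ} (hn : 0 < n) : (yWord n w L M).length = nWord n L M := by
  rw [yWord, List.length_append, List.length_replicate, rseg_length (n := 4 * n)
    (fun k _ => slotY_length (zdq_lt (by omega) k)), nWord]
  ring

theorem xWord_length {n w L M : ℕ} {x : ℕ → List Bool} (hx : ∀ k < M * L, (x k).length = n) :
    (xWord n w L M x).length = nWord n L M := by
  rw [xWord, rseg_length (n := 4 * n) (fun k _ => xs_length (fun k hk => by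
    rw [preW, List.length_rotate]; exact hx k hk) k), nWord]

theorem bin_length (k z : ℕ) : (bin k z).length = k := by simp [bin]

theorem prodBits_length {n w L M : ℕ} (x : ℕ → List Bool) :
    (prodBits n w L M x).length = (2 * (4 * L * M + 2 * L)) * (4 * n) := by
  rw [prodBits, List.length_reverse, bin_length, nWord]; ring

theorem Run.call {s s' : W → List G} {k : ℕ} (h : Ω s s' k) : Run Ω .call s s' k :=
  ⟨k, le_rfl, .call _ _ _ h⟩

/-- The transform. -/
def trans : Cmd W G :=
  Cmd.seq (Cmd.seq (Cmd.seq (Cmd.seq (Cmd.seq (Cmd.seq (Cmd.seq (Cmd.seq (Cmd.seq (Cmd.seq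
    (Cmd.seq (Cmd.seq (Cmd.seq (Cmd.seq (Cmd.seq (Cmd.seq (Cmd.seq (Cmd.seq (Cmd.seq (Cmd.seq
    (Cmd.seq (Cmd.seq (Cmd.seq (copy .s .z .u1) (copy .s .zb .u1)) (copy .n .db .u1)) (subMod .d
    .db .w .x1)) table) (moveAll .z .zb)) (moveAll .d .db)) (subMod .d .db .w .x1)) csLoop) pad)
    (push .sep .arg)) xLoop) (forT .L .u2 (zeros 8))) .call) exLoop) (moveAll .z .zb)) (moveAll .d
    .db)) (forT .x2 .u1 (mv .zb .z))) csLoop) (moveAll .acc .dat)) (clear .z)) (clear .zb)) (clear
    .d)) (clear .db)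

end Vale.Agent.P338
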