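import Vale.Agent.Lib.P338.Cs

/-! Macros on the concrete state, and passes over segmented words. -/

set_option linter.constructorNameAsVariable false

namespace Vale.Agent.P338

open Function

section W
variable {Ω : (W → List G) → (W → List G) → ℕ → Prop}

theorem w_take (i j R U : W) (h : [i, j, R, U].Nodup) (x y : List Bool) {z : List Bool} {f : W → List G} {k : ℕ}
    (hx : x.length = k) (hi : f i = bw (x ++ y)) (hj : f j = bw z)
    (hR : f R = ticks k) (hU : f U = ticks 0) :
    Run Ω (takeN i j R U) f (update (update f i (bw y)) j (bw (x.reverse ++ z))) (5 * k + 2) :=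
  runW_take h hx hi hj hR hU

theorem w_take' (i j R U : W) (h : [i, j, R, U].Nodup) (x y : List Bool) {z : List G} {f : W → List G} {k : ℕ}
    (hx : x.length = k) (hi : f i = bw (x ++ y)) (hj : f j = z)
    (hR : f R = ticks k) (hU : f U = ticks 0) :
    Run Ω (takeN i j R U) f (update (update f i (bw y)) j (bw x.reverse ++ z)) (5 * k + 2) :=
  runW_take' h hx hi hj hR hU

theorem w_drop (i R U : W) (h : [i, R, U].Nodup) (x y : List Bool) {f : W → List G} {k : ℕ}
    (hx : x.length = k) (hi : f i = bw (x ++ y))
    (hR : f R = ticks k) (hU : f U = ticks 0) :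
    Run Ω (dropN i R U) f (update f i (bw y)) (5 * k + 2) :=
  runW_drop h hx hi hR hU

theorem w_pushN (a : Bool) (i R U : W) (h : [i, R, U].Nodup) {z : List Bool} {f : W → List G} {k : ℕ}
    (hi : f i = bw z) (hR : f R = ticks k) (hU : f U = ticks 0) :
    Run Ω (pushN (G.bit a) i R U) f (update f i (bw (List.replicate k a ++ z))) (5 * k + 2) :=
  runW_pushN a h hi hR hU

theorem w_pushN' (a : G) (i R U : W) (h : [i, R, U].Nodup) {z : List G} {f : W → List G} {k : ℕ}
    (hi : f i = z) (hR : f R = ticks k) (hU : f U = ticks 0) :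
    Run Ω (pushN a i R U) f (update f i (List.replicate k a ++ z)) (5 * k + 2) :=
  run_pushN a h hi hR hU

theorem w_mv (i j : W) (h : [i, j].Nodup) (a : Bool) (x : List Bool) {z : List Bool} {f : W → List G}
    (hi : f i = bw (a :: x)) (hj : f j = bw z) :
    Run Ω (mv i j) f (update (update f i (bw x)) j (bw (a :: z))) 1 :=
  runW_mv h hi hj

theorem w_moveAll (i j : W) (hij : [i, j].Nodup) {f : W → List G} {x y : List Bool}
    (hi : f i = bw x) (hj : f j = bw y) :
    Run Ω (moveAll i j) f (update (update f i (bw [])) j (bw (x.reverse ++ y)))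
      (2 * x.length + 1) := runW_moveAll hij hi hj

theorem w_moveAll' (i j : W) (hij : [i, j].Nodup) {f : W → List G} {x : List Bool} {y : List G}
    (hi : f i = bw x) (hj : f j = y) :
    Run Ω (moveAll i j) f (update (update f i (bw [])) j (bw x.reverse ++ y))
      (2 * x.length + 1) := runW_moveAll' hij hi hj

theorem w_push (a : Bool) (i : W) {f : W → List G} {x : List Bool} (hi : f i = bw x) :
    Run Ω (push (G.bit a) i) f (update f i (bw (a :: x))) 1 := runW_push a hi

theorem w_push' (a : G) (i : W) {f : W → List G} {x : List G} (hi : f i = x) :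
    Run Ω (push a i) f (update f i (a :: x)) 1 := hi ▸ run_push a i f

theorem w_pop (i : W) (a : Bool) (x : List Bool) {f : W → List G} (hi : f i = bw (a :: x)) :
    Run Ω (pop i) f (update f i (bw x)) 1 := runW_pop hi

theorem w_clear (i : W) {f : W → List G} {x : List Bool} (hi : f i = bw x) :
    Run Ω (clear i) f (update f i (bw [])) (2 * x.length + 1) := runW_clear hi

theorem t_mv (i j : W) (h : [i, j].Nodup) (k : ℕ) {m : ℕ} {f : W → List G}
    (hi : f i = ticks (k + 1)) (hj : f j = ticks m) :
    Run Ω (mv i j) f (update (update f i (ticks k)) j (ticks (m + 1))) 1 := runT_mv h hi hj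

theorem t_moveAll (i j : W) (h : [i, j].Nodup) {k m : ℕ} {f : W → List G}
    (hi : f i = ticks k) (hj : f j = ticks m) :
    Run Ω (moveAll i j) f (update (update f i (ticks 0)) j (ticks (k + m))) (2 * k + 1) :=
  runT_moveAll h hi hj

theorem t_clear (i : W) {k : ℕ} {f : W → List G} (hi : f i = ticks k) :
    Run Ω (clear i) f (update f i (ticks 0)) (2 * k + 1) := runT_clear hi

theorem t_push (i : W) {k : ℕ} {f : W → List G} (hi : f i = ticks k) :
    Run Ω (push G.tick i) f (update f i (ticks (k + 1))) 1 := runT_push hi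

theorem t_pop (i : W) (k : ℕ) {f : W → List G} (hi : f i = ticks (k + 1)) :
    Run Ω (pop i) f (update f i (ticks k)) 1 := runT_pop hi

theorem t_copy (i j k : W) (h : [i, j, k].Nodup) {a b : ℕ} {f : W → List G}
    (hi : f i = ticks a) (hj : f j = ticks b) (hk : f k = ticks 0) :
    Run Ω (copy i j k) f (update f j (ticks (a + b))) (4 * a + 2) := runT_copy h hi hj hk

theorem w_subMod (a a' b u : W) (h : [a, a', b, u].Nodup) {f : W → List G} {n k m : ℕ}
    (hk : k ≤ n) (hm : m ≤ n)
    (ha : f a = ticks k) (ha' : f a' = ticks (n - k)) (hb : f b = ticks m) (hu : f u = ticks 0) :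
    Run Ω (subMod a a' b u) f (update (update f a (ticks (sm n k m))) a' (ticks (n - sm n k m)))
      (10 * n + 6) := run_subMod h hk hm ha ha' hb hu

theorem w_for (R U : W) (h : [R, U].Nodup) {body : Cmd W G} (S : ℕ → St) (k c : ℕ)
    (hb : ∀ m < k, ∀ a b, Run Ω body (update (update (S m).st R (ticks a)) U (ticks b))
      (update (update (S (m + 1)).st R (ticks a)) U (ticks b)) c) :
    Run Ω (forT R U body) (update (update (S 0).st R (ticks k)) U (ticks 0))
      (update (update (S k).st R (ticks k)) U (ticks 0)) (k * (c + 4) + 2) :=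
  run_forT h (fun m => (S m).st) k c hb

/-! ### Segmented words -/

/-- The concatenation of the words `x a, …, x (a + m - 1)`. -/
def seg (x : ℕ → List Bool) (a m : ℕ) : List Bool := (List.range' a m).flatMap x

@[simp] theorem seg_zero (x : ℕ → List Bool) (a : ℕ) : seg x a 0 = [] := rfl

theorem seg_succ (x : ℕ → List Bool) (a m : ℕ) : seg x a (m + 1) = x a ++ seg x (a + 1) m := by
  simp [seg, List.range'_succ]

theorem seg_add (x : ℕ → List Bool) (a m k : ℕ) : seg x a (m + k) = seg x a m ++ seg x (a + m) k := by
  simp only [seg]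
  rw [← List.flatMap_append, List.range'_append_1]

@[simp] theorem seg_one (x : ℕ → List Bool) (a : ℕ) : seg x a 1 = x a := by
  simp [seg_succ]

theorem seg_succ' (x : ℕ → List Bool) (a m : ℕ) : seg x a (m + 1) = seg x a m ++ x (a + m) := by
  rw [seg_add, seg_one]

theorem seg_congr {x y : ℕ → List Bool} {a m : ℕ} (h : ∀ k, a ≤ k → k < a + m → x k = y k) :
    seg x a m = seg y a m := by
  induction m with
  | zero => rfl
  | succ m ih =>
    rw [seg_succ', seg_succ', ih (fun k h1 h2 => h k h1 (by omega)), h _ (by omega) (by omega)]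

theorem seg_length {x : ℕ → List Bool} {a m n : ℕ} (h : ∀ k, a ≤ k → k < a + m → (x k).length = n) :
    (seg x a m).length = m * n := by
  induction m with
  | zero => simp
  | succ m ih =>
    rw [seg_succ', List.length_append, ih (fun k h1 h2 => h k h1 (by omega)),
      h _ (by omega) (by omega)]
    ring

theorem seg_shift (x : ℕ → List Bool) (a b m : ℕ) : seg (fun k => x (b + k)) a m = seg x (b + a) m := by
  induction m with
  | zero => rfl
  | succ m ih => rw [seg_succ', seg_succ', ih, add_assoc]

theorem seg_ne_nil {x : ℕ → List Bool} {a m : ℕ} (hm : 0 < m) (h : x a ≠ []) : seg x a m ≠ [] := by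
  obtain ⟨k, rfl⟩ : ∃ k, m = k + 1 := ⟨m - 1, by omega⟩
  rw [seg_succ]; simp [h]

/-- The loop of a pass over the words `x 0, …, x (m - 1)` on the stack `dat`. -/
theorem run_pass {body : Cmd W G} (S : ℕ → St) (x y : ℕ → List Bool) (m c : ℕ) (A₀ : List Bool)
    (hx : ∀ k < m, x k ≠ [])
    (hb : ∀ k < m, ∀ D A, Run Ω body (St.st {S k with dat := x k ++ D, acc := A})
      (St.st {S (k + 1) with dat := D, acc := (y k).reverse ++ A}) c) :
    Run Ω (.loop (ne .dat) body) (St.st {S 0 with dat := seg x 0 m, acc := A₀})
      (St.st {S m with dat := [], acc := (seg y 0 m).reverse ++ A₀}) (m * (c + 1) + 1) := by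
  have h := Run.loop_iter (Ω := Ω) (t := ne .dat) (a := body)
    (fun k => St.st {S k with dat := seg x k (m - k), acc := (seg y 0 k).reverse ++ A₀}) m c
    (fun k hk => by
      obtain ⟨a, l, hl⟩ := List.exists_cons_of_ne_nil
        (seg_ne_nil (x := x) (a := k) (m := m - k) (by omega) (hx k hk))
      simp [ne, tops, hl])
    (by simp [ne, tops])
    (fun k hk => by
      obtain ⟨j, hj⟩ : ∃ j, m - k = j + 1 := ⟨m - k - 1, by omega⟩
      refine (hb k hk (seg x (k + 1) j) ((seg y 0 k).reverse ++ A₀)).cast ?_ ?_ le_rfl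
      · simp only [hj, seg_succ]
      · simp only [show m - (k + 1) = j by omega, seg_succ', List.reverse_append, zero_add,
          List.append_assoc])
  simpa using h

end W

end Vale.Agent.P338
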